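import Mathlib

/-!
# P262 full sqrt(d): [A1] Prekopa-Leindler (midpoint version) for Gaussian measures

Plan for `pl_gauss_one`: first Lebesgue measure on `ℝ`: for `A, B` compact nonempty and measurable
`C ⊇ {(x+y)/2}`: `|C| ≥ (|A|+|B|)/2` (translate so that `max A = 0 = min B`, then `A ∪ B ⊆ A + B`);
inner regularity; layer cake for `f, g` bounded with the same sup; then truncation; then multiply
`f, g, h` by the Gaussian density (`φ x * φ y ≤ φ ((x+y)/2)^2`).
`pl_gauss_pi`: induction on `n` (Tonelli, `MeasureTheory.measurePreserving_piFinSuccAbove`).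
-/

open MeasureTheory ProbabilityTheory

namespace P262B

/-- Midpoint Brunn-Minkowski inequality on the line, compact sets. -/
theorem bm_one_compact {A B C : Set ℝ} (hA : IsCompact A) (hB : IsCompact B) (hAn : A.Nonempty)
    (hBn : B.Nonempty) (H : ∀ x ∈ A, ∀ y ∈ B, (x + y) / 2 ∈ C) :
    volume A + volume B ≤ 2 * volume C := by
  obtain ⟨m, hmA, hm⟩ := hA.exists_isGreatest hAn
  obtain ⟨l, hlB, hl⟩ := hB.exists_isLeast hBn
  -- the two pieces
  set P : Set ℝ := (fun z => 2 * z + (-l)) ⁻¹' A with hP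
  set Q : Set ℝ := (fun z => 2 * z + (-m)) ⁻¹' B with hQ
  have hPC : P ⊆ C ∩ Set.Iic ((m + l) / 2) := by
    intro z hz
    have hz' : 2 * z + (-l) ∈ A := hz
    refine ⟨?_, ?_⟩
    · have := H _ hz' l hlB
      have e : (2 * z + -l + l) / 2 = z := by ring
      rwa [e] at this
    · have := hm hz'
      simp only [Set.mem_Iic]
      linarith
  have hQC : Q ⊆ C ∩ Set.Ici ((m + l) / 2) := by
    intro z hz
    have hz' : 2 * z + (-m) ∈ B := hz
    refine ⟨?_, ?_⟩
    · have := H m hmA _ hz'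
      have e : (m + (2 * z + -m)) / 2 = z := by ring
      rwa [e] at this
    · have := hl hz'
      simp only [Set.mem_Ici]
      linarith
  have hvol : ∀ (S : Set ℝ) (t : ℝ), 2 * volume ((fun z => 2 * z + (-t)) ⁻¹' S) = volume S := by
    intro S t
    have e1 : ((fun z : ℝ => 2 * z + (-t)) ⁻¹' S) =
        (fun z : ℝ => 2 * z) ⁻¹' ((fun w : ℝ => w + (-t)) ⁻¹' S) := rfl
    rw [e1, Real.volume_preimage_mul_left (by norm_num : (2 : ℝ) ≠ 0), measure_preimage_add_right,
      ← mul_assoc]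
    have : (2 : ENNReal) * ENNReal.ofReal |(2 : ℝ)⁻¹| = 1 := by
      rw [abs_of_pos (by norm_num : (0 : ℝ) < 2⁻¹), ENNReal.ofReal_inv_of_pos (by norm_num)]
      simp only [ENNReal.ofReal_ofNat]
      exact ENNReal.mul_inv_cancel (by norm_num) (by norm_num)
    rw [this, one_mul]
  have hPm : MeasurableSet P := by
    apply measurableSet_preimage (by fun_prop) hA.measurableSet
  have hQm : MeasurableSet Q := by
    apply measurableSet_preimage (by fun_prop) hB.measurableSet
  have hPQ : volume (P ∩ Q) = 0 := by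
    refine measure_mono_null (t := {(m + l) / 2}) ?_ (by simp)
    rintro z ⟨h1, h2⟩
    have h3 := (hPC h1).2
    have h4 := (hQC h2).2
    simp only [Set.mem_Iic] at h3
    simp only [Set.mem_Ici] at h4
    simp only [Set.mem_singleton_iff]
    linarith
  have h1 : volume (P ∪ Q) + volume (P ∩ Q) = volume P + volume Q :=
    measure_union_add_inter P hQm
  rw [hPQ, add_zero] at h1
  have h2 : volume (P ∪ Q) ≤ volume C :=
    measure_mono (Set.union_subset (fun z hz => (hPC hz).1) (fun z hz => (hQC hz).1))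
  calc volume A + volume B = 2 * volume P + 2 * volume Q := by rw [hvol A l, hvol B m]
    _ = 2 * (volume P + volume Q) := by rw [mul_add]
    _ ≤ 2 * volume C := by rw [← h1]; gcongr

/-- Midpoint Brunn-Minkowski inequality on the line. -/
theorem bm_one {A B C : Set ℝ} (hA : MeasurableSet A) (hB : MeasurableSet B) (hAn : A.Nonempty)
    (hBn : B.Nonempty) (H : ∀ x ∈ A, ∀ y ∈ B, (x + y) / 2 ∈ C) :
    volume A + volume B ≤ 2 * volume C := by
  obtain ⟨a, ha⟩ := hAn
  obtain ⟨b, hb⟩ := hBn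
  rw [hA.measure_eq_iSup_isCompact volume, hB.measure_eq_iSup_isCompact volume]
  simp only [iSup_and']
  refine ENNReal.biSup_add_biSup_le' (p := fun K : Set ℝ => K ⊆ A ∧ IsCompact K)
    (q := fun K : Set ℝ => K ⊆ B ∧ IsCompact K) ⟨∅, by simp, by simp⟩ ⟨∅, by simp, by simp⟩ ?_
  rintro K ⟨hKA, hK⟩ L ⟨hLB, hL⟩
  have h1 : volume K ≤ volume (insert a K) := measure_mono (Set.subset_insert a K)
  have h2 : volume L ≤ volume (insert b L) := measure_mono (Set.subset_insert b L)
  refine (add_le_add h1 h2).trans ?_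
  refine bm_one_compact (hK.insert a) (hL.insert b) ⟨a, Set.mem_insert a K⟩
    ⟨b, Set.mem_insert b L⟩ ?_
  intro x hx y hy
  refine H x ?_ y ?_
  · rcases hx with rfl | hx
    · exact ha
    · exact hKA hx
  · rcases hy with rfl | hy
    · exact hb
    · exact hLB hy

/-- Normalised one-dimensional midpoint Prekopa-Leindler inequality. -/
theorem pl_norm {F G K : ℝ → ℝ} (hF : Measurable F) (hG : Measurable G) (hK : Measurable K)
    (hF0 : ∀ x, 0 ≤ F x) (hG0 : ∀ x, 0 ≤ G x) (hK0 : ∀ x, 0 ≤ K x)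
    (hF1 : ∀ x, F x ≤ 1) (hG1 : ∀ x, G x ≤ 1) (hFx : ∃ x, F x = 1) (hGx : ∃ x, G x = 1)
    (H : ∀ x y, F x * G y ≤ K ((x + y) / 2) ^ 2) :
    (∫⁻ x, ENNReal.ofReal (F x)) + (∫⁻ x, ENNReal.ofReal (G x)) ≤
      2 * (∫⁻ x, ENNReal.ofReal (K x)) := by
  rw [lintegral_eq_lintegral_meas_lt volume (Filter.Eventually.of_forall hF0) hF.aemeasurable,
    lintegral_eq_lintegral_meas_lt volume (Filter.Eventually.of_forall hG0) hG.aemeasurable,
    lintegral_eq_lintegral_meas_lt volume (Filter.Eventually.of_forall hK0) hK.aemeasurable]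
  have hmeas : ∀ {f : ℝ → ℝ}, Measurable (fun t : ℝ => volume {a : ℝ | t < f a}) := by
    intro f
    apply Antitone.measurable
    intro s t hst
    exact measure_mono (fun a (ha : t < f a) => lt_of_le_of_lt hst ha)
  rw [← lintegral_add_left hmeas, ← lintegral_const_mul _ hmeas]
  refine setLIntegral_mono (by exact hmeas.const_mul 2) ?_
  intro t ht
  have ht0 : 0 < t := ht
  rcases le_or_gt 1 t with h1 | h1
  · have e1 : {a : ℝ | t < F a} = ∅ := by
      ext a
      simp only [Set.mem_ofPred_eq, Set.mem_empty_iff_false, iff_false, not_lt]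
      exact (hF1 a).trans h1
    have e2 : {a : ℝ | t < G a} = ∅ := by
      ext a
      simp only [Set.mem_ofPred_eq, Set.mem_empty_iff_false, iff_false, not_lt]
      exact (hG1 a).trans h1
    simp only [e1, e2, measure_empty, add_zero]
    exact zero_le
  · obtain ⟨x0, hx0⟩ := hFx
    obtain ⟨y0, hy0⟩ := hGx
    refine bm_one (measurableSet_lt measurable_const hF) (measurableSet_lt measurable_const hG)
      ⟨x0, ?_⟩ ⟨y0, ?_⟩ ?_
    · simp only [Set.mem_ofPred_eq, hx0]; exact h1
    · simp only [Set.mem_ofPred_eq, hy0]; exact h1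
    · intro x hx y hy
      simp only [Set.mem_ofPred_eq] at hx hy ⊢
      have h2 : t ^ 2 < K ((x + y) / 2) ^ 2 := by
        calc t ^ 2 = t * t := by ring
          _ < F x * G y := by
              apply mul_lt_mul'' hx hy ht0.le ht0.le
          _ ≤ _ := H x y
      exact lt_of_pow_lt_pow_left₀ 2 (hK0 _) h2

theorem amgm_ennreal (u v : ENNReal) : 4 * (u * v) ≤ (u + v) ^ 2 := by
  by_cases hu : u = ⊤
  · subst hu
    simp
  by_cases hv : v = ⊤
  · subst hv
    simp
  lift u to NNReal using hu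
  lift v to NNReal using hv
  have h : 4 * (u * v) ≤ (u + v) ^ 2 := by
    rw [← NNReal.coe_le_coe]
    push_cast
    nlinarith [sq_nonneg ((u : ℝ) - v)]
  exact_mod_cast h

/-- One-dimensional midpoint Prekopa-Leindler inequality, real functions with attained maxima. -/
theorem pl_max {F G K : ℝ → ℝ} (hF : Measurable F) (hG : Measurable G) (hK : Measurable K)
    (hF0 : ∀ x, 0 ≤ F x) (hG0 : ∀ x, 0 ≤ G x) (hK0 : ∀ x, 0 ≤ K x) {a b : ℝ}
    (ha : 0 < a) (hb : 0 < b)
    (hF1 : ∀ x, F x ≤ a) (hG1 : ∀ x, G x ≤ b) (hFx : ∃ x, F x = a) (hGx : ∃ x, G x = b)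
    (H : ∀ x y, F x * G y ≤ K ((x + y) / 2) ^ 2) :
    (∫⁻ x, ENNReal.ofReal (F x)) * (∫⁻ x, ENNReal.ofReal (G x)) ≤
      (∫⁻ x, ENNReal.ofReal (K x)) ^ 2 := by
  set c : ℝ := Real.sqrt (a * b) with hc
  have hab : 0 < a * b := mul_pos ha hb
  have hc0 : 0 < c := Real.sqrt_pos.mpr hab
  have hc2 : c ^ 2 = a * b := Real.sq_sqrt hab.le
  have key := pl_norm (F := fun x => F x / a) (G := fun x => G x / b) (K := fun x => K x / c)
    (hF.div_const a) (hG.div_const b) (hK.div_const c)
    (fun x => div_nonneg (hF0 x) ha.le) (fun x => div_nonneg (hG0 x) hb.le)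
    (fun x => div_nonneg (hK0 x) hc0.le)
    (fun x => (div_le_one ha).mpr (hF1 x)) (fun x => (div_le_one hb).mpr (hG1 x))
    (hFx.imp fun x hx => by simp only [hx]; exact div_self ha.ne')
    (hGx.imp fun x hx => by simp only [hx]; exact div_self hb.ne')
    (fun x y => by
      simp only [div_pow, hc2]
      rw [div_mul_div_comm]
      gcongr
      exact H x y)
  have eF : ∫⁻ x, ENNReal.ofReal (F x) = ENNReal.ofReal a * ∫⁻ x, ENNReal.ofReal (F x / a) := by
    rw [← lintegral_const_mul _ (by fun_prop)]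
    refine lintegral_congr fun x => ?_
    rw [← ENNReal.ofReal_mul ha.le]
    congr 1
    field_simp
  have eG : ∫⁻ x, ENNReal.ofReal (G x) = ENNReal.ofReal b * ∫⁻ x, ENNReal.ofReal (G x / b) := by
    rw [← lintegral_const_mul _ (by fun_prop)]
    refine lintegral_congr fun x => ?_
    rw [← ENNReal.ofReal_mul hb.le]
    congr 1
    field_simp
  have eK : ∫⁻ x, ENNReal.ofReal (K x) = ENNReal.ofReal c * ∫⁻ x, ENNReal.ofReal (K x / c) := by
    rw [← lintegral_const_mul _ (by fun_prop)]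
    refine lintegral_congr fun x => ?_
    rw [← ENNReal.ofReal_mul hc0.le]
    congr 1
    field_simp
  rw [eF, eG, eK]
  set U := ∫⁻ x, ENNReal.ofReal (F x / a)
  set V := ∫⁻ x, ENNReal.ofReal (G x / b)
  set W := ∫⁻ x, ENNReal.ofReal (K x / c)
  have hUV : U * V ≤ W ^ 2 := by
    have h4 : 4 * (U * V) ≤ 4 * W ^ 2 := by
      calc 4 * (U * V) ≤ (U + V) ^ 2 := amgm_ennreal U V
        _ ≤ (2 * W) ^ 2 := by gcongr
        _ = 4 * W ^ 2 := by rw [mul_pow]; norm_num
    exact (ENNReal.mul_le_mul_iff_right (by norm_num) (by norm_num)).mp h4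
  calc ENNReal.ofReal a * U * (ENNReal.ofReal b * V)
      = ENNReal.ofReal (a * b) * (U * V) := by rw [ENNReal.ofReal_mul ha.le]; ring
    _ ≤ ENNReal.ofReal (a * b) * W ^ 2 := by gcongr
    _ = (ENNReal.ofReal c * W) ^ 2 := by
        rw [mul_pow, ← ENNReal.ofReal_pow hc0.le, hc2]

/-- One-dimensional midpoint Prekopa-Leindler inequality for Lebesgue measure, simple functions. -/
theorem pl_simple {h : ℝ → ENNReal} (hh : Measurable h) (φ ψ : SimpleFunc ℝ NNReal)
    (H : ∀ x y, (φ x : ENNReal) * ψ y ≤ h ((x + y) / 2) ^ 2) :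
    (∫⁻ x, (φ x : ENNReal)) * (∫⁻ x, (ψ x : ENNReal)) ≤ (∫⁻ x, h x) ^ 2 := by
  obtain ⟨a, haR, ha⟩ := Finset.exists_max_image φ.range id ⟨φ 0, φ.mem_range_self 0⟩
  obtain ⟨b, hbR, hb⟩ := Finset.exists_max_image ψ.range id ⟨ψ 0, ψ.mem_range_self 0⟩
  have ha' : ∀ x, φ x ≤ a := fun x => ha _ (φ.mem_range_self x)
  have hb' : ∀ x, ψ x ≤ b := fun x => hb _ (ψ.mem_range_self x)
  obtain ⟨x0, hx0⟩ := SimpleFunc.mem_range.mp haR
  obtain ⟨y0, hy0⟩ := SimpleFunc.mem_range.mp hbR
  rcases eq_or_lt_of_le (zero_le (a := a)) with h0 | h0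
  · have : ∀ x, φ x = 0 := fun x => le_antisymm (by rw [h0]; exact ha' x) zero_le
    simp [this]
  rcases eq_or_lt_of_le (zero_le (a := b)) with h1 | h1
  · have : ∀ x, ψ x = 0 := fun x => le_antisymm (by rw [h1]; exact hb' x) zero_le
    simp [this]
  set c : ℝ := Real.sqrt (a * b) with hc
  have hab : (0 : ℝ) < a * b := by positivity
  have hc0 : 0 < c := Real.sqrt_pos.mpr hab
  have hc2 : c ^ 2 = a * b := Real.sq_sqrt hab.le
  set K : ℝ → ℝ := fun z => (min (h z) (ENNReal.ofReal c)).toReal with hK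
  have hKle : ∀ z, ENNReal.ofReal (K z) ≤ h z := by
    intro z
    rw [hK]
    simp only
    rw [ENNReal.ofReal_toReal (ne_top_of_le_ne_top ENNReal.ofReal_ne_top (min_le_right _ _))]
    exact min_le_left _ _
  have hφ : Measurable (fun x => (φ x : ℝ)) := φ.measurable.coe_nnreal_real
  have hψ : Measurable (fun x => (ψ x : ℝ)) := ψ.measurable.coe_nnreal_real
  have hKm : Measurable K := (hh.min measurable_const).ennreal_toReal
  have key := pl_max (F := fun x => (φ x : ℝ)) (G := fun x => (ψ x : ℝ)) (K := K) hφ hψ hKm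
    (fun x => (φ x).2) (fun x => (ψ x).2) (fun z => ENNReal.toReal_nonneg)
    (a := a) (b := b) (by exact_mod_cast h0) (by exact_mod_cast h1)
    (fun x => by exact_mod_cast ha' x) (fun x => by exact_mod_cast hb' x)
    ⟨x0, by rw [hx0]⟩ ⟨y0, by rw [hy0]⟩ (by
      intro x y
      simp only [hK]
      rcases le_total (h ((x + y) / 2)) (ENNReal.ofReal c) with h2 | h2
      · rw [min_eq_left h2]
        have h3 : h ((x + y) / 2) ≠ ⊤ := ne_top_of_le_ne_top ENNReal.ofReal_ne_top h2
        have h4 := ENNReal.toReal_mono (ENNReal.pow_ne_top h3) (H x y)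
        rw [ENNReal.toReal_mul, ENNReal.toReal_pow] at h4
        simpa using h4
      · rw [min_eq_right h2, ENNReal.toReal_ofReal hc0.le, hc2]
        have h5 : (φ x : ℝ) ≤ a := by exact_mod_cast ha' x
        have h6 : (ψ y : ℝ) ≤ b := by exact_mod_cast hb' y
        exact mul_le_mul h5 h6 (ψ y).2 a.2)
  simp only [ENNReal.ofReal_coe_nnreal] at key
  refine key.trans ?_
  gcongr
  exact hKle _

/-- One-dimensional midpoint Prekopa-Leindler inequality for Lebesgue measure. -/
theorem pl_leb {f g h : ℝ → ENNReal} (hh : Measurable h)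
    (H : ∀ x y, f x * g y ≤ h ((x + y) / 2) ^ 2) :
    (∫⁻ x, f x) * (∫⁻ x, g x) ≤ (∫⁻ x, h x) ^ 2 := by
  rw [lintegral_eq_nnreal f volume, lintegral_eq_nnreal g volume]
  simp only [ENNReal.iSup_mul, ENNReal.mul_iSup]
  refine iSup_le fun ψ => iSup_le fun hψ => iSup_le fun φ => iSup_le fun hφ => ?_
  have := pl_simple hh φ ψ (fun x y => (mul_le_mul' (hφ x) (hψ y)).trans (H x y))
  rw [← SimpleFunc.lintegral_eq_lintegral, ← SimpleFunc.lintegral_eq_lintegral]
  simpa using this

theorem gaussianPDF_mid (x y : ℝ) :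
    gaussianPDF 0 1 x * gaussianPDF 0 1 y ≤ gaussianPDF 0 1 ((x + y) / 2) ^ 2 := by
  simp only [gaussianPDF]
  rw [← ENNReal.ofReal_mul (gaussianPDFReal_nonneg _ _ _),
    ← ENNReal.ofReal_pow (gaussianPDFReal_nonneg _ _ _)]
  apply ENNReal.ofReal_le_ofReal
  simp only [gaussianPDFReal]
  rw [mul_pow, mul_mul_mul_comm, ← sq, ← Real.exp_add, ← Real.exp_nat_mul]
  gcongr
  push_cast
  nlinarith [sq_nonneg (x - y)]

/-- One-dimensional midpoint Prekopa-Leindler inequality for the standard Gaussian. -/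
theorem pl_gauss_one {f g h : ℝ → ENNReal} (hf : Measurable f) (hg : Measurable g)
    (hh : Measurable h) (H : ∀ x y, f x * g y ≤ h ((x + y) / 2) ^ 2) :
    (∫⁻ x, f x ∂(gaussianReal 0 1)) * (∫⁻ x, g x ∂(gaussianReal 0 1)) ≤
      (∫⁻ x, h x ∂(gaussianReal 0 1)) ^ 2 := by
  rw [gaussianReal_of_var_ne_zero 0 one_ne_zero,
    lintegral_withDensity_eq_lintegral_mul _ (measurable_gaussianPDF 0 1) hf,
    lintegral_withDensity_eq_lintegral_mul _ (measurable_gaussianPDF 0 1) hg,
    lintegral_withDensity_eq_lintegral_mul _ (measurable_gaussianPDF 0 1) hh]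
  refine pl_leb ((measurable_gaussianPDF 0 1).mul hh) ?_
  intro x y
  simp only [Pi.mul_apply]
  calc gaussianPDF 0 1 x * f x * (gaussianPDF 0 1 y * g y)
      = (gaussianPDF 0 1 x * gaussianPDF 0 1 y) * (f x * g y) := by ring
    _ ≤ gaussianPDF 0 1 ((x + y) / 2) ^ 2 * h ((x + y) / 2) ^ 2 := by
        gcongr
        · exact gaussianPDF_mid x y
        · exact H x y
    _ = _ := by ring

theorem piFinSuccAbove_symm_cons {n : ℕ} (a : ℝ) (y : Fin n → ℝ) :
    (MeasurableEquiv.piFinSuccAbove (fun _ : Fin (n + 1) => ℝ) 0).symm (a, y) = Fin.cons a y := by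
  change (Fin.insertNth 0 a y : Fin (n + 1) → ℝ) = Fin.cons a y
  exact Fin.insertNth_zero' a y

/-- Midpoint Prekopa-Leindler inequality for the standard Gaussian on `Fin n → ℝ`. -/
theorem pl_gauss_pi {n : ℕ} {f g h : (Fin n → ℝ) → ENNReal} (hf : Measurable f)
    (hg : Measurable g) (hh : Measurable h)
    (H : ∀ x y, f x * g y ≤ h ((1 / 2 : ℝ) • (x + y)) ^ 2) :
    (∫⁻ x, f x ∂(Measure.pi fun _ => gaussianReal 0 1)) *
      (∫⁻ x, g x ∂(Measure.pi fun _ => gaussianReal 0 1)) ≤
      (∫⁻ x, h x ∂(Measure.pi fun _ => gaussianReal 0 1)) ^ 2 := by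
  induction n with
  | zero =>
    have e : ∀ F : (Fin 0 → ℝ) → ENNReal,
        ∫⁻ x, F x ∂(Measure.pi fun _ => gaussianReal 0 1) = F 0 := by
      intro F
      rw [Measure.pi_of_empty, lintegral_dirac]
      congr 1
      exact Subsingleton.elim _ _
    rw [e, e, e]
    have := H 0 0
    simpa using this
  | succ n ih =>
    have e : ∀ F : (Fin (n + 1) → ℝ) → ENNReal, Measurable F →
        ∫⁻ x, F x ∂(Measure.pi fun _ => gaussianReal 0 1) =
          ∫⁻ a, ∫⁻ y, F (Fin.cons a y) ∂(Measure.pi fun _ => gaussianReal 0 1)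
            ∂(gaussianReal 0 1) := by
      intro F hF
      have mp := (measurePreserving_piFinSuccAbove
        (fun _ : Fin (n + 1) => gaussianReal 0 1) 0).symm
      rw [← mp.lintegral_comp hF]
      rw [lintegral_prod _ (by
        exact (hF.comp (MeasurableEquiv.measurable _)).aemeasurable)]
      simp only [piFinSuccAbove_symm_cons]
    have hmeas : ∀ F : (Fin (n + 1) → ℝ) → ENNReal, Measurable F →
        Measurable (fun p : ℝ × (Fin n → ℝ) => F (Fin.cons p.1 p.2)) := by
      intro F hF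
      have : Measurable (fun p : ℝ × (Fin n → ℝ) => (Fin.cons p.1 p.2 : Fin (n + 1) → ℝ)) := by
        have h1 := (MeasurableEquiv.piFinSuccAbove (fun _ : Fin (n + 1) => ℝ) 0).symm.measurable
        have h2 : (fun p : ℝ × (Fin n → ℝ) => (Fin.cons p.1 p.2 : Fin (n + 1) → ℝ)) =
            ⇑(MeasurableEquiv.piFinSuccAbove (fun _ : Fin (n + 1) => ℝ) 0).symm := by
          funext p
          exact (piFinSuccAbove_symm_cons p.1 p.2).symm
        rw [h2]
        exact h1
      exact hF.comp this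
    rw [e f hf, e g hg, e h hh]
    refine pl_gauss_one (Measurable.lintegral_prod_right' (hmeas f hf))
      (Measurable.lintegral_prod_right' (hmeas g hg))
      (Measurable.lintegral_prod_right' (hmeas h hh)) ?_
    intro a b
    refine ih ((hmeas f hf).comp measurable_prodMk_left) ((hmeas g hg).comp measurable_prodMk_left)
      ((hmeas h hh).comp measurable_prodMk_left) ?_
    intro x y
    have := H (Fin.cons a x) (Fin.cons b y)
    have e2 : (1 / 2 : ℝ) • ((Fin.cons a x : Fin (n + 1) → ℝ) + Fin.cons b y) =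
        Fin.cons ((a + b) / 2) ((1 / 2 : ℝ) • (x + y)) := by
      ext i
      refine Fin.cases ?_ (fun j => ?_) i
      · simp; ring
      · simp; ring
    rw [e2] at this
    exact this

end P262B
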