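import Vale.Agent.P262.BanB2

/-!
# P262 full sqrt(d): [A2] one step of Banaszczyk's prefix theorem

`K` closed convex, Gaussian measure at least `19/20`, `‖u‖ ≤ 1/32`, `|x| ≤ 1/2`.  Rotate so that
`u = s e`, `e` a unit vector.  On the line over `y ∈ e^⊥` let `K_y = [a, b]`, `ℓ = b - a`.  Put
`K'` = the set with lines `[a - (1-x) s, b + (1+x) s]` over `{ℓ ≥ 2 s}` and empty lines elsewhere; it
is closed, convex, and contained in `(K - (1-x) u) ∪ (K + (1+x) u)`.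
`φmax y = max of the Gaussian density on K_y`, `N r = ∫_{ℓ y ≥ r} φmax y dγ_{n-1}` satisfies
`N r * N r' ≤ N ((r+r')/2)^2` (`pl_gauss_pi`), `N 0 ≤ φ 0`,
`N (16 s) ≥ 0.9 φ 0` (if `γ_1 (K_y^c) < 1/2` then `0 ∈ K_y` and `ℓ ≥ 1/2`).
Loss `≤ 2 s (N 0 - N (2 s))`, gain `≥ 0.4 s (N (2 s) - N (16 s))`.
-/

open MeasureTheory ProbabilityTheory

namespace P262B

variable {E : Type*} [NormedAddCommGroup E] [InnerProductSpace ℝ E] [FiniteDimensional ℝ E]
  [MeasurableSpace E] [BorelSpace E]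

/-- the new set -/
def banSet (K : Set E) (u : E) (x : ℝ) : Set E :=
  {z | ∃ ρ ∈ Set.Icc (-3 - x) (1 - x), z + ρ • u ∈ K ∧ z + (ρ + 2) • u ∈ K}

omit [FiniteDimensional ℝ E] [MeasurableSpace E] [BorelSpace E] in
theorem isClosed_banSet {K : Set E} (hK : IsClosed K) (u : E) (x : ℝ) :
    IsClosed (banSet K u x) := by
  have hset : banSet K u x = Prod.snd '' {w : (Set.Icc (-3 - x) (1 - x)) × E |
      w.2 + (w.1 : ℝ) • u ∈ K ∧ w.2 + ((w.1 : ℝ) + 2) • u ∈ K} := by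
    ext z
    constructor
    · rintro ⟨ρ, hρ, h1, h2⟩
      exact ⟨(⟨ρ, hρ⟩, z), ⟨h1, h2⟩, rfl⟩
    · rintro ⟨⟨⟨ρ, hρ⟩, z'⟩, ⟨h1, h2⟩, rfl⟩
      exact ⟨ρ, hρ, h1, h2⟩
  rw [hset]
  refine isClosedMap_snd_of_compactSpace _ ?_
  exact IsClosed.inter (hK.preimage (by fun_prop)) (hK.preimage (by fun_prop))

omit [FiniteDimensional ℝ E] [MeasurableSpace E] [BorelSpace E] in
theorem convex_banSet {K : Set E} (hc : Convex ℝ K) (u : E) (x : ℝ) :
    Convex ℝ (banSet K u x) := by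
  rintro z ⟨ρ, hρ, h1, h2⟩ z' ⟨ρ', hρ', h1', h2'⟩ a b ha hb hab
  refine ⟨a * ρ + b * ρ', ⟨?_, ?_⟩, ?_, ?_⟩
  · have := mul_le_mul_of_nonneg_left hρ.1 ha
    have := mul_le_mul_of_nonneg_left hρ'.1 hb
    have e : -3 - x = a * (-3 - x) + b * (-3 - x) := by rw [← add_mul, hab, one_mul]
    linarith
  · have := mul_le_mul_of_nonneg_left hρ.2 ha
    have := mul_le_mul_of_nonneg_left hρ'.2 hb
    have e : 1 - x = a * (1 - x) + b * (1 - x) := by rw [← add_mul, hab, one_mul]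
    linarith
  · have h := hc h1 h1' ha hb hab
    have e : a • (z + ρ • u) + b • (z' + ρ' • u) = a • z + b • z' + (a * ρ + b * ρ') • u := by
      module
    rw [e] at h
    exact h
  · have h := hc h2 h2' ha hb hab
    have e : a • (z + (ρ + 2) • u) + b • (z' + (ρ' + 2) • u) =
        a • z + b • z' + (a * ρ + b * ρ' + 2) • u := by
      have e2 : a * ρ + b * ρ' + 2 = a * (ρ + 2) + b * (ρ' + 2) := by
        have : (2:ℝ) = (a + b) * 2 := by rw [hab, one_mul]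
        linarith
      rw [e2]
      module
    rw [e] at h
    exact h

omit [FiniteDimensional ℝ E] [MeasurableSpace E] [BorelSpace E] in
theorem banSet_sub {K : Set E} (hc : Convex ℝ K) (u : E) (x : ℝ) {z : E}
    (hz : z ∈ banSet K u x) : z + (1 - x) • u ∈ K ∨ z - (1 + x) • u ∈ K := by
  obtain ⟨ρ, hρ, h1, h2⟩ := hz
  have key : ∀ σ : ℝ, ρ ≤ σ → σ ≤ ρ + 2 → z + σ • u ∈ K := by
    intro σ h3 h4
    have h := hc h1 h2 (show 0 ≤ (ρ + 2 - σ) / 2 by linarith) (show 0 ≤ (σ - ρ) / 2 by linarith)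
      (by ring)
    have e : ((ρ + 2 - σ) / 2) • (z + ρ • u) + ((σ - ρ) / 2) • (z + (ρ + 2) • u) = z + σ • u := by
      module
    rw [e] at h
    exact h
  rcases le_total (-(1 + x)) ρ with h | h
  · left
    exact key (1 - x) hρ.2 (by linarith)
  · right
    have h3 := key (-(1 + x)) h (by linarith [hρ.1])
    rw [neg_smul, ← sub_eq_add_neg] at h3
    exact h3

/-- the Gaussian measure in orthonormal coordinates with one coordinate split off -/
theorem gauss_coord {n : ℕ} (b : OrthonormalBasis (Fin (n + 1)) ℝ E) {S : Set E}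
    (hS : MeasurableSet S) :
    stdGaussian E S = ((gaussianReal 0 1).prod (Measure.pi fun _ : Fin n => gaussianReal 0 1))
      {p : ℝ × (Fin n → ℝ) | p.1 • b 0 + ∑ i, p.2 i • b i.succ ∈ S} := by
  rw [stdGaussian_eq_map_pi_orthonormalBasis b, Measure.map_apply (by fun_prop) hS]
  have hmp := measurePreserving_piFinSuccAbove (fun _ : Fin (n + 1) => gaussianReal 0 1) 0
  have hT : MeasurableSet {p : ℝ × (Fin n → ℝ) | p.1 • b 0 + ∑ i, p.2 i • b i.succ ∈ S} :=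
    hS.preimage (by fun_prop)
  rw [← hmp.map_eq, Measure.map_apply (MeasurableEquiv.measurable _) hT]
  congr 1
  ext y
  simp only [Set.mem_preimage, Set.mem_setOf_eq]
  rw [Fin.sum_univ_succ]
  rfl

theorem ban_step {K : Set E} (hK : IsClosed K) (hc : Convex ℝ K)
    (hγ : 19 / 20 ≤ (stdGaussian E).real K) {u : E} (hu : ‖u‖ ≤ 1 / 32) {x : ℝ}
    (hx : |x| ≤ 1 / 2) :
    ∃ K' : Set E, IsClosed K' ∧ Convex ℝ K' ∧
      (∀ z ∈ K', z + (1 - x) • u ∈ K ∨ z - (1 + x) • u ∈ K) ∧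
      (stdGaussian E).real K ≤ (stdGaussian E).real K' := by
  by_cases hu0 : u = 0
  · subst hu0
    exact ⟨K, hK, hc, fun z hz => Or.inl (by simpa using hz), le_rfl⟩
  have hs : 0 < ‖u‖ := norm_pos_iff.mpr hu0
  refine ⟨banSet K u x, isClosed_banSet hK u x, convex_banSet hc u x,
    fun z hz => banSet_sub hc u x hz, ?_⟩
  have : Nontrivial E := ⟨u, 0, hu0⟩
  obtain ⟨n, hn⟩ : ∃ n, Module.finrank ℝ E = n + 1 :=
    ⟨Module.finrank ℝ E - 1, by have := Module.finrank_pos (R := ℝ) (M := E); omega⟩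
  set e : E := (‖u‖)⁻¹ • u with he
  have he1 : ‖e‖ = 1 := by rw [he, norm_smul, norm_inv, norm_norm, inv_mul_cancel₀ hs.ne']
  obtain ⟨b, hb⟩ := Orthonormal.exists_orthonormalBasis_extension_of_card_eq (ι := Fin (n + 1))
    (𝕜 := ℝ) (by rw [hn, Fintype.card_fin]) (v := fun _ => e) (s := {0}) (by
      refine ⟨fun i => he1, fun i j hij => ?_⟩
      exact absurd (Subsingleton.elim i j) hij)
  have hb0 : b 0 = e := hb 0 rfl
  have hub : u = ‖u‖ • b 0 := by rw [hb0, he, smul_smul, mul_inv_cancel₀ hs.ne', one_smul]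
  set A : Set (ℝ × (Fin n → ℝ)) := {p | p.1 • b 0 + ∑ i, p.2 i • b i.succ ∈ K} with hAdef
  have hA : IsClosed A := hK.preimage (by fun_prop)
  have hcA : Convex ℝ A := by
    intro p hp q hq α β hα hβ hαβ
    have h := hc hp hq hα hβ hαβ
    have e2 : α • (p.1 • b 0 + ∑ i, p.2 i • b i.succ) + β • (q.1 • b 0 + ∑ i, q.2 i • b i.succ) =
        (α • p + β • q).1 • b 0 + ∑ i, (α • p + β • q).2 i • b i.succ := by
      simp only [smul_add, Finset.smul_sum, Prod.fst_add, Prod.smul_fst, Prod.snd_add,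
        Prod.smul_snd, Pi.add_apply, Pi.smul_apply, smul_eq_mul, add_smul, smul_smul,
        Finset.sum_add_distrib]
      abel
    rw [e2] at h
    exact h
  have hset : {p : ℝ × (Fin n → ℝ) | p.1 ∈ Iext (fib A p.2) ‖u‖ x} =
      {p : ℝ × (Fin n → ℝ) | p.1 • b 0 + ∑ i, p.2 i • b i.succ ∈ banSet K u x} := by
    ext p
    have hmem : ∀ σ : ℝ, p.1 + σ * ‖u‖ ∈ fib A p.2 ↔
        p.1 • b 0 + ∑ i, p.2 i • b i.succ + σ • u ∈ K := by
      intro σ
      change (p.1 + σ * ‖u‖) • b 0 + ∑ i, p.2 i • b i.succ ∈ K ↔ _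
      have e3 : (p.1 + σ * ‖u‖) • b 0 + ∑ i, p.2 i • b i.succ =
          p.1 • b 0 + ∑ i, p.2 i • b i.succ + σ • u := by
        conv_rhs => rw [hub]
        rw [add_smul, smul_smul]
        abel
      rw [e3]
    constructor
    · rintro ⟨ρ, hρ, h1, h2⟩
      exact ⟨ρ, hρ, (hmem ρ).mp h1, (hmem (ρ + 2)).mp h2⟩
    · rintro ⟨ρ, hρ, h1, h2⟩
      exact ⟨ρ, hρ, (hmem ρ).mpr h1, (hmem (ρ + 2)).mpr h2⟩
  have hK'm : MeasurableSet (banSet K u x) := (isClosed_banSet hK u x).measurableSet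
  have hm : MeasurableSet {p : ℝ × (Fin n → ℝ) | p.1 ∈ Iext (fib A p.2) ‖u‖ x} := by
    rw [hset]
    exact hK'm.preimage (by fun_prop)
  have hγ' : 19 / 20 ≤ ((gaussianReal 0 1).prod
      (Measure.pi fun _ : Fin n => gaussianReal 0 1)) A := by
    rw [hAdef, ← gauss_coord b hK.measurableSet]
    have e1 : (19 / 20 : ENNReal) = ENNReal.ofReal (19 / 20) := by
      rw [ENNReal.ofReal_div_of_pos (by norm_num)]; simp
    rw [e1]
    exact ENNReal.ofReal_le_of_le_toReal hγ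
  have h := prod_step hA hcA hγ' hs hu hx hm
  rw [hset, hAdef, ← gauss_coord b hK.measurableSet, ← gauss_coord b hK'm] at h
  exact ENNReal.toReal_mono (measure_ne_top _ _) h

end P262B
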