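import Mathlib

/-!
# P262 full sqrt(d): [A2] the one-dimensional comparison for one line
-/

open MeasureTheory ProbabilityTheory

namespace P262B

/-- unnormalised Gaussian density -/
noncomputable def psi (t : ℝ) : ENNReal := ENNReal.ofReal (Real.exp (-(t ^ 2 / 2)))

/-- the normalisation -/
noncomputable def gc0 : ℝ := (Real.sqrt (2 * Real.pi))⁻¹

/-- supremum of `psi` on `I` if `I` contains two points at distance `r`, otherwise `0` -/
noncomputable def Fr (I : Set ℝ) (r : ℝ) : ENNReal :=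
  ⨆ (t : ℝ) (τ : ℝ) (_ : t ∈ I ∧ τ ∈ I ∧ τ + r ∈ I), psi t

theorem gc0_pos : 0 < gc0 := by
  unfold gc0
  have := Real.pi_pos
  positivity

theorem gc0_le : gc0 ≤ 1 / 2 := by
  unfold gc0
  rw [inv_le_comm₀ (by have := Real.pi_pos; positivity) (by norm_num)]
  rw [show ((1:ℝ) / 2)⁻¹ = 2 by norm_num]
  refine Real.le_sqrt_of_sq_le ?_
  have := Real.pi_gt_three
  linarith

theorem psi_le_one (t : ℝ) : psi t ≤ 1 := by
  unfold psi
  rw [ENNReal.ofReal_le_one]
  refine Real.exp_le_one_iff.mpr ?_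
  have := sq_nonneg t
  linarith

theorem psi_zero : psi 0 = 1 := by simp [psi]

theorem psi_anti {s t : ℝ} (h : |s| ≤ |t|) : psi t ≤ psi s := by
  unfold psi
  refine ENNReal.ofReal_le_ofReal (Real.exp_le_exp.mpr ?_)
  have := sq_le_sq.mpr h
  linarith

theorem psi_ge {t : ℝ} (h : |t| ≤ 3 / 5) : ENNReal.ofReal (4 / 5) ≤ psi t := by
  unfold psi
  refine ENNReal.ofReal_le_ofReal ?_
  have h1 := Real.add_one_le_exp (-(t ^ 2 / 2))
  have h2 : t ^ 2 ≤ (3 / 5) ^ 2 := by
    rw [← sq_abs]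
    exact pow_le_pow_left₀ (abs_nonneg _) h 2
  linarith

theorem measurable_psi : Measurable psi := by
  unfold psi
  fun_prop

theorem gaussianPDF_eq (t : ℝ) : gaussianPDF 0 1 t = ENNReal.ofReal gc0 * psi t := by
  unfold psi gc0
  rw [gaussianPDF_def, gaussianPDFReal_def, ← ENNReal.ofReal_mul (by positivity)]
  simp only [NNReal.coe_one, mul_one, sub_zero, neg_div]

theorem gauss_le {S : Set ℝ} (hS : MeasurableSet S) {B : ENNReal} (h : ∀ t ∈ S, psi t ≤ B) :
    gaussianReal 0 1 S ≤ ENNReal.ofReal gc0 * B * volume S := by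
  rw [gaussianReal_apply 0 one_ne_zero, ← setLIntegral_const]
  refine setLIntegral_mono' hS fun t ht => ?_
  rw [gaussianPDF_eq]
  gcongr
  exact h t ht

theorem gauss_ge {S : Set ℝ} (hS : MeasurableSet S) {B : ENNReal} (h : ∀ t ∈ S, B ≤ psi t) :
    ENNReal.ofReal gc0 * B * volume S ≤ gaussianReal 0 1 S := by
  rw [gaussianReal_apply 0 one_ne_zero, ← setLIntegral_const]
  refine setLIntegral_mono' hS fun t ht => ?_
  rw [gaussianPDF_eq]
  gcongr
  exact h t ht

theorem le_Fr {I : Set ℝ} {r t τ : ℝ} (ht : t ∈ I) (h1 : τ ∈ I) (h2 : τ + r ∈ I) :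
    psi t ≤ Fr I r :=
  le_iSup₂_of_le t τ (le_iSup_of_le ⟨ht, h1, h2⟩ le_rfl)

theorem Fr_le {I : Set ℝ} {r : ℝ} {B : ENNReal} (h : ∀ t ∈ I, psi t ≤ B) : Fr I r ≤ B :=
  iSup₂_le fun t _ => iSup_le fun h1 => h t h1.1

theorem Fr_le_zero (I : Set ℝ) (r : ℝ) : Fr I r ≤ Fr I 0 :=
  iSup₂_le fun t _ => iSup_le fun h1 => le_Fr h1.1 h1.1 (by rw [add_zero]; exact h1.1)

theorem Fr_eq {I : Set ℝ} {r : ℝ} (h : ∃ τ, τ ∈ I ∧ τ + r ∈ I) : Fr I r = Fr I 0 := by
  refine le_antisymm (Fr_le_zero I r) ?_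
  obtain ⟨τ, h1, h2⟩ := h
  exact Fr_le fun t ht => le_Fr ht h1 h2

theorem Fr_eq_zero {I : Set ℝ} {r : ℝ} (h : ¬ ∃ τ, τ ∈ I ∧ τ + r ∈ I) : Fr I r = 0 := by
  refine le_antisymm (iSup₂_le fun t τ => iSup_le fun h1 => ?_) bot_le
  exact absurd ⟨τ, h1.2⟩ h

theorem Fr_le_one (I : Set ℝ) (r : ℝ) : Fr I r ≤ 1 := Fr_le fun t _ => psi_le_one t

theorem exists_Icc_of_not {I : Set ℝ} (hI : IsClosed I) (hc : Convex ℝ I) (hne : I.Nonempty)
    {r : ℝ} (hr : 0 < r) (h : ¬ ∃ τ, τ ∈ I ∧ τ + r ∈ I) :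
    ∃ a b, a ≤ b ∧ b < a + r ∧ I = Set.Icc a b := by
  have hoc := hc.ordConnected
  have hdist : ∀ t ∈ I, ∀ t' ∈ I, t' < t + r := by
    intro t ht t' ht'
    by_contra hcon
    push Not at hcon
    exact h ⟨t, ht, hoc.out ht ht' ⟨by linarith, hcon⟩⟩
  obtain ⟨t0, ht0⟩ := hne
  have hb : BddAbove I := ⟨t0 + r, fun t ht => (hdist t0 ht0 t ht).le⟩
  have hb' : BddBelow I := ⟨t0 - r, fun t ht => by have := hdist t ht t0 ht0; linarith⟩
  have ha := hI.csInf_mem ⟨t0, ht0⟩ hb'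
  have hbm := hI.csSup_mem ⟨t0, ht0⟩ hb
  refine ⟨sInf I, sSup I, csInf_le hb' hbm, hdist _ ha _ hbm, ?_⟩
  refine Set.Subset.antisymm (fun t ht => ⟨csInf_le hb' ht, le_csSup hb ht⟩) ?_
  exact hoc.out ha hbm

/-- the enlarged interval -/
def Iext (I : Set ℝ) (s x : ℝ) : Set ℝ :=
  {t | ∃ ρ ∈ Set.Icc (-3 - x) (1 - x), t + ρ * s ∈ I ∧ t + (ρ + 2) * s ∈ I}

theorem subset_Iext {I : Set ℝ} (hc : Convex ℝ I) {s x : ℝ} (hs : 0 < s) (hx : |x| ≤ 1 / 2)
    (h : ∃ τ, τ ∈ I ∧ τ + 2 * s ∈ I) : I ⊆ Iext I s x := by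
  intro t ht
  obtain ⟨τ, h1, h2⟩ := h
  have hoc := hc.ordConnected
  obtain ⟨hx1, hx2⟩ := abs_le.mp hx
  rcases le_total t τ with h3 | h3
  · refine ⟨0, ⟨by linarith, by linarith⟩, by simpa using ht, ?_⟩
    exact hoc.out ht h2 ⟨by nlinarith, by nlinarith⟩
  rcases le_total (t - 2 * s) τ with h4 | h4
  · refine ⟨(τ - t) / s, ⟨?_, ?_⟩, ?_, ?_⟩
    · rw [le_div_iff₀ hs]; nlinarith
    · rw [div_le_iff₀ hs]; nlinarith
    · rw [div_mul_cancel₀ _ hs.ne']; simpa using h1
    · have e : t + ((τ - t) / s + 2) * s = τ + 2 * s := by field_simp; ring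
      rw [e]; exact h2
  · refine ⟨-2, ⟨by linarith, by linarith⟩, ?_, ?_⟩
    · exact hoc.out h1 ht ⟨by linarith, by linarith⟩
    · have e : t + (-2 + 2) * s = t := by ring
      rw [e]; exact ht

theorem gain_case {a b s x : ℝ} (hs : 0 < s) (hs' : s ≤ 1 / 32) (hx : |x| ≤ 1 / 2)
    (h1 : a + 2 * s ≤ b) (h2 : b < a + 16 * s) :
    gaussianReal 0 1 (Set.Icc a b) + ENNReal.ofReal (2 / 5 * gc0 * s) * Fr (Set.Icc a b) 0 ≤
      gaussianReal 0 1 (Iext (Set.Icc a b) s x) := by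
  obtain ⟨hx1, hx2⟩ := abs_le.mp hx
  have hsub := subset_Iext (convex_Icc a b) hs hx
    ⟨a, ⟨le_rfl, by linarith⟩, ⟨by linarith, h1⟩⟩
  -- the extension
  obtain ⟨J, hJm, hJd, hJsub, hJv, hJp⟩ : ∃ J : Set ℝ, MeasurableSet J ∧
      Disjoint (Set.Icc a b) J ∧ J ⊆ Iext (Set.Icc a b) s x ∧ volume J = ENNReal.ofReal (s / 2) ∧
      ∀ t ∈ J, ENNReal.ofReal (4 / 5) * Fr (Set.Icc a b) 0 ≤ psi t := by
    by_cases ha : 0 ≤ a
    · refine ⟨Set.Ico (a - s / 2) a, measurableSet_Ico, ?_, ?_, ?_, ?_⟩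
      · rw [Set.disjoint_left]
        intro t ht ht'
        exact absurd ht'.2 (not_lt.mpr ht.1)
      · intro t ht
        refine ⟨(a - t) / s, ⟨?_, ?_⟩, ?_, ?_⟩
        · rw [le_div_iff₀ hs]; nlinarith [ht.1, ht.2]
        · rw [div_le_iff₀ hs]; nlinarith [ht.1, ht.2]
        · rw [div_mul_cancel₀ _ hs.ne']
          exact ⟨by linarith, by linarith⟩
        · have e : t + ((a - t) / s + 2) * s = a + 2 * s := by field_simp; ring
          rw [e]
          exact ⟨by linarith, h1⟩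
      · rw [Real.volume_Ico]; congr 1; ring
      · intro t ht
        have hF : Fr (Set.Icc a b) 0 ≤ psi a := Fr_le fun t' ht' =>
          psi_anti (by rw [abs_of_nonneg ha, abs_of_nonneg (ha.trans ht'.1)]; exact ht'.1)
        rcases le_total 0 t with h0 | h0
        · have h3 : psi a ≤ psi t :=
            psi_anti (by rw [abs_of_nonneg ha, abs_of_nonneg h0]; exact ht.2.le)
          calc ENNReal.ofReal (4 / 5) * Fr (Set.Icc a b) 0 ≤ 1 * psi t := by
                refine mul_le_mul' ?_ (hF.trans h3)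
                rw [ENNReal.ofReal_le_one]; norm_num
            _ = psi t := one_mul _
        · have h3 : |t| ≤ 3 / 5 := by
            rw [abs_of_nonpos h0]
            have := ht.1
            linarith
          calc ENNReal.ofReal (4 / 5) * Fr (Set.Icc a b) 0 ≤ ENNReal.ofReal (4 / 5) * 1 :=
                mul_le_mul' le_rfl (Fr_le_one _ _)
            _ = ENNReal.ofReal (4 / 5) := mul_one _
            _ ≤ psi t := psi_ge h3
    · push Not at ha
      refine ⟨Set.Ioc b (b + s / 2), measurableSet_Ioc, ?_, ?_, ?_, ?_⟩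
      · rw [Set.disjoint_left]
        intro t ht ht'
        exact absurd ht'.1 (not_lt.mpr ht.2)
      · intro t ht
        refine ⟨(b - t) / s - 2, ⟨?_, ?_⟩, ?_, ?_⟩
        · rw [le_sub_iff_add_le, le_div_iff₀ hs]; nlinarith [ht.1, ht.2]
        · rw [sub_le_iff_le_add, div_le_iff₀ hs]; nlinarith [ht.1, ht.2]
        · have e : t + ((b - t) / s - 2) * s = b - 2 * s := by field_simp; ring
          rw [e]
          exact ⟨by linarith, by linarith⟩
        · have e : t + ((b - t) / s - 2 + 2) * s = b := by field_simp; ring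
          rw [e]
          exact ⟨by linarith, by linarith⟩
      · rw [Real.volume_Ioc]; congr 1; ring
      · intro t ht
        rcases le_total t 0 with h0 | h0
        · have hb : b ≤ 0 := by linarith [ht.1]
          have hF : Fr (Set.Icc a b) 0 ≤ psi b := Fr_le fun t' ht' =>
            psi_anti (by
              rw [abs_of_nonpos hb, abs_of_nonpos (ht'.2.trans hb)]
              linarith [ht'.2])
          have h3 : psi b ≤ psi t :=
            psi_anti (by rw [abs_of_nonpos hb, abs_of_nonpos h0]; linarith [ht.1])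
          calc ENNReal.ofReal (4 / 5) * Fr (Set.Icc a b) 0 ≤ 1 * psi t := by
                refine mul_le_mul' ?_ (hF.trans h3)
                rw [ENNReal.ofReal_le_one]; norm_num
            _ = psi t := one_mul _
        · have h3 : |t| ≤ 3 / 5 := by
            rw [abs_of_nonneg h0]
            have := ht.2
            linarith
          calc ENNReal.ofReal (4 / 5) * Fr (Set.Icc a b) 0 ≤ ENNReal.ofReal (4 / 5) * 1 :=
                mul_le_mul' le_rfl (Fr_le_one _ _)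
            _ = ENNReal.ofReal (4 / 5) := mul_one _
            _ ≤ psi t := psi_ge h3
  have hg := gauss_ge hJm hJp
  have e : ENNReal.ofReal gc0 * (ENNReal.ofReal (4 / 5) * Fr (Set.Icc a b) 0) * volume J =
      ENNReal.ofReal (2 / 5 * gc0 * s) * Fr (Set.Icc a b) 0 := by
    have e1 : ENNReal.ofReal (2 / 5 * gc0 * s) =
        ENNReal.ofReal gc0 * ENNReal.ofReal (4 / 5) * ENNReal.ofReal (s / 2) := by
      have := gc0_pos
      rw [← ENNReal.ofReal_mul this.le, ← ENNReal.ofReal_mul (by positivity)]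
      congr 1
      ring
    rw [hJv, e1]
    ring
  rw [e] at hg
  calc _ ≤ gaussianReal 0 1 (Set.Icc a b) + gaussianReal 0 1 J := by gcongr
    _ = gaussianReal 0 1 (Set.Icc a b ∪ J) := (measure_union hJd hJm).symm
    _ ≤ _ := measure_mono (Set.union_subset hsub hJsub)

/-- the comparison on one line -/
theorem one_dim {I : Set ℝ} (hI : IsClosed I) (hc : Convex ℝ I) {s x : ℝ} (hs : 0 < s)
    (hs' : s ≤ 1 / 32) (hx : |x| ≤ 1 / 2) :
    gaussianReal 0 1 I + ENNReal.ofReal (12 / 5 * gc0 * s) * Fr I (2 * s) ≤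
      gaussianReal 0 1 (Iext I s x) + ENNReal.ofReal (2 * gc0 * s) * Fr I 0 +
        ENNReal.ofReal (2 / 5 * gc0 * s) * Fr I (16 * s) := by
  have hgc := gc0_pos
  have hsplit : ENNReal.ofReal (12 / 5 * gc0 * s) =
      ENNReal.ofReal (2 * gc0 * s) + ENNReal.ofReal (2 / 5 * gc0 * s) := by
    rw [← ENNReal.ofReal_add (by positivity) (by positivity)]
    congr 1
    ring
  by_cases hne : I.Nonempty
  · by_cases h2 : ∃ τ, τ ∈ I ∧ τ + 2 * s ∈ I
    · rw [Fr_eq h2, hsplit, add_mul]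
      by_cases h16 : ∃ τ, τ ∈ I ∧ τ + 16 * s ∈ I
      · rw [Fr_eq h16, ← add_assoc]
        gcongr
        exact subset_Iext hc hs hx h2
      · rw [Fr_eq_zero h16, mul_zero, add_zero]
        obtain ⟨a, b, hab, hb, rfl⟩ := exists_Icc_of_not hI hc hne (by linarith) h16
        obtain ⟨τ, ht1, ht2⟩ := h2
        have h := gain_case (a := a) (b := b) hs hs' hx (by linarith [ht1.1, ht2.2]) hb
        calc _ = gaussianReal 0 1 (Set.Icc a b) +
              ENNReal.ofReal (2 / 5 * gc0 * s) * Fr (Set.Icc a b) 0 +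
              ENNReal.ofReal (2 * gc0 * s) * Fr (Set.Icc a b) 0 := by ring
          _ ≤ _ := by gcongr
    · have h16 : ¬ ∃ τ, τ ∈ I ∧ τ + 16 * s ∈ I := by
        rintro ⟨τ, ht1, ht2⟩
        exact h2 ⟨τ, ht1, hc.ordConnected.out ht1 ht2 ⟨by linarith, by linarith⟩⟩
      rw [Fr_eq_zero h2, Fr_eq_zero h16, mul_zero, mul_zero, add_zero, add_zero]
      obtain ⟨a, b, hab, hb, rfl⟩ := exists_Icc_of_not hI hc hne (by linarith) h2
      refine le_add_left ?_
      have h3 := gauss_le (S := Set.Icc a b) measurableSet_Icc (B := Fr (Set.Icc a b) 0)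
        (fun t ht => le_Fr ht ht (by rw [add_zero]; exact ht))
      refine h3.trans ?_
      rw [Real.volume_Icc, mul_right_comm]
      gcongr
      rw [← ENNReal.ofReal_mul hgc.le]
      refine ENNReal.ofReal_le_ofReal ?_
      nlinarith
  · rw [Set.not_nonempty_iff_eq_empty] at hne
    subst hne
    rw [Fr_eq_zero (by simp)]
    simp

end P262B
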