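import Vale.Agent.P262.BanA
import Vale.Agent.P262.BanB1

/-!
# P262 full sqrt(d): [A2] integration over the lines
-/

open MeasureTheory ProbabilityTheory

namespace P262B

variable {n : ℕ}

/-- the line over `y` -/
def fib (A : Set (ℝ × (Fin n → ℝ))) (y : Fin n → ℝ) : Set ℝ := {t | (t, y) ∈ A}

/-- `Fr` of the line over `y` -/
noncomputable def FF (A : Set (ℝ × (Fin n → ℝ))) (r : ℝ) (y : Fin n → ℝ) : ENNReal := Fr (fib A y) r

theorem isClosed_fib {A : Set (ℝ × (Fin n → ℝ))} (hA : IsClosed A) (y : Fin n → ℝ) :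
    IsClosed (fib A y) :=
  hA.preimage (by fun_prop)

theorem convex_fib {A : Set (ℝ × (Fin n → ℝ))} (hA : Convex ℝ A) (y : Fin n → ℝ) :
    Convex ℝ (fib A y) := by
  intro t ht t' ht' a b ha hb hab
  have h := hA ht ht' ha hb hab
  have e : a • ((t, y) : ℝ × (Fin n → ℝ)) + b • (t', y) = (a • t + b • t', y) := by
    ext
    · simp
    · simp [← add_mul, hab]
  rw [e] at h
  exact h

theorem continuous_psi : Continuous psi := by
  unfold psi
  exact ENNReal.continuous_ofReal.comp (by fun_prop)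

theorem measurable_FF {A : Set (ℝ × (Fin n → ℝ))} (hA : IsClosed A) (r : ℝ) :
    Measurable (FF A r) := by
  refine measurable_of_Ioi fun c => ?_
  have hset : (FF A r) ⁻¹' Set.Ioi c = ⋃ (q : ℚ) (m : ℕ) (_ : c < ENNReal.ofReal q),
      Prod.snd '' {z : (Set.Icc (-(m:ℝ)) m ×ˢ Set.Icc (-(m:ℝ)) m : Set (ℝ × ℝ)) × (Fin n → ℝ) |
        ((z.1 : ℝ × ℝ).1, z.2) ∈ A ∧ ((z.1 : ℝ × ℝ).2, z.2) ∈ A ∧
          ((z.1 : ℝ × ℝ).2 + r, z.2) ∈ A ∧ ENNReal.ofReal q ≤ psi (z.1 : ℝ × ℝ).1} := by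
    ext y
    simp only [Set.mem_preimage, Set.mem_Ioi, Set.mem_iUnion, Set.mem_image, Set.mem_setOf_eq,
      Prod.exists, exists_prop]
    constructor
    · intro h
      unfold FF Fr at h
      rw [lt_iSup_iff] at h
      obtain ⟨t, h⟩ := h
      rw [lt_iSup_iff] at h
      obtain ⟨τ, h⟩ := h
      rw [lt_iSup_iff] at h
      obtain ⟨⟨h1, h2, h3⟩, h⟩ := h
      obtain ⟨q, -, hq1, hq2⟩ := ENNReal.lt_iff_exists_rat_btwn.mp h
      obtain ⟨m, hm⟩ := exists_nat_ge (max |t| |τ|)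
      refine ⟨q, m, hq1, ⟨(t, τ), ?_⟩, y, ⟨h1, h2, h3, hq2.le⟩, rfl⟩
      exact ⟨abs_le.mp ((le_max_left _ _).trans hm), abs_le.mp ((le_max_right _ _).trans hm)⟩
    · rintro ⟨q, m, hq, p, y', ⟨h1, h2, h3, h4⟩, rfl⟩
      exact hq.trans_le (h4.trans (le_Fr (I := fib A y') h1 h2 h3))
  rw [hset]
  refine MeasurableSet.iUnion fun q => MeasurableSet.iUnion fun m => MeasurableSet.iUnion fun _ => ?_
  refine IsClosed.measurableSet ?_
  have hcomp : CompactSpace (Set.Icc (-(m:ℝ)) m ×ˢ Set.Icc (-(m:ℝ)) m : Set (ℝ × ℝ)) :=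
    isCompact_iff_compactSpace.mp (isCompact_Icc.prod isCompact_Icc)
  refine isClosedMap_snd_of_compactSpace _ ?_
  refine IsClosed.inter (hA.preimage (by fun_prop)) (IsClosed.inter (hA.preimage (by fun_prop))
    (IsClosed.inter (hA.preimage (by fun_prop)) ?_))
  exact isClosed_le continuous_const (continuous_psi.comp (by fun_prop))

theorem psi_mul_le (t t' : ℝ) : psi t * psi t' ≤ psi ((t + t') / 2) ^ 2 := by
  unfold psi
  rw [← ENNReal.ofReal_mul (Real.exp_pos _).le, ← ENNReal.ofReal_pow (Real.exp_pos _).le,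
    ← Real.exp_add, ← Real.exp_nat_mul]
  refine ENNReal.ofReal_le_ofReal (Real.exp_le_exp.mpr ?_)
  push_cast
  nlinarith [sq_nonneg (t - t')]

/-- the integral `N r` -/
noncomputable def NN (A : Set (ℝ × (Fin n → ℝ))) (r : ℝ) : ENNReal :=
  ∫⁻ y, FF A r y ∂(Measure.pi fun _ => gaussianReal 0 1)

theorem NN_mul_le {A : Set (ℝ × (Fin n → ℝ))} (hA : IsClosed A) (hc : Convex ℝ A) (r r' : ℝ) :
    NN A r * NN A r' ≤ NN A ((r + r') / 2) ^ 2 := by
  refine pl_gauss_pi (measurable_FF hA r) (measurable_FF hA r') (measurable_FF hA _) fun y y' => ?_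
  refine ENNReal.mul_le_of_forall_lt fun a ha b hb => ?_
  unfold FF Fr at ha hb
  rw [lt_iSup_iff] at ha hb
  obtain ⟨t, ha⟩ := ha
  obtain ⟨t', hb⟩ := hb
  rw [lt_iSup_iff] at ha hb
  obtain ⟨τ, ha⟩ := ha
  obtain ⟨τ', hb⟩ := hb
  rw [lt_iSup_iff] at ha hb
  obtain ⟨⟨h1, h2, h3⟩, ha⟩ := ha
  obtain ⟨⟨h1', h2', h3'⟩, hb⟩ := hb
  have hmid : ∀ u u' : ℝ, (u, y) ∈ A → (u', y') ∈ A →
      ((u + u') / 2, (1 / 2 : ℝ) • (y + y')) ∈ A := by
    intro u u' hu hu'
    have h := hc hu hu' (show (0:ℝ) ≤ 1 / 2 by norm_num) (show (0:ℝ) ≤ 1 / 2 by norm_num)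
      (by norm_num)
    have e : (1 / 2 : ℝ) • ((u, y) : ℝ × (Fin n → ℝ)) + (1 / 2 : ℝ) • (u', y') =
        ((u + u') / 2, (1 / 2 : ℝ) • (y + y')) := by
      ext
      · simp; ring
      · simp; ring
    rw [e] at h
    exact h
  have hF : psi ((t + t') / 2) ≤ FF A ((r + r') / 2) ((1 / 2 : ℝ) • (y + y')) := by
    refine le_Fr (τ := (τ + τ') / 2) (hmid _ _ h1 h1') (hmid _ _ h2 h2') ?_
    have h := hmid _ _ h3 h3'
    have e : (τ + r + (τ' + r')) / 2 = (τ + τ') / 2 + (r + r') / 2 := by ring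
    rw [e] at h
    exact h
  calc a * b ≤ psi t * psi t' := mul_le_mul' ha.le hb.le
    _ ≤ psi ((t + t') / 2) ^ 2 := psi_mul_le t t'
    _ ≤ _ := by gcongr

theorem NN_le_one (A : Set (ℝ × (Fin n → ℝ))) (r : ℝ) : NN A r ≤ 1 := by
  unfold NN
  calc _ ≤ ∫⁻ _ : Fin n → ℝ, 1 ∂(Measure.pi fun _ => gaussianReal 0 1) :=
        lintegral_mono fun y => Fr_le_one _ _
    _ = 1 := by simp

theorem half_Ioi : gaussianReal 0 1 (Set.Ioi (0:ℝ)) ≤ 1 / 2 ∧
    gaussianReal 0 1 (Set.Iio (0:ℝ)) ≤ 1 / 2 := by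
  have h1 : gaussianReal 0 1 (Set.Ioi (0:ℝ)) = gaussianReal 0 1 (Set.Iio (0:ℝ)) := by
    have h := gaussianReal_map_neg (μ := 0) (v := 1)
    rw [neg_zero] at h
    conv_lhs => rw [← h]
    rw [Measure.map_apply (by fun_prop) measurableSet_Ioi]
    congr 1
    ext t
    simp
  have h2 : gaussianReal 0 1 (Set.Ioi (0:ℝ)) + gaussianReal 0 1 (Set.Iio (0:ℝ)) ≤ 1 := by
    rw [← measure_union (by
      rw [Set.disjoint_left]
      intro t ht ht'
      exact lt_asymm (Set.mem_Ioi.mp ht) (Set.mem_Iio.mp ht')) measurableSet_Iio]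
    exact prob_le_one
  have h3 : gaussianReal 0 1 (Set.Iio (0:ℝ)) ≤ 1 / 2 := by
    rw [h1, ← two_mul] at h2
    rw [ENNReal.le_div_iff_mul_le (by simp) (by simp), mul_comm]
    exact h2
  exact ⟨h1 ▸ h3, h3⟩

theorem half_bound {I : Set ℝ} (hI : IsClosed I) (hc : Convex ℝ I) {r : ℝ} (hr : 0 < r)
    (hr' : r ≤ 1 / 2) : gaussianReal 0 1 I ≤ 1 / 2 + 1 / 2 * Fr I r := by
  by_cases h : gaussianReal 0 1 I ≤ 1 / 2
  · exact le_add_right h
  have hoc := hc.ordConnected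
  have h0 : (0:ℝ) ∈ I := by
    by_contra h0
    apply h
    by_cases hpos : ∃ t ∈ I, 0 < t
    · obtain ⟨t, ht, ht0⟩ := hpos
      refine (measure_mono fun t' ht' => ?_).trans half_Ioi.1
      by_contra hcon
      exact h0 (hoc.out ht' ht ⟨not_lt.mp hcon, ht0.le⟩)
    · push Not at hpos
      refine (measure_mono fun t' ht' => ?_).trans half_Ioi.2
      exact lt_of_le_of_ne (hpos t' ht') (fun e => h0 (e ▸ ht'))
  have hP : ∃ τ, τ ∈ I ∧ τ + r ∈ I := by
    by_contra hP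
    apply h
    obtain ⟨a, b, hab, hb, rfl⟩ := exists_Icc_of_not hI hc ⟨0, h0⟩ hr hP
    refine (gauss_le measurableSet_Icc (B := 1) fun t _ => psi_le_one t).trans ?_
    rw [Real.volume_Icc, mul_one, ← ENNReal.ofReal_mul gc0_pos.le]
    have h1 : gc0 * (b - a) ≤ 1 / 2 := by
      have := gc0_le
      have := gc0_pos
      nlinarith
    calc ENNReal.ofReal (gc0 * (b - a)) ≤ ENNReal.ofReal (1 / 2) := ENNReal.ofReal_le_ofReal h1
      _ = 1 / 2 := by
        rw [ENNReal.ofReal_div_of_pos (by norm_num)]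
        simp
  have h1 : 1 ≤ Fr I r := by
    obtain ⟨τ, h2, h3⟩ := hP
    rw [← psi_zero]
    exact le_Fr h0 h2 h3
  calc gaussianReal 0 1 I ≤ 1 := prob_le_one
    _ = 1 / 2 + 1 / 2 * 1 := by rw [mul_one, ENNReal.add_halves]
    _ ≤ _ := by gcongr

theorem NN_ge {A : Set (ℝ × (Fin n → ℝ))} (hA : IsClosed A) (hc : Convex ℝ A)
    (hγ : 19 / 20 ≤ ((gaussianReal 0 1).prod
      (Measure.pi fun _ : Fin n => gaussianReal 0 1)) A) {r : ℝ} (hr : 0 < r)
    (hr' : r ≤ 1 / 2) : 9 / 10 ≤ NN A r := by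
  rw [Measure.prod_apply_symm hA.measurableSet] at hγ
  have h1 : ∫⁻ y, gaussianReal 0 1 ((fun t => (t, y)) ⁻¹' A)
      ∂(Measure.pi fun _ : Fin n => gaussianReal 0 1) ≤ 1 / 2 + 1 / 2 * NN A r := by
    calc _ ≤ ∫⁻ y, (1 / 2 + 1 / 2 * FF A r y) ∂(Measure.pi fun _ : Fin n => gaussianReal 0 1) :=
          lintegral_mono fun y => half_bound (isClosed_fib hA y) (convex_fib hc y) hr hr'
      _ = _ := by
        rw [lintegral_add_left measurable_const, lintegral_const_mul _ (measurable_FF hA r)]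
        simp [NN]
  have h2 := hγ.trans h1
  have hfin : NN A r ≠ ⊤ := ne_top_of_le_ne_top ENNReal.one_ne_top (NN_le_one A r)
  rw [← ENNReal.ofReal_toReal hfin] at h2 ⊢
  have e1 : (19 / 20 : ENNReal) = ENNReal.ofReal (19 / 20) := by
    rw [ENNReal.ofReal_div_of_pos (by norm_num)]; simp
  have e2 : (1 / 2 : ENNReal) = ENNReal.ofReal (1 / 2) := by
    rw [ENNReal.ofReal_div_of_pos (by norm_num)]; simp
  have e3 : (9 / 10 : ENNReal) = ENNReal.ofReal (9 / 10) := by
    rw [ENNReal.ofReal_div_of_pos (by norm_num)]; simp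
  rw [e1, e2, ← ENNReal.ofReal_mul (by norm_num), ← ENNReal.ofReal_add (by norm_num)
    (by positivity)] at h2
  rw [e3]
  have h3 := (ENNReal.ofReal_le_ofReal_iff (by positivity)).mp h2
  exact ENNReal.ofReal_le_ofReal (by linarith)

/-- the discrete log-concavity argument -/
theorem seq_bound (a : ℕ → ℝ) (h0 : ∀ k, a k ≤ 1) (h8 : ∀ k ≤ 8, 9 / 10 ≤ a k)
    (hlc : ∀ k, a k * a (k + 2) ≤ a (k + 1) ^ 2) (hmono : a 1 ≤ a 0) :
    2 * a 0 + 2 / 5 * a 8 ≤ 12 / 5 * a 1 := by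
  have hkey : ∀ k ≤ 7, a (k + 1) * a 0 ≤ a k * a 1 := by
    intro k
    induction k with
    | zero => intro _; rw [zero_add, mul_comm]
    | succ k ih =>
      intro hk
      have h1 := ih (by omega)
      have hk0 : 9 / 10 ≤ a k := h8 k (by omega)
      have hk1 : 9 / 10 ≤ a (k + 1) := h8 (k + 1) (by omega)
      have h00 : 9 / 10 ≤ a 0 := h8 0 (by omega)
      have h2 := hlc k
      have h3 : a k * (a (k + 2) * a 0) ≤ a k * (a (k + 1) * a 1) := by
        calc a k * (a (k + 2) * a 0) = a k * a (k + 2) * a 0 := by ring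
          _ ≤ a (k + 1) ^ 2 * a 0 := mul_le_mul_of_nonneg_right h2 (by linarith)
          _ = a (k + 1) * (a (k + 1) * a 0) := by ring
          _ ≤ a (k + 1) * (a k * a 1) := mul_le_mul_of_nonneg_left h1 (by linarith)
          _ = _ := by ring
      exact le_of_mul_le_mul_left h3 (by linarith)
  have hdiff : ∀ k ≤ 7, 9 / 10 * (a 0 - a 1) ≤ a k - a (k + 1) := by
    intro k hk
    have h1 := hkey k hk
    have hk0 : 9 / 10 ≤ a k := h8 k (by omega)
    have h00 : 9 / 10 ≤ a 0 := h8 0 (by omega)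
    have h01 := h0 0
    have h2 : a k * (a 0 - a 1) ≤ (a k - a (k + 1)) * a 0 := by nlinarith
    have h3 : 0 ≤ a 0 - a 1 := by linarith
    have h4 : 9 / 10 * (a 0 - a 1) ≤ (a k - a (k + 1)) * a 0 := by nlinarith
    have h5 : 0 ≤ a k - a (k + 1) := by
      by_contra hcon
      push Not at hcon
      nlinarith
    nlinarith
  have d1 := hdiff 1 (by norm_num)
  have d2 := hdiff 2 (by norm_num)
  have d3 := hdiff 3 (by norm_num)
  have d4 := hdiff 4 (by norm_num)
  have d5 := hdiff 5 (by norm_num)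
  have d6 := hdiff 6 (by norm_num)
  have d7 := hdiff 7 (by norm_num)
  norm_num at d1 d2 d3 d4 d5 d6 d7
  linarith

theorem prod_step {A : Set (ℝ × (Fin n → ℝ))} (hA : IsClosed A) (hc : Convex ℝ A)
    (hγ : 19 / 20 ≤ ((gaussianReal 0 1).prod
      (Measure.pi fun _ : Fin n => gaussianReal 0 1)) A) {s x : ℝ} (hs : 0 < s)
    (hs' : s ≤ 1 / 32) (hx : |x| ≤ 1 / 2)
    (hm : MeasurableSet {p : ℝ × (Fin n → ℝ) | p.1 ∈ Iext (fib A p.2) s x}) :
    ((gaussianReal 0 1).prod (Measure.pi fun _ : Fin n => gaussianReal 0 1)) A ≤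
      ((gaussianReal 0 1).prod (Measure.pi fun _ : Fin n => gaussianReal 0 1))
        {p : ℝ × (Fin n → ℝ) | p.1 ∈ Iext (fib A p.2) s x} := by
  have hgc := gc0_pos
  have hNtop : ∀ r, NN A r ≠ ⊤ := fun r => ne_top_of_le_ne_top ENNReal.one_ne_top (NN_le_one A r)
  have hint : ∫⁻ y, (gaussianReal 0 1 (fib A y) + ENNReal.ofReal (12 / 5 * gc0 * s) *
      FF A (2 * s) y) ∂(Measure.pi fun _ : Fin n => gaussianReal 0 1) ≤
      ∫⁻ y, (gaussianReal 0 1 (Iext (fib A y) s x) + ENNReal.ofReal (2 * gc0 * s) * FF A 0 y +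
        ENNReal.ofReal (2 / 5 * gc0 * s) * FF A (16 * s) y)
        ∂(Measure.pi fun _ : Fin n => gaussianReal 0 1) :=
    lintegral_mono fun y => one_dim (isClosed_fib hA y) (convex_fib hc y) hs hs' hx
  rw [lintegral_add_right _ ((measurable_FF hA _).const_mul _),
    lintegral_add_right _ ((measurable_FF hA _).const_mul _),
    lintegral_add_right _ ((measurable_FF hA _).const_mul _),
    lintegral_const_mul _ (measurable_FF hA _), lintegral_const_mul _ (measurable_FF hA _),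
    lintegral_const_mul _ (measurable_FF hA _)] at hint
  rw [Measure.prod_apply_symm hA.measurableSet, Measure.prod_apply_symm hm]
  change ∫⁻ y, gaussianReal 0 1 (fib A y) ∂(Measure.pi fun _ : Fin n => gaussianReal 0 1) ≤
    ∫⁻ y, gaussianReal 0 1 (Iext (fib A y) s x) ∂(Measure.pi fun _ : Fin n => gaussianReal 0 1)
  change _ + ENNReal.ofReal (12 / 5 * gc0 * s) * NN A (2 * s) ≤
    _ + ENNReal.ofReal (2 * gc0 * s) * NN A 0 + ENNReal.ofReal (2 / 5 * gc0 * s) * NN A (16 * s)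
    at hint
  let a : ℕ → ℝ := fun k => (NN A (2 * s * k)).toReal
  have hreal : 2 * a 0 + 2 / 5 * a 8 ≤ 12 / 5 * a 1 := by
    refine seq_bound a (fun k => ?_) (fun k hk => ?_) (fun k => ?_) ?_
    · have := ENNReal.toReal_mono ENNReal.one_ne_top (NN_le_one A (2 * s * k))
      simpa [a] using this
    · have h1 : NN A (16 * s) ≤ NN A (2 * s * k) := by
        refine lintegral_mono fun y => ?_
        by_cases hP : ∃ τ, τ ∈ fib A y ∧ τ + 16 * s ∈ fib A y
        · obtain ⟨τ, h1, h2⟩ := hP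
          have h3 : τ + 2 * s * k ∈ fib A y := by
            refine (convex_fib hc y).ordConnected.out h1 h2 ⟨?_, ?_⟩
            · have : 0 ≤ 2 * s * (k:ℝ) := by positivity
              linarith
            · have h4 : (k:ℝ) ≤ 8 := by exact_mod_cast hk
              nlinarith
          exact (Fr_eq ⟨τ, h1, h2⟩).trans_le (Fr_eq ⟨τ, h1, h3⟩).ge
        · change Fr (fib A y) (16 * s) ≤ _
          rw [Fr_eq_zero hP]
          exact bot_le
      have h2 := (NN_ge hA hc hγ (show 0 < 16 * s by linarith) (by linarith)).trans h1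
      have h3 := ENNReal.toReal_mono (hNtop _) h2
      simpa [a] using h3
    · have h1 := NN_mul_le hA hc (2 * s * k) (2 * s * (k + 2 : ℕ))
      have e : (2 * s * (k:ℝ) + 2 * s * ((k + 2 : ℕ) : ℝ)) / 2 = 2 * s * ((k + 1 : ℕ) : ℝ) := by
        push_cast; ring
      rw [e] at h1
      have h2 := ENNReal.toReal_mono (ENNReal.pow_ne_top (hNtop _)) h1
      rw [ENNReal.toReal_mul, ENNReal.toReal_pow] at h2
      exact h2
    · have h1 : NN A (2 * s * (1:ℕ)) ≤ NN A (2 * s * (0:ℕ)) := by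
        rw [Nat.cast_zero, mul_zero]
        exact lintegral_mono fun y => Fr_le_zero _ _
      exact ENNReal.toReal_mono (hNtop _) h1
  have ha0 : NN A 0 = ENNReal.ofReal (a 0) := by
    simp only [a]
    rw [ENNReal.ofReal_toReal (hNtop _)]
    simp
  have ha1 : NN A (2 * s) = ENNReal.ofReal (a 1) := by
    simp only [a]
    rw [ENNReal.ofReal_toReal (hNtop _)]
    simp
  have ha8 : NN A (16 * s) = ENNReal.ofReal (a 8) := by
    simp only [a]
    rw [ENNReal.ofReal_toReal (hNtop _)]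
    congr 1
    push_cast
    ring
  have hann : ∀ k, 0 ≤ a k := fun k => ENNReal.toReal_nonneg
  rw [ha0, ha1, ha8, ← ENNReal.ofReal_mul (by positivity), ← ENNReal.ofReal_mul (by positivity),
    ← ENNReal.ofReal_mul (by positivity), add_assoc, ← ENNReal.ofReal_add
      (mul_nonneg (by positivity) (hann 0)) (mul_nonneg (by positivity) (hann 8))] at hint
  have hle : 2 * gc0 * s * a 0 + 2 / 5 * gc0 * s * a 8 ≤ 12 / 5 * gc0 * s * a 1 := by
    have h1 := mul_le_mul_of_nonneg_left hreal (show 0 ≤ gc0 * s by positivity)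
    linarith
  have hint2 := hint.trans (add_le_add_right (ENNReal.ofReal_le_ofReal hle) _)
  exact (ENNReal.add_le_add_iff_right ENNReal.ofReal_ne_top).mp hint2

end P262B
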