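import Vale.Agent.P262.BanB

/-!
# P262 full sqrt(d): [A3] Banaszczyk's prefix theorem with checkpoints and offsets

Backwards chain: `K'_n = K n`, `K'_j = (one step of K'_{j+1}) ∩ K j`; measure of the complement
at most `∑ j, γ (K j)^c ≤ 1/20` all along.  `0 ∈ K'_0` (a convex set of measure `> 1/2` contains
`0`: separation and symmetry).  Then choose the signs forwards.
-/

open MeasureTheory ProbabilityTheory

namespace P262B

variable {E : Type*} [NormedAddCommGroup E] [InnerProductSpace ℝ E] [FiniteDimensional ℝ E]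
  [MeasurableSpace E] [BorelSpace E]

/-- A closed convex set of Gaussian measure more than one half contains the origin. -/
theorem zero_mem_of_gauss {K : Set E} (hK : IsClosed K) (hc : Convex ℝ K)
    (hγ : 1 / 2 < (stdGaussian E).real K) : (0 : E) ∈ K := by
  by_contra h0
  obtain ⟨f, u, hu0, hub⟩ := geometric_hahn_banach_point_closed hc hK h0
  rw [map_zero] at hu0
  -- the reflected set
  set g : E ≃ₗᵢ[ℝ] E := LinearIsometryEquiv.neg ℝ with hg
  have hmap : (stdGaussian E).map g = stdGaussian E := stdGaussian_map g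
  have hpre : (stdGaussian E).real (g ⁻¹' K) = (stdGaussian E).real K := by
    rw [measureReal_def, measureReal_def, ← Measure.map_apply g.continuous.measurable
      hK.measurableSet, hmap]
  have hdisj : Disjoint K (g ⁻¹' K) := by
    rw [Set.disjoint_left]
    intro z hz1 hz2
    have h1 := hub z hz1
    have h2 := hub (g z) hz2
    have h3 : g z = -z := rfl
    rw [h3, map_neg] at h2
    linarith
  have hm : MeasurableSet (g ⁻¹' K) := g.continuous.measurable hK.measurableSet
  have h1 : (stdGaussian E).real (K ∪ g ⁻¹' K) =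
      (stdGaussian E).real K + (stdGaussian E).real (g ⁻¹' K) :=
    measureReal_union hdisj hm
  have h2 : (stdGaussian E).real (K ∪ g ⁻¹' K) ≤ 1 := measureReal_le_one
  rw [hpre] at h1
  linarith

theorem ban_chain (n : ℕ) (V : ℕ → E) (x : ℕ → ℝ) (hV : ∀ i < n, ‖V i‖ ≤ 1 / 32)
    (hx : ∀ i < n, |x i| ≤ 1 / 2) (K : ℕ → Set E) (hK : ∀ j ≤ n, IsClosed (K j))
    (hc : ∀ j ≤ n, Convex ℝ (K j))
    (hsum : ∑ j ∈ Finset.range (n + 1), (stdGaussian E).real (K j)ᶜ ≤ 1 / 20) (m : ℕ) :
    ∀ j : ℕ, j + m = n → ∃ K' : Set E, IsClosed K' ∧ Convex ℝ K' ∧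
      (stdGaussian E).real K'ᶜ ≤ ∑ i ∈ Finset.Ico j (n + 1), (stdGaussian E).real (K i)ᶜ ∧
      ∀ z ∈ K', ∃ ε : ℕ → ℝ, (∀ i, ε i = 1 ∨ ε i = -1) ∧
        ∀ k, j ≤ k → k ≤ n → z + ∑ i ∈ Finset.Ico j k, (ε i - x i) • V i ∈ K k := by
  induction m with
  | zero =>
    intro j hj
    have hj' : j = n := by omega
    subst hj'
    refine ⟨K j, hK j le_rfl, hc j le_rfl, ?_, ?_⟩
    · rw [Nat.Ico_succ_singleton, Finset.sum_singleton]
    · intro z hz
      refine ⟨fun _ => 1, fun _ => Or.inl rfl, ?_⟩
      intro k hk1 hk2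
      have : k = j := le_antisymm hk2 hk1
      subst this
      simpa using hz
  | succ m ih =>
    intro j hj
    obtain ⟨L, hL, hLc, hLγ, hLs⟩ := ih (j + 1) (by omega)
    have hjn : j < n := by omega
    have hsub : ∑ i ∈ Finset.Ico (j + 1) (n + 1), (stdGaussian E).real (K i)ᶜ ≤ 1 / 20 := by
      refine (Finset.sum_le_sum_of_subset_of_nonneg ?_ ?_).trans hsum
      · rw [Finset.range_eq_Ico]
        exact Finset.Ico_subset_Ico_left (Nat.zero_le _)
      · intro i _ _
        exact measureReal_nonneg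
    have hL1 : 19 / 20 ≤ (stdGaussian E).real L := by
      have := probReal_add_probReal_compl (μ := stdGaussian E) hL.measurableSet
      linarith
    obtain ⟨L', hL', hLc', hstep, hγ'⟩ := ban_step hL hLc hL1 (hV j hjn) (hx j hjn)
    refine ⟨L' ∩ K j, hL'.inter (hK j hjn.le), hLc'.inter (hc j hjn.le), ?_, ?_⟩
    · rw [Finset.sum_eq_sum_Ico_succ_bot (by omega), Set.compl_inter]
      have h1 : (stdGaussian E).real L'ᶜ ≤ (stdGaussian E).real Lᶜ := by
        have e1 := probReal_add_probReal_compl (μ := stdGaussian E) hL.measurableSet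
        have e2 := probReal_add_probReal_compl (μ := stdGaussian E) hL'.measurableSet
        linarith
      have h2 := measureReal_union_le (μ := stdGaussian E) L'ᶜ (K j)ᶜ
      linarith
    · rintro z ⟨hz1, hz2⟩
      -- the sign at `j`
      have hsign : ∃ s : ℝ, (s = 1 ∨ s = -1) ∧ z + (s - x j) • V j ∈ L := by
        rcases hstep z hz1 with h | h
        · exact ⟨1, Or.inl rfl, h⟩
        · refine ⟨-1, Or.inr rfl, ?_⟩
          have e : (-1 - x j) • V j = -((1 + x j) • V j) := by
            rw [← neg_smul]; congr 1; ring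
          rw [e, ← sub_eq_add_neg]
          exact h
      obtain ⟨s, hs, hsL⟩ := hsign
      obtain ⟨ε, hε, hεK⟩ := hLs _ hsL
      refine ⟨fun i => if i = j then s else ε i, ?_, ?_⟩
      · intro i
        by_cases h : i = j
        · simpa [h] using hs
        · simpa [h] using hε i
      · intro k hk1 hk2
        rcases Nat.eq_or_lt_of_le hk1 with h | h
        · subst h
          simpa using hz2
        · have h3 := hεK k h hk2
          rw [Finset.sum_eq_sum_Ico_succ_bot h]
          have h4 : ∑ i ∈ Finset.Ico (j + 1) k, ((if i = j then s else ε i) - x i) • V i =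
              ∑ i ∈ Finset.Ico (j + 1) k, (ε i - x i) • V i := by
            apply Finset.sum_congr rfl
            intro i hi
            have : i ≠ j := by
              have := (Finset.mem_Ico.mp hi).1
              omega
            simp [this]
          simp only [if_true]
          rw [h4, ← add_assoc]
          exact h3

theorem ban_prefix (n : ℕ) (V : ℕ → E) (x : ℕ → ℝ) (hV : ∀ i < n, ‖V i‖ ≤ 1 / 32)
    (hx : ∀ i < n, |x i| ≤ 1 / 2) (K : ℕ → Set E) (hK : ∀ j ≤ n, IsClosed (K j))
    (hc : ∀ j ≤ n, Convex ℝ (K j))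
    (hsum : ∑ j ∈ Finset.range (n + 1), (stdGaussian E).real (K j)ᶜ ≤ 1 / 20) :
    ∃ ε : ℕ → ℝ, (∀ i, ε i = 1 ∨ ε i = -1) ∧
      ∀ j ≤ n, ∑ i ∈ Finset.range j, (ε i - x i) • V i ∈ K j := by
  obtain ⟨L, hL, hLc, hLγ, hLs⟩ := ban_chain n V x hV hx K hK hc hsum n 0 (by omega)
  rw [← Finset.range_eq_Ico] at hLγ
  have h0 : (0 : E) ∈ L := by
    apply zero_mem_of_gauss hL hLc
    have := probReal_add_probReal_compl (μ := stdGaussian E) hL.measurableSet
    linarith
  obtain ⟨ε, hε, h⟩ := hLs 0 h0
  refine ⟨ε, hε, ?_⟩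
  intro j hj
  have := h j (Nat.zero_le _) hj
  rwa [zero_add, ← Finset.range_eq_Ico] at this

end P262B
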