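import Mathlib

/-!
# P262 [L] Lewis weights

Drop the zero vectors first (put `b e = 0` there).  So let `v e ≠ 0` for all `e`.
For `s : ι → ℝ` positive put `A_s(x) = ∑ e, ⟪v e, x⟫²/s e` and
`τ_e(s) = sInf {c | 0 ≤ c ∧ ∀ x, ⟪v e, x⟫² ≤ c * A_s(x)}`.
* `s e` is in the set; the infimum is attained (for fixed `x`: if `A_s(x)=0` trivial, else `c ≥ ⟪⟫²/A_s(x)`);
  `τ_e(s) > 0` (take `x = v e`).
* If `s ≤ t s'` pointwise then `A_{s'} ≤ t A_s`, so `τ_e(s) ≤ t τ_e(s')`.
  Hence `Φ(λ) e = (1/2) log τ_e(exp λ)` is `1/2`-Lipschitz on `ι → ℝ` with the sup metric: Banach fixed point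
  gives `s` with `s e ^ 2 = τ_e(s)`.  (P1): `⟪v e, x⟫² ≤ s e ^2 * A_s(x)`.
* Spectral theorem: orthonormal basis `u` with `A_s(u i,u l) = ∑ e ⟪v e,u i⟫⟪v e,u l⟫/s e = K i ^2 δ_il`, `K i ≥ 0`.
  `K l = 0` implies `⟪v e,u l⟫ = 0` for all `e`.
* `τ_e(s) ≤ R_e := ∑_{l : K l > 0} ⟪v e,u l⟫²/K l²` (Cauchy–Schwarz), so
  `∑ s e = ∑ τ_e/s e ≤ ∑ R_e / s e = #{l : K l > 0} ≤ d` (P2).
* `b e l = ⟪v e, u l⟫/(s e * K l)` (`= 0` if `K l = 0`). `∑_l b e l² = R_e/s e² ≤ 1`: use (P1) with
  `x = ∑_{K l>0} (⟪v e,u l⟫/K l²) u l`: `R_e² ≤ s e² R_e`.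
* `∑_e |⟪v e,u i⟫| ≤ (∑ ⟪v e,u i⟫²/s e)^{1/2} (∑ s e)^{1/2} ≤ K i √d`.
-/

namespace P262

namespace LewisAux

variable {ι : Type*} [Fintype ι] {d : ℕ}

/-- the quadratic form -/
noncomputable def AA (v : ι → EuclideanSpace ℝ (Fin d)) (s : ι → ℝ)
    (x : EuclideanSpace ℝ (Fin d)) : ℝ := ∑ e, inner ℝ (v e) x ^ 2 / s e

/-- the leverage score -/
noncomputable def tau (v : ι → EuclideanSpace ℝ (Fin d)) (s : ι → ℝ) (e : ι) : ℝ :=
  ⨆ x : EuclideanSpace ℝ (Fin d), inner ℝ (v e) x ^ 2 / AA v s x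

variable {v : ι → EuclideanSpace ℝ (Fin d)} {s : ι → ℝ}

theorem AA_nonneg (hs : ∀ e, 0 < s e) (x : EuclideanSpace ℝ (Fin d)) : 0 ≤ AA v s x :=
  Finset.sum_nonneg (fun e _ => div_nonneg (sq_nonneg _) (hs e).le)

theorem term_le (hs : ∀ e, 0 < s e) (e : ι) (x : EuclideanSpace ℝ (Fin d)) :
    inner ℝ (v e) x ^ 2 / s e ≤ AA v s x :=
  Finset.single_le_sum (f := fun e => inner ℝ (v e) x ^ 2 / s e)
    (fun e _ => div_nonneg (sq_nonneg _) (hs e).le) (Finset.mem_univ e)

theorem inner_eq_zero (hs : ∀ e, 0 < s e) {e : ι} {x : EuclideanSpace ℝ (Fin d)}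
    (h : AA v s x = 0) : inner ℝ (v e) x = 0 := by
  have h1 := term_le (v := v) hs e x
  rw [h, div_le_iff₀ (hs e), zero_mul] at h1
  have h2 := sq_nonneg (inner ℝ (v e) x)
  exact pow_eq_zero_iff (n := 2) (by norm_num) |>.1 (le_antisymm h1 h2)

theorem ratio_le (hs : ∀ e, 0 < s e) (e : ι) (x : EuclideanSpace ℝ (Fin d)) :
    inner ℝ (v e) x ^ 2 / AA v s x ≤ s e := by
  rcases (AA_nonneg (v := v) hs x).eq_or_lt with h | h
  · rw [← h, div_zero]; exact (hs e).le
  · rw [div_le_iff₀ h]
    have := term_le (v := v) hs e x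
    rw [div_le_iff₀ (hs e)] at this
    linarith

theorem bdd (hs : ∀ e, 0 < s e) (e : ι) :
    BddAbove (Set.range fun x : EuclideanSpace ℝ (Fin d) => inner ℝ (v e) x ^ 2 / AA v s x) :=
  ⟨s e, by rintro _ ⟨x, rfl⟩; exact ratio_le hs e x⟩

theorem tau_spec (hs : ∀ e, 0 < s e) (e : ι) (x : EuclideanSpace ℝ (Fin d)) :
    inner ℝ (v e) x ^ 2 ≤ tau v s e * AA v s x := by
  rcases (AA_nonneg (v := v) hs x).eq_or_lt with h | h
  · rw [inner_eq_zero hs h.symm, ← h]; simp
  · rw [← div_le_iff₀ h]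
    exact le_ciSup (bdd (v := v) hs e) x

theorem tau_le {e : ι} {c : ℝ} (hc : 0 ≤ c) (hs : ∀ e, 0 < s e)
    (h : ∀ x, inner ℝ (v e) x ^ 2 ≤ c * AA v s x) : tau v s e ≤ c := by
  apply ciSup_le
  intro x
  rcases (AA_nonneg (v := v) hs x).eq_or_lt with h0 | h0
  · rw [← h0, div_zero]; exact hc
  · rw [div_le_iff₀ h0]; exact h x

theorem tau_nonneg (hs : ∀ e, 0 < s e) (e : ι) : 0 ≤ tau v s e := by
  have := le_ciSup (bdd (v := v) hs e) 0
  refine le_trans ?_ this
  exact div_nonneg (sq_nonneg _) (AA_nonneg hs _)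

theorem tau_pos (hs : ∀ e, 0 < s e) {e : ι} (he : v e ≠ 0) : 0 < tau v s e := by
  have h1 : 0 < inner ℝ (v e) (v e) := real_inner_self_pos.2 he
  have h2 := tau_spec (v := v) hs e (v e)
  have h3 : 0 < inner ℝ (v e) (v e) ^ 2 := by positivity
  have h4 : 0 < tau v s e * AA v s (v e) := lt_of_lt_of_le h3 h2
  exact pos_of_mul_pos_left h4 (AA_nonneg hs _)

theorem tau_mono {s' : ι → ℝ} {t : ℝ} (ht : 0 < t) (hs : ∀ e, 0 < s e) (hs' : ∀ e, 0 < s' e)
    (h : ∀ e, s e ≤ t * s' e) (e : ι) : tau v s e ≤ t * tau v s' e := by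
  apply tau_le (mul_nonneg ht.le (tau_nonneg hs' e)) hs
  intro x
  have h1 := tau_spec (v := v) hs' e x
  have h2 : AA v s' x ≤ t * AA v s x := by
    unfold AA
    rw [Finset.mul_sum]
    apply Finset.sum_le_sum
    intro e _
    rw [div_le_iff₀ (hs' e), mul_assoc, div_mul_eq_mul_div, mul_div_assoc', le_div_iff₀ (hs e)]
    have := mul_le_mul_of_nonneg_left (h e) (sq_nonneg (inner ℝ (v e) x))
    linarith
  calc inner ℝ (v e) x ^ 2 ≤ tau v s' e * AA v s' x := h1
    _ ≤ tau v s' e * (t * AA v s x) := mul_le_mul_of_nonneg_left h2 (tau_nonneg hs' e)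
    _ = t * tau v s' e * AA v s x := by ring

theorem exists_weights (v : ι → EuclideanSpace ℝ (Fin d)) :
    ∃ s : ι → ℝ, (∀ e, 0 < s e) ∧ ∀ e, v e ≠ 0 → s e ^ 2 = tau v s e := by
  classical
  let Φ : (ι → ℝ) → (ι → ℝ) := fun lam e =>
    if v e = 0 then 0 else (1 / 2) * Real.log (tau v (fun e => Real.exp (lam e)) e)
  have hpos : ∀ lam : ι → ℝ, ∀ e, 0 < (fun e => Real.exp (lam e)) e :=
    fun lam e => Real.exp_pos _
  have key : ∀ lam lam' : ι → ℝ, ∀ e, Φ lam e ≤ Φ lam' e + 1 / 2 * dist lam lam' := by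
    intro lam lam' e
    by_cases he : v e = 0
    · simp only [Φ, he, if_true]
      have := dist_nonneg (x := lam) (y := lam')
      linarith
    · simp only [Φ, he, if_false]
      have h1 : tau v (fun e => Real.exp (lam e)) e
          ≤ Real.exp (dist lam lam') * tau v (fun e => Real.exp (lam' e)) e := by
        apply tau_mono (Real.exp_pos _) (hpos lam) (hpos lam')
        intro e
        rw [← Real.exp_add]
        apply Real.exp_le_exp.2
        have h2 := dist_le_pi_dist lam lam' e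
        rw [Real.dist_eq] at h2
        have := le_abs_self (lam e - lam' e)
        linarith
      have h2 := Real.log_le_log (tau_pos (hpos lam) he) h1
      rw [Real.log_mul (Real.exp_pos _).ne' (tau_pos (hpos lam') he).ne', Real.log_exp] at h2
      linarith
  have hlip : LipschitzWith (1 / 2 : NNReal) Φ := by
    apply LipschitzWith.of_dist_le_mul
    intro lam lam'
    rw [dist_pi_le_iff (by positivity)]
    intro e
    have h1 := key lam lam' e
    have h2 := key lam' lam e
    rw [dist_comm lam' lam] at h2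
    rw [Real.dist_eq, abs_le]
    push_cast
    constructor <;> linarith
  have hcon : ContractingWith (1 / 2 : NNReal) Φ := by
    refine ⟨?_, hlip⟩
    rw [← NNReal.coe_lt_coe]
    push_cast
    norm_num
  refine ⟨fun e => Real.exp (ContractingWith.fixedPoint Φ hcon e), fun e => Real.exp_pos _, ?_⟩
  intro e he
  have h1 := congrFun hcon.fixedPoint_isFixedPt e
  simp only [Φ, he, if_false] at h1
  set lam := ContractingWith.fixedPoint Φ hcon with hlam
  have h2 : Real.log (tau v (fun e => Real.exp (lam e)) e) = 2 * lam e := by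
    have : (1 / 2) * Real.log (tau v (fun e => Real.exp (lam e)) e) = lam e := h1
    linarith
  rw [← Real.exp_log (tau_pos (hpos lam) he), h2, ← Real.exp_nat_mul]
  norm_num

end LewisAux

open LewisAux in
theorem lewis {ι : Type*} [Fintype ι] {d : ℕ} (v : ι → EuclideanSpace ℝ (Fin d)) :
    ∃ (u : OrthonormalBasis (Fin d) ℝ (EuclideanSpace ℝ (Fin d))) (K : Fin d → ℝ)
      (b : ι → Fin d → ℝ),
      (∀ i, 0 ≤ K i) ∧ (∀ e, ∑ l, b e l ^ 2 ≤ 1) ∧
      (∀ i, ∑ e, |inner ℝ (u i) (v e)| ≤ Real.sqrt d * K i) ∧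
      (∀ i l, ∑ e, inner ℝ (u i) (v e) * b e l = if i = l then K i else 0) := by
  classical
  obtain ⟨s, hs, hfix⟩ := exists_weights v
  -- the operator
  let T : EuclideanSpace ℝ (Fin d) →ₗ[ℝ] EuclideanSpace ℝ (Fin d) :=
    ∑ e, (1 / s e) • (LinearMap.toSpanSingleton ℝ _ (v e)).comp (innerₛₗ ℝ (v e))
  have hT : ∀ x, T x = ∑ e, (inner ℝ (v e) x / s e) • v e := by
    intro x
    simp only [T, LinearMap.sum_apply, LinearMap.smul_apply, LinearMap.comp_apply,
      innerₛₗ_apply_apply, LinearMap.toSpanSingleton_apply, smul_smul]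
    apply Finset.sum_congr rfl
    intro e _
    congr 1
    ring
  have hTin : ∀ x y, inner ℝ x (T y) = ∑ e, inner ℝ (v e) x * inner ℝ (v e) y / s e := by
    intro x y
    rw [hT, inner_sum]
    apply Finset.sum_congr rfl
    intro e _
    rw [inner_smul_right, real_inner_comm x (v e)]
    ring
  have hsymm : T.IsSymmetric := by
    intro x y
    rw [real_inner_comm, hTin, hTin]
    apply Finset.sum_congr rfl
    intro e _
    ring
  have hn : Module.finrank ℝ (EuclideanSpace ℝ (Fin d)) = d := finrank_euclideanSpace_fin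
  set u := hsymm.eigenvectorBasis hn with hu
  set mu := hsymm.eigenvalues hn with hmu
  have hTu : ∀ l, T (u l) = mu l • u l := fun l => by
    have := hsymm.apply_eigenvectorBasis hn l
    simpa only [RCLike.ofReal_real_eq_id, id] using this
  have horth : ∀ i l, ∑ e, inner ℝ (v e) (u i) * inner ℝ (v e) (u l) / s e
      = if i = l then mu l else 0 := by
    intro i l
    rw [← hTin, hTu, inner_smul_right, orthonormal_iff_ite.1 u.orthonormal i l]
    split_ifs <;> simp
  have hmu_eq : ∀ l, mu l = AA v s (u l) := by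
    intro l
    have := horth l l
    rw [if_pos rfl] at this
    rw [← this]
    unfold AA
    apply Finset.sum_congr rfl
    intro e _
    ring
  have hmu0 : ∀ l, 0 ≤ mu l := fun l => by rw [hmu_eq]; exact AA_nonneg hs _
  have hzero : ∀ e l, mu l = 0 → inner ℝ (v e) (u l) = 0 := by
    intro e l h
    rw [hmu_eq] at h
    exact inner_eq_zero hs h
  -- `AA` in the basis
  have hAA : ∀ x, AA v s x = ∑ l, mu l * inner ℝ (u l) x ^ 2 := by
    intro x
    have h1 : AA v s x = inner ℝ x (T x) := by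
      rw [hTin]; unfold AA
      apply Finset.sum_congr rfl
      intro e _
      ring
    rw [h1, ← u.sum_inner_mul_inner x (T x)]
    apply Finset.sum_congr rfl
    intro l _
    rw [← hsymm, hTu, inner_smul_left, real_inner_comm x (u l)]
    simp only [conj_trivial]
    ring
  let R : ι → ℝ := fun e => ∑ l, inner ℝ (v e) (u l) ^ 2 / mu l
  have hR0 : ∀ e, 0 ≤ R e := fun e =>
    Finset.sum_nonneg (fun l _ => div_nonneg (sq_nonneg _) (hmu0 l))
  -- (P2) first half
  have htauR : ∀ e, tau v s e ≤ R e := by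
    intro e
    apply tau_le (hR0 e) hs
    intro x
    rw [hAA]
    have h1 : inner ℝ (v e) x = ∑ l, (inner ℝ (v e) (u l) / Real.sqrt (mu l)) *
        (Real.sqrt (mu l) * inner ℝ (u l) x) := by
      rw [← u.sum_inner_mul_inner (v e) x]
      apply Finset.sum_congr rfl
      intro l _
      rcases (hmu0 l).eq_or_lt with h | h
      · rw [hzero e l h.symm]; simp
      · have : Real.sqrt (mu l) ≠ 0 := (Real.sqrt_pos.2 h).ne'
        field_simp
    rw [h1]
    refine (Finset.sum_mul_sq_le_sq_mul_sq _ _ _).trans (le_of_eq ?_)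
    congr 1
    · apply Finset.sum_congr rfl
      intro l _
      rw [div_pow, Real.sq_sqrt (hmu0 l)]
    · apply Finset.sum_congr rfl
      intro l _
      rw [mul_pow, Real.sq_sqrt (hmu0 l)]
  -- (P1)
  have hP1 : ∀ e x, inner ℝ (v e) x ^ 2 ≤ s e ^ 2 * AA v s x := by
    intro e x
    by_cases he : v e = 0
    · rw [he, inner_zero_left, zero_pow (by norm_num)]
      exact mul_nonneg (sq_nonneg _) (AA_nonneg hs x)
    · rw [hfix e he]
      exact tau_spec hs e x
  have hRs : ∀ e, R e ≤ s e ^ 2 := by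
    intro e
    let x : EuclideanSpace ℝ (Fin d) := ∑ l, (inner ℝ (v e) (u l) / mu l) • u l
    have hx1 : ∀ l, inner ℝ (u l) x = inner ℝ (v e) (u l) / mu l := by
      intro l
      simp only [x, inner_sum, inner_smul_right, orthonormal_iff_ite.1 u.orthonormal]
      simp
    have hx2 : inner ℝ (v e) x = R e := by
      simp only [x, R, inner_sum, inner_smul_right]
      apply Finset.sum_congr rfl
      intro l _
      ring
    have hx3 : AA v s x = R e := by
      rw [hAA]
      simp only [R]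
      apply Finset.sum_congr rfl
      intro l _
      rw [hx1]
      rcases (hmu0 l).eq_or_lt with h | h
      · rw [← h]; simp
      · field_simp
    have h1 := hP1 e x
    rw [hx2, hx3] at h1
    rcases (hR0 e).eq_or_lt with h | h
    · rw [← h]; positivity
    · have h2 : R e * R e ≤ s e ^ 2 * R e := by rw [← sq]; exact h1
      exact le_of_mul_le_mul_right h2 h
  have hsumR : ∑ e, R e / s e ≤ d := by
    have h1 : ∑ e, R e / s e = ∑ l, (∑ e, inner ℝ (v e) (u l) * inner ℝ (v e) (u l) / s e) / mu l := by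
      simp only [R, Finset.sum_div]
      rw [Finset.sum_comm]
      apply Finset.sum_congr rfl
      intro l _
      apply Finset.sum_congr rfl
      intro e _
      ring
    rw [h1]
    calc ∑ l, (∑ e, inner ℝ (v e) (u l) * inner ℝ (v e) (u l) / s e) / mu l
        ≤ ∑ _l : Fin d, (1 : ℝ) := by
          apply Finset.sum_le_sum
          intro l _
          rw [horth l l, if_pos rfl]
          exact div_self_le_one _
      _ = d := by simp
  refine ⟨u, fun l => Real.sqrt (mu l), fun e l => inner ℝ (v e) (u l) / (s e * Real.sqrt (mu l)),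
    fun i => Real.sqrt_nonneg _, ?_, ?_, ?_⟩
  · intro e
    have h1 : ∑ l, (inner ℝ (v e) (u l) / (s e * Real.sqrt (mu l))) ^ 2 = R e / s e ^ 2 := by
      simp only [R, Finset.sum_div]
      apply Finset.sum_congr rfl
      intro l _
      rw [div_pow, mul_pow, Real.sq_sqrt (hmu0 l), mul_comm (s e ^ 2), div_div]
    rw [h1, div_le_one (pow_pos (hs e) 2)]
    exact hRs e
  · intro i
    have h1 : ∑ e, |inner ℝ (u i) (v e)| = ∑ e ∈ Finset.univ.filter (fun e => v e ≠ 0),
        (|inner ℝ (u i) (v e)| / Real.sqrt (s e)) * Real.sqrt (s e) := by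
      rw [Finset.sum_filter]
      apply Finset.sum_congr rfl
      intro e _
      split_ifs with h
      · have : Real.sqrt (s e) ≠ 0 := (Real.sqrt_pos.2 (hs e)).ne'
        field_simp
      · push Not at h
        rw [h]; simp
    have h2 : (∑ e ∈ Finset.univ.filter (fun e => v e ≠ 0),
        (|inner ℝ (u i) (v e)| / Real.sqrt (s e)) * Real.sqrt (s e)) ^ 2 ≤ mu i * d := by
      refine (Finset.sum_mul_sq_le_sq_mul_sq _ _ _).trans ?_
      apply mul_le_mul
      · rw [hmu_eq]
        unfold AA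
        rw [Finset.sum_filter]
        apply Finset.sum_le_sum
        intro e _
        split_ifs
        · rw [div_pow, sq_abs, Real.sq_sqrt (hs e).le, real_inner_comm]
        · exact div_nonneg (sq_nonneg _) (hs e).le
      · refine le_trans ?_ hsumR
        rw [Finset.sum_filter]
        apply Finset.sum_le_sum
        intro e _
        split_ifs with h
        · rw [Real.sq_sqrt (hs e).le, le_div_iff₀ (hs e), ← sq, hfix e h]
          exact htauR e
        · exact div_nonneg (hR0 e) (hs e).le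
      · exact Finset.sum_nonneg (fun _ _ => sq_nonneg _)
      · exact hmu0 i
    rw [h1]
    refine (Real.le_sqrt_of_sq_le h2).trans (le_of_eq ?_)
    rw [Real.sqrt_mul (hmu0 i)]
    ring
  · intro i l
    have h1 : ∑ e, inner ℝ (u i) (v e) * (inner ℝ (v e) (u l) / (s e * Real.sqrt (mu l)))
        = (∑ e, inner ℝ (v e) (u i) * inner ℝ (v e) (u l) / s e) / Real.sqrt (mu l) := by
      rw [Finset.sum_div]
      apply Finset.sum_congr rfl
      intro e _
      rw [real_inner_comm (v e) (u i)]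
      field_simp
    rw [h1, horth]
    split_ifs with h
    · subst h
      rcases (hmu0 i).eq_or_lt with h | h
      · have h' : Real.sqrt (mu i) = 0 := by rw [← h]; exact Real.sqrt_zero
        rw [h', div_zero]
        exact h'.symm
      · rw [div_eq_iff (Real.sqrt_pos.2 h).ne']
        exact (Real.mul_self_sqrt h.le).symm
    · simp

end P262
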