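import Vale.Agent.P262.Tree
import Vale.Agent.P262.Lewis

/-!
# P262 [F] Induction over the tree and final assembly
-/

namespace P262

theorem ord_prefix_abs {ι : Type*} [DecidableEq ι] {G : Finset ι} {L P : List ι} (hL : L.Nodup)
    (hG : L.toFinset = G) (hP : P <+: L) (f : ι → ℝ) : |(P.map f).sum| ≤ ∑ e ∈ G, |f e| := by
  have hPn : P.Nodup := hL.sublist hP.sublist
  have hsub : P.toFinset ⊆ G := by
    rw [← hG]
    intro x hx
    rw [List.mem_toFinset] at hx ⊢
    exact hP.subset hx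
  rw [← List.sum_toFinset f hPn]
  exact (Finset.abs_sum_le_sum_abs _ _).trans
    (Finset.sum_le_sum_of_subset_of_nonneg hsub fun _ _ _ => abs_nonneg _)

theorem ord_abs_le_one {ι : Type*} {d : ℕ} {v : ι → Fin d → ℝ} {e : ι}
    (hv : ∑ i, v e i ^ 2 ≤ 1) (i : Fin d) : |v e i| ≤ 1 := by
  have h1 : v e i ^ 2 ≤ ∑ j, v e j ^ 2 :=
    Finset.single_le_sum (f := fun j => v e j ^ 2) (fun j _ => sq_nonneg _) (Finset.mem_univ i)
  exact abs_le_one_iff_mul_self_le_one.2 (by nlinarith)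

/-- A node satisfying the invariants can be ordered with all coordinates of all prefixes bounded.
Strong induction on `G.card`; if `G.card ≤ 2 * ell d` any order is fine
(`|a i| ≤ Bmax` or (done) `|a i| ≤ Bstar`, and `|v e i| ≤ 1`), otherwise use `step` and concatenate. -/
theorem order_node {ι : Type*} [DecidableEq ι] {d : ℕ} (hd : 1 ≤ d) {v b : ι → Fin d → ℝ}
    {K : Fin d → ℝ} (hK : ∀ i, 0 ≤ K i) (G : Finset ι) (a c : Fin d → ℝ) (κ : ℝ)
    (hv : ∀ e ∈ G, ∑ i, v e i ^ 2 ≤ 1) (hb : ∀ e ∈ G, ∑ l, b e l ^ 2 ≤ 1)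
    (h : Inv v b K G a c κ) :
    ∃ L : List ι, L.Nodup ∧ L.toFinset = G ∧
      ∀ P, P <+: L → ∀ i, |a i + (P.map (fun e => v e i)).sum| ≤ Bstar d + 2 * ell d := by
  obtain ⟨n, hn⟩ : ∃ n, G.card = n := ⟨_, rfl⟩
  induction n using Nat.strong_induction_on generalizing G a c κ with
  | _ n ih =>
  have hell := ell_ge hd
  have hBm := Bmax_ge hd
  have hBs : Bmax d ≤ Bstar d := by unfold Bstar; linarith
  by_cases hG : 2 * ell d < G.card
  · obtain ⟨G', hG', m, h1, h2, hc1, hc2⟩ := step hd hK hv hb h hG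
    obtain ⟨L1, hn1, ht1, hp1⟩ := ih G'.card (by omega) G' a m (κ/2)
      (fun e he => hv e (hG' he)) (fun e he => hb e (hG' he)) h1 rfl
    obtain ⟨L2, hn2, ht2, hp2⟩ := ih (G \ G').card (by omega) (G \ G') m c (κ/2)
      (fun e he => hv e (Finset.sdiff_subset he)) (fun e he => hb e (Finset.sdiff_subset he)) h2 rfl
    refine ⟨L1 ++ L2, ?_, ?_, ?_⟩
    · refine List.nodup_append'.2 ⟨hn1, hn2, ?_⟩
      intro x hx1 hx2
      have e1 : x ∈ G' := by rw [← ht1]; exact List.mem_toFinset.2 hx1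
      have e2 : x ∈ G \ G' := by rw [← ht2]; exact List.mem_toFinset.2 hx2
      exact (Finset.mem_sdiff.1 e2).2 e1
    · rw [List.toFinset_append, ht1, ht2]
      exact Finset.union_sdiff_of_subset hG'
    · intro P hP i
      have hP' := List.prefix_iff_eq_take.1 hP
      by_cases hlen : P.length ≤ L1.length
      · have : P <+: L1 := List.prefix_of_prefix_length_le hP (List.prefix_append _ _) hlen
        exact hp1 P this i
      · have h3 : L1 <+: P := List.prefix_of_prefix_length_le (List.prefix_append _ _) hP (by omega)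
        obtain ⟨Q, rfl⟩ := h3
        have hQ : Q <+: L2 := (List.prefix_append_right_inj L1).1 hP
        have h4 := hp2 Q hQ i
        rw [h1.hend i, ← ht1, List.sum_toFinset _ hn1] at h4
        rw [List.map_append, List.sum_append, ← add_assoc]
        exact h4
  · have hG : (G.card : ℝ) ≤ 2 * ell d := not_lt.1 hG
    refine ⟨G.toList, G.nodup_toList, G.toList_toFinset, ?_⟩
    intro P hP i
    have hS := ord_prefix_abs G.nodup_toList G.toList_toFinset hP (fun e => v e i)
    have hadd := abs_add_le (a i) (P.map (fun e => v e i)).sum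
    have hcard : ∑ e ∈ G, |v e i| ≤ G.card := by
      have := Finset.sum_le_sum (s := G) (f := fun e => |v e i|) (g := fun _ => (1 : ℝ))
        fun e he => ord_abs_le_one (hv e he) i
      simpa using this
    by_cases hi : κ * K i < 1 / (d : ℝ)
    · have := h.hdone i hi
      linarith
    · have hi := not_lt.1 hi
      by_cases hf : lam d ≤ κ * K i
      · have := (h.hfat i hf).1
        linarith
      · have h5 := (h.hmid i (not_le.1 hf) hi).1
        have h6 := Bf_le hd hK h.κpos i hi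
        linarith

/-- Root of the tree: `κ = 1`, `a = c = 0`. -/
theorem order_root {ι : Type*} [DecidableEq ι] {d : ℕ} (hd : 1 ≤ d) (G : Finset ι)
    {v b : ι → Fin d → ℝ} {K : Fin d → ℝ} (hK : ∀ i, 0 ≤ K i)
    (hv : ∀ e ∈ G, ∑ i, v e i ^ 2 ≤ 1) (hb : ∀ e ∈ G, ∑ l, b e l ^ 2 ≤ 1)
    (hTV : ∀ i, ∑ e ∈ G, |v e i| ≤ Real.sqrt d * K i)
    (hQ : ∀ i l, ∑ e ∈ G, v e i * b e l = if i = l then K i else 0)
    (hsum : ∀ i, ∑ e ∈ G, v e i = 0) :
    ∃ L : List ι, L.Nodup ∧ L.toFinset = G ∧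
      ∀ P, P <+: L → ∀ i, |(P.map (fun e => v e i)).sum| ≤ Bstar d + 2 * ell d := by
  have hd1 : (1 : ℝ) ≤ d := by exact_mod_cast hd
  have hd0 : (0 : ℝ) < d := by linarith
  have hell := ell_ge hd
  have hlam := lam_ge hd
  have hBm := Bmax_ge hd
  have hZ := Zf_nonneg hd hK one_pos
  have hsq1 : Real.sqrt d ≤ d := by
    rw [Real.sqrt_le_left hd0.le]
    nlinarith
  have hinv : Inv v b K G (fun _ => 0) (fun _ => 0) 1 := by
    refine ⟨one_pos, ?_, ?_, ?_, ?_, ?_, ?_⟩
    · intro i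
      rw [hsum i, add_zero]
    · intro i
      have h1 := hTV i
      have h2 : Real.sqrt d * K i ≤ d * K i := mul_le_mul_of_nonneg_right hsq1 (hK i)
      have h3 : 0 ≤ d * K i := mul_nonneg hd0.le (hK i)
      have h4 : 0 ≤ d * K i * Zf K 1 := mul_nonneg h3 hZ
      rw [one_mul]
      nlinarith
    · intro i l
      rw [hQ i l, one_mul, sub_self, abs_zero]
      have h3 : 0 ≤ d * K i * Zf K 1 := mul_nonneg (mul_nonneg hd0.le (hK i)) hZ
      nlinarith
    · intro i _
      rw [abs_zero]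
      constructor <;> linarith
    · intro i h1 h2
      rw [one_mul] at h1 h2
      have hKi : 0 < K i := lt_of_lt_of_le (by positivity) h2
      have := Bf_ge hd hK one_pos i hKi (by rw [one_mul]; linarith)
      rw [abs_zero]
      constructor <;> linarith
    · intro i h1
      rw [one_mul] at h1
      rw [abs_zero, zero_add]
      have h2 := hTV i
      have h3 : Real.sqrt d * K i ≤ d * K i := mul_le_mul_of_nonneg_right hsq1 (hK i)
      have h4 : d * K i ≤ 1 := by
        have := mul_le_mul_of_nonneg_left h1.le hd0.le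
        rwa [mul_one_div_cancel hd0.ne'] at this
      unfold Bstar
      linarith
  obtain ⟨L, h1, h2, h3⟩ := order_node hd hK G _ _ 1 hv hb hinv
  refine ⟨L, h1, h2, fun P hP i => ?_⟩
  have := h3 P hP i
  rwa [zero_add] at this

/-- Reading a duplicate-free complete list as a permutation. -/
theorem ord_list_perm {N : ℕ} (L : List (Fin N)) (hL : L.Nodup) (hf : L.toFinset = Finset.univ) :
    ∃ π : Equiv.Perm (Fin N), ∀ (k : ℕ), (Finset.univ.filter fun i : Fin N => i.val < k).map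
      π.toEmbedding = (L.take k).toFinset := by
  have hlen : L.length = N := by
    have := List.toFinset_card_of_nodup hL
    rw [hf, Finset.card_univ, Fintype.card_fin] at this
    exact this.symm
  have hmem : ∀ x, x ∈ L := fun x => by
    rw [← List.mem_toFinset, hf]; exact Finset.mem_univ x
  refine ⟨(finCongr hlen.symm).trans (hL.getEquivOfForallMemList L hmem), fun k => ?_⟩
  ext x
  simp only [Finset.mem_map, Finset.mem_filter, Finset.mem_univ, true_and, List.mem_toFinset,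
    Equiv.coe_toEmbedding, Equiv.trans_apply, List.mem_take_iff_getElem]
  constructor
  · rintro ⟨i, hi, rfl⟩
    exact ⟨i.val, by rw [hlen]; exact lt_min hi i.2, rfl⟩
  · rintro ⟨i, hi, rfl⟩
    rw [hlen] at hi
    exact ⟨⟨i, (lt_min_iff.1 hi).2⟩, (lt_min_iff.1 hi).1, rfl⟩

/-- The ordering theorem with an absolute constant. -/
theorem steinitz_order : ∃ C : ℝ, 0 < C ∧ ∀ d : ℕ, 1 ≤ d → ∀ (N : ℕ)
    (v : Fin N → EuclideanSpace ℝ (Fin d)), (∀ i, ‖v i‖ ≤ 1) → ∑ i, v i = 0 →
    ∃ π : Equiv.Perm (Fin N), ∀ k : ℕ,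
      ‖∑ i with i.val < k, v (π i)‖ ≤ C * Real.sqrt d * (1 + Real.log d)^2 := by
  obtain ⟨C, hC, hnum⟩ := numeric
  refine ⟨C, hC, fun d hd N v hv hsum => ?_⟩
  obtain ⟨u, K, b, hK, hb, hTV, hQ⟩ := lewis v
  obtain ⟨L, hL, hLu, hpre⟩ := order_root hd (Finset.univ : Finset (Fin N))
    (v := fun e i => inner ℝ (u i) (v e)) (b := b) (K := K) hK
    (fun e _ => by
      have h1 := u.sum_sq_norm_inner_right (v e)
      have h2 : ∑ i, inner ℝ (u i) (v e) ^ 2 = ‖v e‖ ^ 2 := by
        rw [← h1]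
        exact Finset.sum_congr rfl fun i _ => by rw [Real.norm_eq_abs, sq_abs]
      rw [h2]
      have h3 := hv e
      have h4 := norm_nonneg (v e)
      nlinarith)
    (fun e _ => hb e) hTV hQ
    (fun i => by rw [← inner_sum, hsum, inner_zero_right])
  obtain ⟨π, hπ⟩ := ord_list_perm L hL hLu
  refine ⟨π, fun k => ?_⟩
  obtain ⟨S, hS⟩ : ∃ S, S = ∑ i with i.val < k, v (π i) := ⟨_, rfl⟩
  rw [← hS]
  obtain ⟨B, hB⟩ : ∃ B, B = Bstar d + 2 * ell d := ⟨_, rfl⟩
  have hcoord : ∀ i, |inner ℝ (u i) S| ≤ B := by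
    intro i
    have h1 : inner ℝ (u i) S = ((L.take k).map (fun e => inner ℝ (u i) (v e))).sum := by
      rw [hS, inner_sum, ← List.sum_toFinset _ (hL.sublist (List.take_sublist k L)), ← hπ k,
        Finset.sum_map]
      rfl
    rw [h1, hB]
    exact hpre _ (List.take_prefix k L) i
  have hB0 : 0 ≤ B := (abs_nonneg _).trans (hcoord ⟨0, by omega⟩)
  have hnorm : ‖S‖ ^ 2 ≤ (Real.sqrt d * B) ^ 2 := by
    rw [← u.sum_sq_norm_inner_right S, mul_pow, Real.sq_sqrt (Nat.cast_nonneg d)]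
    have h1 : ∀ i ∈ (Finset.univ : Finset (Fin d)), ‖inner ℝ (u i) S‖ ^ 2 ≤ B ^ 2 := fun i _ => by
      rw [Real.norm_eq_abs]
      exact pow_le_pow_left₀ (abs_nonneg _) (hcoord i) 2
    have h2 := Finset.sum_le_sum h1
    simpa using h2
  have h5 : ‖S‖ ≤ Real.sqrt d * B :=
    le_of_sq_le_sq hnorm (mul_nonneg (Real.sqrt_nonneg _) hB0)
  have h6 := mul_le_mul_of_nonneg_left (hnum d hd) (Real.sqrt_nonneg (d : ℝ))
  rw [← hB] at h6
  calc ‖S‖ ≤ Real.sqrt d * B := h5
    _ ≤ Real.sqrt d * (C * (1 + Real.log d)^2) := h6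
    _ = C * Real.sqrt d * (1 + Real.log d)^2 := by ring

/-- `β(v)`: the least possible maximal prefix norm over all orderings of the family `v`. -/
noncomputable def beta {d N : ℕ} (v : Fin N → EuclideanSpace ℝ (Fin d)) : ℝ :=
  ⨅ π : Equiv.Perm (Fin N), ⨆ k : Fin (N + 1), ‖∑ i with i.val < k.val, v (π i)‖

/-- The set of all values `β(v)` for finite zero-sum families in the unit ball of `ℝ^d`. -/
def betaSet (d : ℕ) : Set ℝ :=
  {r | ∃ (N : ℕ) (v : Fin N → EuclideanSpace ℝ (Fin d)),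
    (∀ i, ‖v i‖ ≤ 1) ∧ ∑ i, v i = 0 ∧ r = beta v}

/-- The Euclidean Steinitz constant `S₂(d)`. -/
noncomputable def steinitz (d : ℕ) : ℝ := sSup (betaSet d)

theorem main : ∃ C : ℝ, 0 < C ∧ ∀ d : ℕ, 1 ≤ d →
    BddAbove (betaSet d) ∧ steinitz d ≤ C * Real.sqrt d * (1 + Real.log d)^2 := by
  obtain ⟨C, hC, h⟩ := steinitz_order
  refine ⟨C, hC, fun d hd => ?_⟩
  have hle : ∀ r ∈ betaSet d, r ≤ C * Real.sqrt d * (1 + Real.log d)^2 := by
    rintro r ⟨N, v, hv, hsum, rfl⟩
    obtain ⟨π, hπ⟩ := h d hd N v hv hsum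
    unfold beta
    refine (ciInf_le (Set.finite_range _).bddBelow π).trans ?_
    exact ciSup_le fun k => hπ k.val
  refine ⟨⟨_, hle⟩, ?_⟩
  unfold steinitz
  exact Real.sSup_le hle (by positivity)

end P262
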