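import Vale.Agent.P262.TreeQ
import Vale.Agent.P262.Lewis
import Vale.Agent.P262.Final

/-!
# P262 [FQ] Induction over the tree and final assembly, improved version
-/

namespace P262Q

/-- squared radius -/
noncomputable def RR (d : ℕ) : ℝ := 10^6 * d * (1 + Real.log d)

theorem ordq_sum_sq {ι : Type*} [DecidableEq ι] {d : ℕ} {v : ι → Fin d → ℝ} {G : Finset ι}
    (hv : ∀ e ∈ G, ∑ i, v e i ^ 2 ≤ 1) {L P : List ι} (hL : L.Nodup) (hG : L.toFinset = G)
    (hP : P <+: L) : ∑ i, (P.map (fun e => v e i)).sum ^ 2 ≤ (G.card : ℝ) ^ 2 := by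
  have hPn : P.Nodup := hL.sublist hP.sublist
  have hsub : P.toFinset ⊆ G := by
    rw [← hG]
    intro x hx
    rw [List.mem_toFinset] at hx ⊢
    exact hP.subset hx
  have h1 : ∀ i, (P.map (fun e => v e i)).sum ^ 2 ≤ P.toFinset.card * ∑ e ∈ P.toFinset, v e i ^ 2 := by
    intro i
    rw [← List.sum_toFinset (fun e => v e i) hPn]
    exact sq_sum_le_card_mul_sum_sq
  have h2 : ∑ i, ∑ e ∈ P.toFinset, v e i ^ 2 ≤ P.toFinset.card := by
    rw [Finset.sum_comm]
    have := Finset.sum_le_sum (s := P.toFinset) (f := fun e => ∑ i, v e i ^ 2) (g := fun _ => (1 : ℝ))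
      fun e he => hv e (hsub he)
    simpa using this
  have h3 : (P.toFinset.card : ℝ) ≤ G.card := by exact_mod_cast Finset.card_le_card hsub
  have h4 : (0 : ℝ) ≤ P.toFinset.card := Nat.cast_nonneg _
  calc ∑ i, (P.map (fun e => v e i)).sum ^ 2
      ≤ ∑ i, P.toFinset.card * ∑ e ∈ P.toFinset, v e i ^ 2 := Finset.sum_le_sum fun i _ => h1 i
    _ = P.toFinset.card * ∑ i, ∑ e ∈ P.toFinset, v e i ^ 2 := by rw [Finset.mul_sum]
    _ ≤ P.toFinset.card * P.toFinset.card := mul_le_mul_of_nonneg_left h2 h4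
    _ ≤ (G.card : ℝ) ^ 2 := by nlinarith

theorem ordq_contrib_nonneg {d : ℕ} (K : Fin d → ℝ) (κ : ℝ) (p z : Fin d → ℝ) (i : Fin d) :
    0 ≤ contrib K κ p z i := by
  unfold contrib
  split_ifs <;> positivity

/-- A node satisfying the invariants can be ordered with all prefixes of squared norm `≤ RR d`.
Strong induction on `G.card`.  If `2 ell < G.card` use `step` and concatenate (as in
`P262.order_node`).  If `G.card ≤ 2 ell` take any order: for a prefix `P`, with
`s i = ∑_{e ∈ P} v e i`, `∑ s i ^2 ≤ (2 ell)²` (triangle inequality, `‖v e‖ ≤ 1`):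
fat `i`: `(a i + s i)² ≤ ell²/2 + 2 s i²`; middle `i`: `≤ 2 a i² + 2 s i²`; done `i`:
`|a i + s i - z i| ≤ |a i - z i| + TV_i ≤ 2 tau`, so `(a i + s i)² ≤ 2 z i² + 8 tau²`.  Sum:
`≤ d (ell²/2 + 8 tau²) + 4 BB + 8 ell²`, `BB ≤ 10^4 d (1 + log d)` (`BB_le`), `ell² = 400 (1 + log d)`,
`tau ≤ 2.1 ell`. -/
theorem order_node {ι : Type*} [DecidableEq ι] {d : ℕ} (hd : 1 ≤ d) {v b : ι → Fin d → ℝ}
    {K : Fin d → ℝ} (hK : ∀ i, 0 ≤ K i) (G : Finset ι) (a c z : Fin d → ℝ) (κ : ℝ)
    (hv : ∀ e ∈ G, ∑ i, v e i ^ 2 ≤ 1) (hb : ∀ e ∈ G, ∑ l, b e l ^ 2 ≤ 1)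
    (h : Inv v b K G a c z κ) :
    ∃ L : List ι, L.Nodup ∧ L.toFinset = G ∧
      ∀ P, P <+: L → ∑ i, (a i + (P.map (fun e => v e i)).sum) ^ 2 ≤ RR d := by
  obtain ⟨n, hn⟩ : ∃ n, G.card = n := ⟨_, rfl⟩
  induction n using Nat.strong_induction_on generalizing G a c z κ with
  | _ n ih =>
  have hell := ell_ge hd
  by_cases hG : 2 * ell d < G.card
  · obtain ⟨G', hG', m, z', z'', h1, h2, hc1, hc2⟩ := step hd hK hv hb h hG
    obtain ⟨L1, hn1, ht1, hp1⟩ := ih G'.card (by omega) G' a m z' (κ/2)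
      (fun e he => hv e (hG' he)) (fun e he => hb e (hG' he)) h1 rfl
    obtain ⟨L2, hn2, ht2, hp2⟩ := ih (G \ G').card (by omega) (G \ G') m c z'' (κ/2)
      (fun e he => hv e (Finset.sdiff_subset he)) (fun e he => hb e (Finset.sdiff_subset he)) h2 rfl
    refine ⟨L1 ++ L2, ?_, ?_, ?_⟩
    · refine List.nodup_append'.2 ⟨hn1, hn2, ?_⟩
      intro x hx1 hx2
      have e1 : x ∈ G' := by rw [← ht1]; exact List.mem_toFinset.2 hx1
      have e2 : x ∈ G \ G' := by rw [← ht2]; exact List.mem_toFinset.2 hx2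
      exact (Finset.mem_sdiff.1 e2).2 e1
    · rw [List.toFinset_append, ht1, ht2]
      exact Finset.union_sdiff_of_subset hG'
    · intro P hP
      by_cases hlen : P.length ≤ L1.length
      · have : P <+: L1 := List.prefix_of_prefix_length_le hP (List.prefix_append _ _) hlen
        exact hp1 P this
      · have h3 : L1 <+: P := List.prefix_of_prefix_length_le (List.prefix_append _ _) hP (by omega)
        obtain ⟨Q, rfl⟩ := h3
        have hQ : Q <+: L2 := (List.prefix_append_right_inj L1).1 hP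
        have h4 := hp2 Q hQ
        have h5 : ∀ i, a i + ((L1 ++ Q).map (fun e => v e i)).sum =
            m i + (Q.map (fun e => v e i)).sum := by
          intro i
          rw [h1.hend i, ← ht1, List.sum_toFinset _ hn1, List.map_append, List.sum_append, add_assoc]
        simp only [h5]
        exact h4
  · have hG : (G.card : ℝ) ≤ 2 * ell d := not_lt.1 hG
    refine ⟨G.toList, G.nodup_toList, G.toList_toFinset, ?_⟩
    intro P hP
    have hG0 : (0 : ℝ) ≤ G.card := Nat.cast_nonneg _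
    have hS := ordq_sum_sq hv G.nodup_toList G.toList_toFinset hP
    have hcoord : ∀ i, (a i + (P.map (fun e => v e i)).sum) ^ 2 ≤
        4 * contrib K κ a z i + 2 * (P.map (fun e => v e i)).sum ^ 2 +
          (ell d ^ 2 / 2 + 8 * tau d ^ 2) := by
      intro i
      obtain ⟨s, hs⟩ : ∃ s, s = (P.map (fun e => v e i)).sum := ⟨_, rfl⟩
      have hsG : |s| ≤ ∑ e ∈ G, |v e i| := by
        rw [hs]
        exact P262.ord_prefix_abs G.nodup_toList G.toList_toFinset hP (fun e => v e i)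
      rw [← hs]
      unfold contrib
      split_ifs with c1 c2
      · have h1 := (h.hfat i c1).1
        have h2 : a i ^ 2 ≤ (ell d / 2) ^ 2 := sq_le_sq' (by linarith [abs_le.1 h1]) (abs_le.1 h1).2
        nlinarith [sq_nonneg (a i - s), sq_nonneg (tau d)]
      · nlinarith [sq_nonneg (a i - s), sq_nonneg (tau d), sq_nonneg (ell d)]
      · have h1 := h.hdone i (not_le.1 c2)
        have h2 : |a i + s - z i| ≤ 2 * tau d := by
          have : a i + s - z i = (a i - z i) + s := by ring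
          rw [this]
          exact (abs_add_le _ _).trans (by linarith)
        have h3 : (a i + s - z i) ^ 2 ≤ (2 * tau d) ^ 2 :=
          sq_le_sq' (by linarith [(abs_le.1 h2).1]) (abs_le.1 h2).2
        nlinarith [sq_nonneg (a i + s - 2 * z i), sq_nonneg s, sq_nonneg (ell d)]
    have hsum := Finset.sum_le_sum (s := Finset.univ) fun i _ => hcoord i
    rw [Finset.sum_add_distrib, Finset.sum_add_distrib, ← Finset.mul_sum, ← Finset.mul_sum] at hsum
    simp only [Finset.sum_const, Finset.card_univ, Fintype.card_fin, nsmul_eq_mul] at hsum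
    have hpot := h.hpotA
    have hBB := BB_le hd hK h.κpos
    have hsq := ell_sq hd
    have hd1 : (1 : ℝ) ≤ d := by exact_mod_cast hd
    have hlog : 0 ≤ Real.log d := Real.log_nonneg hd1
    obtain ⟨Lg, hLg⟩ : ∃ Lg : ℝ, Lg = 1 + Real.log d := ⟨_, rfl⟩
    have hLg1 : 1 ≤ Lg := by rw [hLg]; linarith
    rw [← hLg] at hsq hBB
    have htau : tau d ^ 2 ≤ 2000 * Lg := by
      unfold tau
      nlinarith
    have hdL : Lg ≤ d * Lg := by nlinarith
    have hG2 : (G.card : ℝ) ^ 2 ≤ 4 * ell d ^ 2 := by nlinarith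
    have h7 : (d : ℝ) * (ell d ^ 2 / 2 + 8 * tau d ^ 2) ≤ d * (20000 * Lg) :=
      mul_le_mul_of_nonneg_left (by nlinarith) (by linarith)
    unfold RR
    rw [← hLg]
    nlinarith

/-- Root of the tree: `κ = 1`, `a = c = z = 0`. -/
theorem order_root {ι : Type*} [DecidableEq ι] {d : ℕ} (hd : 1 ≤ d) (G : Finset ι)
    {v b : ι → Fin d → ℝ} {K : Fin d → ℝ} (hK : ∀ i, 0 ≤ K i)
    (hv : ∀ e ∈ G, ∑ i, v e i ^ 2 ≤ 1) (hb : ∀ e ∈ G, ∑ l, b e l ^ 2 ≤ 1)
    (hTV : ∀ i, ∑ e ∈ G, |v e i| ≤ Real.sqrt d * K i)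
    (hQ : ∀ i l, ∑ e ∈ G, v e i * b e l = if i = l then K i else 0)
    (hsum : ∀ i, ∑ e ∈ G, v e i = 0) :
    ∃ L : List ι, L.Nodup ∧ L.toFinset = G ∧
      ∀ P, P <+: L → ∑ i, ((P.map (fun e => v e i)).sum) ^ 2 ≤ RR d := by
  have hd1 : (1 : ℝ) ≤ d := by exact_mod_cast hd
  have hd0 : (0 : ℝ) < d := by linarith
  have hell := ell_ge hd
  have hlam := lam_ge hd
  have hZ := Zf_nonneg hd hK one_pos
  have hsq1 : Real.sqrt d ≤ d := by
    rw [Real.sqrt_le_left hd0.le]
    nlinarith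
  have hBB : 0 ≤ BB K 1 := by
    unfold BB
    have h1 : 0 ≤ ∑ i, bet K 1 i := Finset.sum_nonneg fun i _ => bet_nonneg hd hK one_pos i
    have h2 : 0 ≤ 2 * 10^5 * (d : ℝ)^8 * ell d * Zf K 1 := by positivity
    linarith
  have hcon : ∑ i, contrib K 1 (fun _ => 0) (fun _ => 0) i ≤ BB K 1 := by
    have : ∀ i, contrib K 1 (fun _ => 0) (fun _ => 0) i = 0 := by
      intro i
      unfold contrib
      split_ifs <;> simp
    simpa [this] using hBB
  have hinv : Inv v b K G (fun _ => 0) (fun _ => 0) (fun _ => 0) 1 := by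
    refine ⟨one_pos, ?_, ?_, ?_, ?_, hcon, hcon, ?_⟩
    · intro i
      rw [hsum i, add_zero]
    · intro i
      have h1 := hTV i
      have h2 : Real.sqrt d * K i ≤ d * K i := mul_le_mul_of_nonneg_right hsq1 (hK i)
      have h3 : 0 ≤ d * K i := mul_nonneg hd0.le (hK i)
      have h4 : 0 ≤ d * K i * Zf K 1 := mul_nonneg h3 hZ
      rw [one_mul]
      nlinarith
    · intro i l
      rw [hQ i l, one_mul, sub_self, abs_zero]
      have h3 : 0 ≤ d * K i * Zf K 1 := mul_nonneg (mul_nonneg hd0.le (hK i)) hZ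
      nlinarith
    · intro i _
      rw [abs_zero]
      constructor <;> linarith
    · intro i h1
      rw [one_mul] at h1
      rw [sub_zero, abs_zero, zero_add]
      have h2 := hTV i
      have h3 : Real.sqrt d * K i ≤ d * K i := mul_le_mul_of_nonneg_right hsq1 (hK i)
      have h4 : d * K i ≤ 1 := by
        have := mul_le_mul_of_nonneg_left h1.le hd0.le
        rwa [mul_one_div_cancel hd0.ne'] at this
      unfold tau
      linarith
  obtain ⟨L, h1, h2, h3⟩ := order_node hd hK G _ _ _ 1 hv hb hinv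
  refine ⟨L, h1, h2, fun P hP => ?_⟩
  have := h3 P hP
  simpa only [zero_add] using this

/-- The ordering theorem: all partial sums have norm at most `1000 √(d (1 + log d))`. -/
theorem steinitz_order (d : ℕ) (hd : 1 ≤ d) (N : ℕ)
    (v : Fin N → EuclideanSpace ℝ (Fin d)) (hv : ∀ i, ‖v i‖ ≤ 1) (hsum : ∑ i, v i = 0) :
    ∃ π : Equiv.Perm (Fin N), ∀ k : ℕ,
      ‖∑ i with i.val < k, v (π i)‖ ≤ 1000 * Real.sqrt (d * (1 + Real.log d)) := by
  obtain ⟨u, K, b, hK, hb, hTV, hQ⟩ := P262.lewis v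
  obtain ⟨L, hL, hLu, hpre⟩ := order_root hd (Finset.univ : Finset (Fin N))
    (v := fun e i => inner ℝ (u i) (v e)) (b := b) (K := K) hK
    (fun e _ => by
      have h1 := u.sum_sq_norm_inner_right (v e)
      have h2 : ∑ i, inner ℝ (u i) (v e) ^ 2 = ‖v e‖ ^ 2 := by
        rw [← h1]
        exact Finset.sum_congr rfl fun i _ => by rw [Real.norm_eq_abs, sq_abs]
      rw [h2]
      have h3 := hv e
      have h4 := norm_nonneg (v e)
      nlinarith)
    (fun e _ => hb e) hTV hQ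
    (fun i => by rw [← inner_sum, hsum, inner_zero_right])
  obtain ⟨π, hπ⟩ := P262.ord_list_perm L hL hLu
  refine ⟨π, fun k => ?_⟩
  obtain ⟨S, hS⟩ : ∃ S, S = ∑ i with i.val < k, v (π i) := ⟨_, rfl⟩
  rw [← hS]
  have hcoord : ∀ i, inner ℝ (u i) S = ((L.take k).map (fun e => inner ℝ (u i) (v e))).sum := by
    intro i
    rw [hS, inner_sum, ← List.sum_toFinset _ (hL.sublist (List.take_sublist k L)), ← hπ k,
      Finset.sum_map]
    rfl
  have hd1 : (1 : ℝ) ≤ d := by exact_mod_cast hd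
  have hlog : 0 ≤ Real.log d := Real.log_nonneg hd1
  have hnorm : ‖S‖ ^ 2 ≤ (1000 * Real.sqrt (d * (1 + Real.log d))) ^ 2 := by
    rw [← u.sum_sq_norm_inner_right S, mul_pow, Real.sq_sqrt (by positivity)]
    have h1 : ∀ i, ‖inner ℝ (u i) S‖ ^ 2 =
        ((L.take k).map (fun e => inner ℝ (u i) (v e))).sum ^ 2 := fun i => by
      rw [Real.norm_eq_abs, sq_abs, hcoord i]
    simp only [h1]
    refine (hpre _ (List.take_prefix k L)).trans (le_of_eq ?_)
    unfold RR
    ring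
  exact le_of_sq_le_sq hnorm (by positivity)

end P262Q
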