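import Mathlib

/-!
# P262 [S] Solving a row-diagonally dominant system

`Q i l` on `S × S` with `|Q i l - (if i = l then D i else 0)| ≤ q i`, `2 * d * q i ≤ D i`, `D i > 0`, `|S| ≤ d`
(here `S ⊆ Fin d`). Then for every `w` with `|w i| ≤ W` there is `c`, zero off `S`, with
`∑ l ∈ S, Q i l * c l = w i` on `S` and `|c l| ≤ ∑ i ∈ S, 2 W / D i`.
Proof: invertible by `Matrix.det_ne_zero_of_sum_row_lt_diag` for the matrix on the subtype `S`
(`|Q i i| ≥ D i - q i > (d-1) q i ≥ ∑_{l≠i} |Q i l|`; careful if `q i = 0`: `D i > 0`).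
Bound: let `i` maximise `|c i|` on `S`: `(D i - q i)|c i| ≤ W + (d-1) q i |c i|`, so `(D i/2)|c i| ≤ W`.
-/

namespace P262

theorem solve_dom {d : ℕ} (S : Finset (Fin d)) (Q : Fin d → Fin d → ℝ) (D q w : Fin d → ℝ) (W : ℝ)
    (hD : ∀ i ∈ S, 0 < D i) (hq : ∀ i ∈ S, 2 * d * q i ≤ D i)
    (hQ : ∀ i ∈ S, ∀ l ∈ S, |Q i l - (if i = l then D i else 0)| ≤ q i)
    (hw : ∀ i ∈ S, |w i| ≤ W) (hW : 0 ≤ W) :
    ∃ c : Fin d → ℝ, (∀ l, l ∉ S → c l = 0) ∧ (∀ i ∈ S, ∑ l ∈ S, Q i l * c l = w i) ∧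
      ∀ l, |c l| ≤ ∑ i ∈ S, 2 * W / D i := by
  classical
  have hcard : (S.card : ℝ) ≤ d := by
    have := Finset.card_le_univ S
    rw [Fintype.card_fin] at this
    exact_mod_cast this
  have hq0 : ∀ i ∈ S, 0 ≤ q i := fun i hi => (abs_nonneg _).trans (hQ i hi i hi)
  have hSq : ∀ i ∈ S, S.card * q i ≤ D i / 2 := by
    intro i hi
    have h1 := mul_le_mul_of_nonneg_right hcard (hq0 i hi)
    have h2 := hq i hi
    linarith
  let M : Matrix {i // i ∈ S} {i // i ∈ S} ℝ := fun i l => Q i l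
  have hdet : M.det ≠ 0 := by
    apply det_ne_zero_of_sum_row_lt_diag
    intro k
    have h1 : ∀ j ∈ Finset.univ.erase k, ‖M k j‖ ≤ q k := by
      intro j hj
      have h2 := hQ k k.2 j j.2
      have h3 : (k : Fin d) ≠ j := fun h => (Finset.ne_of_mem_erase hj) (Subtype.ext h.symm)
      rw [if_neg h3, sub_zero] at h2
      exact h2
    have h4 := Finset.sum_le_card_nsmul _ _ _ h1
    rw [Finset.card_erase_of_mem (Finset.mem_univ k), Finset.card_univ, Fintype.card_coe,
      nsmul_eq_mul] at h4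
    have hpos : 1 ≤ S.card := Finset.card_pos.mpr ⟨k, k.2⟩
    rw [Nat.cast_sub hpos, Nat.cast_one] at h4
    have h5 := hQ k k.2 k k.2
    rw [if_pos rfl] at h5
    have h6 : D k - q k ≤ ‖M k k‖ := by
      have h7 := (abs_le.mp h5).1
      have h8 : Q k k ≤ ‖M k k‖ := le_abs_self _
      linarith
    have h9 := hSq k k.2
    have h10 := hD k k.2
    linarith
  let w' : {i // i ∈ S} → ℝ := fun i => w i
  let c' : {i // i ∈ S} → ℝ := M⁻¹.mulVec w'
  have hM : M.mulVec c' = w' := by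
    simp only [c']
    rw [Matrix.mulVec_mulVec, Matrix.mul_nonsing_inv M (isUnit_iff_ne_zero.mpr hdet),
      Matrix.one_mulVec]
  let c : Fin d → ℝ := fun l => if h : l ∈ S then c' ⟨l, h⟩ else 0
  have hc : ∀ l : {i // i ∈ S}, c l = c' l := by
    intro l
    simp only [c]
    rw [dif_pos l.2]
  have heq : ∀ i ∈ S, ∑ l ∈ S, Q i l * c l = w i := by
    intro i hi
    have h1 := congrFun hM ⟨i, hi⟩
    rw [← Finset.sum_coe_sort S]
    simp_rw [hc]
    exact h1
  refine ⟨c, fun l hl => dif_neg hl, heq, ?_⟩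
  intro l
  have hsum0 : 0 ≤ ∑ i ∈ S, 2 * W / D i :=
    Finset.sum_nonneg fun i hi => div_nonneg (by linarith) (hD i hi).le
  by_cases hl : l ∈ S
  · obtain ⟨i, hi, hmax⟩ := Finset.exists_max_image S (fun i => |c i|) ⟨l, hl⟩
    refine (hmax l hl).trans ?_
    have hDi := hD i hi
    have h1 : D i * c i = w i - ∑ l ∈ S, (Q i l - (if i = l then D i else 0)) * c l := by
      rw [← heq i hi, ← Finset.sum_sub_distrib]
      have h2 : ∀ l ∈ S, Q i l * c l - (Q i l - (if i = l then D i else 0)) * c l =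
          if i = l then D i * c l else 0 := by
        intro l _
        split_ifs <;> ring
      rw [Finset.sum_congr rfl h2, Finset.sum_ite_eq, if_pos hi]
    have h3 : |∑ l ∈ S, (Q i l - (if i = l then D i else 0)) * c l| ≤ S.card * (q i * |c i|) := by
      refine (Finset.abs_sum_le_sum_abs _ _).trans ?_
      rw [← nsmul_eq_mul]
      refine Finset.sum_le_card_nsmul _ _ _ fun l hl => ?_
      rw [abs_mul]
      exact mul_le_mul (hQ i hi l hl) (hmax l hl) (abs_nonneg _) (hq0 i hi)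
    have h4 : D i * |c i| ≤ W + S.card * (q i * |c i|) := by
      have h5 : D i * |c i| = |D i * c i| := by rw [abs_mul, abs_of_pos hDi]
      rw [h5, h1]
      refine (abs_sub _ _).trans ?_
      exact add_le_add (hw i hi) h3
    have h6 : S.card * (q i * |c i|) ≤ D i / 2 * |c i| := by
      rw [← mul_assoc]
      exact mul_le_mul_of_nonneg_right (hSq i hi) (abs_nonneg _)
    have h7 : |c i| ≤ 2 * W / D i := by
      rw [le_div_iff₀ hDi]
      linarith
    refine h7.trans ?_
    exact Finset.single_le_sum (f := fun i => 2 * W / D i)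
      (fun i hi => div_nonneg (by linarith) (hD i hi).le) hi
  · have : c l = 0 := dif_neg hl
    rw [this, abs_zero]
    exact hsum0

end P262
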