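import Mathlib

/-!
# P262 [Z] Parameters

`ell d = 20 log (2.1 (d+1)²)`, `lam d = 40 d⁵ ell²`.
`Zf K κ = 2 d ell * ∑ l, min (1/(κ K l)) (2/lam)`, `zeta K κ = 2 d ell * ∑_{l : lam ≤ κ K l} 1/(κ K l)`.
`Zf_half`: termwise. If `lam ≤ κ K l`: `1/(κ K l) ≤ 1/lam`, so the min at `κ` is `1/(κ K l)`, the min at `κ/2` is
`2/(κ K l)`; the increment is exactly `1/(κ K l)`. Otherwise the increment is `≥ 0`
(`K l = 0`: all terms are `0`, since `1/0 = 0`).
-/

namespace P262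

noncomputable def ell (d : ℕ) : ℝ := 20 * Real.log (2.1 * ((d : ℝ) + 1)^2)
noncomputable def lam (d : ℕ) : ℝ := 40 * (d : ℝ)^5 * ell d ^2
noncomputable def Zf {d : ℕ} (K : Fin d → ℝ) (κ : ℝ) : ℝ :=
  2 * d * ell d * ∑ l, min (1 / (κ * K l)) (2 / lam d)
noncomputable def zeta {d : ℕ} (K : Fin d → ℝ) (κ : ℝ) : ℝ :=
  2 * d * ell d * ∑ l with lam d ≤ κ * K l, 1 / (κ * K l)

/-- Bound for the middle scales: `B(κ,i) = ell/2 + (ell/2) log₂ (2 lam/(κ K i)) + (q⋆/2) Z(κ)`. -/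
noncomputable def Bf {d : ℕ} (K : Fin d → ℝ) (κ : ℝ) (i : Fin d) : ℝ :=
  ell d / 2 + ell d / 2 * Real.logb 2 (2 * lam d / (κ * K i)) +
    5 * (d : ℝ)^3 * ell d * Zf K κ

noncomputable def Bmax (d : ℕ) : ℝ := ell d / 2 + ell d / 2 * Real.logb 2 (2 * lam d * d) + 1
noncomputable def Bstar (d : ℕ) : ℝ := Bmax d + 2 + 3 * ell d

theorem ell_ge {d : ℕ} (hd : 1 ≤ d) : 20 ≤ ell d := by
  unfold ell
  have h1 : (1 : ℝ) ≤ d := by exact_mod_cast hd
  have h2 : Real.exp 1 ≤ 2.1 * ((d : ℝ) + 1)^2 := by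
    have := Real.exp_one_lt_d9
    nlinarith
  have h3 : 1 ≤ Real.log (2.1 * ((d : ℝ) + 1)^2) :=
    (Real.le_log_iff_exp_le (by positivity)).2 h2
  linarith

theorem lam_ge {d : ℕ} (hd : 1 ≤ d) : 16000 ≤ lam d := by
  unfold lam
  have h1 : (1 : ℝ) ≤ d := by exact_mod_cast hd
  have h2 : (1 : ℝ) ≤ (d : ℝ)^5 := one_le_pow₀ h1
  have h3 := ell_ge hd
  have h4 : (400 : ℝ) ≤ ell d ^2 := by nlinarith
  nlinarith

private theorem lam_pos' {d : ℕ} (hd : 1 ≤ d) : 0 < lam d := by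
  have := lam_ge hd
  linarith

private theorem ell_pos' {d : ℕ} (hd : 1 ≤ d) : 0 < ell d := by
  have := ell_ge hd
  linarith

theorem Zf_nonneg {d : ℕ} (hd : 1 ≤ d) {K : Fin d → ℝ} (hK : ∀ i, 0 ≤ K i) {κ : ℝ} (hκ : 0 < κ) :
    0 ≤ Zf K κ := by
  unfold Zf
  have := ell_pos' hd
  have := lam_pos' hd
  refine mul_nonneg (by positivity) (Finset.sum_nonneg fun l _ => le_min ?_ (by positivity))
  exact div_nonneg zero_le_one (mul_nonneg hκ.le (hK l))

theorem zeta_nonneg {d : ℕ} (hd : 1 ≤ d) {K : Fin d → ℝ} (hK : ∀ i, 0 ≤ K i) {κ : ℝ} (hκ : 0 < κ) :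
    0 ≤ zeta K κ := by
  unfold zeta
  have := ell_pos' hd
  refine mul_nonneg (by positivity) (Finset.sum_nonneg fun l _ => ?_)
  exact div_nonneg zero_le_one (mul_nonneg hκ.le (hK l))

theorem Zf_half {d : ℕ} (hd : 1 ≤ d) {K : Fin d → ℝ} (hK : ∀ i, 0 ≤ K i) {κ : ℝ} (hκ : 0 < κ) :
    Zf K κ + zeta K κ ≤ Zf K (κ/2) := by
  unfold Zf zeta
  have h1 := ell_pos' hd
  have h2 := lam_pos' hd
  rw [← mul_add, Finset.sum_filter, ← Finset.sum_add_distrib]
  refine mul_le_mul_of_nonneg_left (Finset.sum_le_sum fun l _ => ?_) (by positivity)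
  have h0 : 0 ≤ κ * K l := mul_nonneg hκ.le (hK l)
  have h3 : 1 / (κ / 2 * K l) = 2 * (1 / (κ * K l)) := by
    rw [show κ / 2 * K l = κ * K l / 2 by ring, one_div_div]
    ring
  have h4 : 0 ≤ 1 / (κ * K l) := div_nonneg zero_le_one h0
  rw [h3]
  split_ifs with h
  · have h5 : 1 / (κ * K l) ≤ 1 / lam d := one_div_le_one_div_of_le h2 h
    refine le_min ?_ ?_
    · have := min_le_left (1 / (κ * K l)) (2 / lam d)
      linarith
    · have := min_le_left (1 / (κ * K l)) (2 / lam d)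
      have h6 : 2 / lam d = 1 / lam d + 1 / lam d := by ring
      linarith
  · rw [add_zero]
    exact le_min ((min_le_left _ _).trans (by linarith)) (min_le_right _ _)

theorem Zf_le {d : ℕ} (hd : 1 ≤ d) {K : Fin d → ℝ} (hK : ∀ i, 0 ≤ K i) {κ : ℝ} (hκ : 0 < κ) :
    Zf K κ ≤ 1 / (10 * (d:ℝ)^3 * ell d) := by
  unfold Zf
  have h0 : (0 : ℝ) < d := by exact_mod_cast hd
  have h1 := ell_pos' hd
  have h2 := lam_pos' hd
  have h3 : ∑ l, min (1 / (κ * K l)) (2 / lam d) ≤ d * (2 / lam d) := by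
    have := Finset.sum_le_sum (s := Finset.univ) (f := fun l => min (1 / (κ * K l)) (2 / lam d))
      (g := fun _ => 2 / lam d) fun l _ => min_le_right _ _
    simpa using this
  calc 2 * d * ell d * ∑ l, min (1 / (κ * K l)) (2 / lam d)
      ≤ 2 * d * ell d * (d * (2 / lam d)) := mul_le_mul_of_nonneg_left h3 (by positivity)
    _ = 1 / (10 * (d:ℝ)^3 * ell d) := by
      unfold lam
      field_simp
      ring

theorem zeta_le {d : ℕ} (hd : 1 ≤ d) {K : Fin d → ℝ} (hK : ∀ i, 0 ≤ K i) {κ : ℝ} (hκ : 0 < κ) :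
    zeta K κ ≤ 1 / 400 := by
  unfold zeta
  have h00 : (1 : ℝ) ≤ d := by exact_mod_cast hd
  have h0 : (0 : ℝ) < d := by exact_mod_cast hd
  have h1 := ell_pos' hd
  have h2 := lam_pos' hd
  have h3 : ∑ l with lam d ≤ κ * K l, 1 / (κ * K l) ≤ d * (1 / lam d) := by
    rw [Finset.sum_filter]
    have := Finset.sum_le_sum (s := Finset.univ)
      (f := fun l => if lam d ≤ κ * K l then 1 / (κ * K l) else 0)
      (g := fun _ => 1 / lam d) fun l _ => by
        split_ifs with h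
        · exact one_div_le_one_div_of_le h2 h
        · positivity
    simpa using this
  calc 2 * d * ell d * ∑ l with lam d ≤ κ * K l, 1 / (κ * K l)
      ≤ 2 * d * ell d * (d * (1 / lam d)) := mul_le_mul_of_nonneg_left h3 (by positivity)
    _ = 1 / (20 * (d:ℝ)^3 * ell d) := by
      unfold lam
      field_simp
      ring
    _ ≤ 1 / 400 := by
      apply one_div_le_one_div_of_le (by norm_num)
      have h4 : (1 : ℝ) ≤ (d : ℝ)^3 := one_le_pow₀ h00
      have h5 := ell_ge hd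
      nlinarith

/-- One more level: `Bf` grows by `ell/2 + 5 d³ ell zeta`. -/
theorem Bf_half {d : ℕ} (hd : 1 ≤ d) {K : Fin d → ℝ} (hK : ∀ i, 0 ≤ K i) {κ : ℝ} (hκ : 0 < κ)
    (i : Fin d) (hi : 0 < K i) :
    Bf K κ i + ell d / 2 + 5 * (d : ℝ)^3 * ell d * zeta K κ ≤ Bf K (κ/2) i := by
  unfold Bf
  have h1 := ell_pos' hd
  have h2 := lam_pos' hd
  have h0 : 0 < κ * K i := mul_pos hκ hi
  have h3 : Real.logb 2 (2 * lam d / (κ / 2 * K i)) = 1 + Real.logb 2 (2 * lam d / (κ * K i)) := by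
    have e : 2 * lam d / (κ / 2 * K i) = 2 * (2 * lam d / (κ * K i)) := by
      field_simp
    rw [e, Real.logb_mul (by norm_num) (by positivity), Real.logb_self_eq_one (by norm_num)]
  have h4 := mul_le_mul_of_nonneg_left (Zf_half hd hK hκ)
    (by positivity : 0 ≤ 5 * (d : ℝ)^3 * ell d)
  rw [h3]
  linarith

/-- `Bf ≥ ell/2` as soon as `κ K i ≤ 2 lam`. -/
theorem Bf_ge {d : ℕ} (hd : 1 ≤ d) {K : Fin d → ℝ} (hK : ∀ i, 0 ≤ K i) {κ : ℝ} (hκ : 0 < κ)
    (i : Fin d) (hi : 0 < K i) (h : κ * K i ≤ 2 * lam d) : ell d / 2 ≤ Bf K κ i := by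
  unfold Bf
  have h1 := ell_pos' hd
  have h2 := lam_pos' hd
  have h0 : 0 < κ * K i := mul_pos hκ hi
  have h3 : 0 ≤ Real.logb 2 (2 * lam d / (κ * K i)) :=
    Real.logb_nonneg (by norm_num) ((one_le_div h0).2 h)
  have h4 : 0 ≤ ell d / 2 * Real.logb 2 (2 * lam d / (κ * K i)) := by positivity
  have h5 := mul_nonneg (by positivity : 0 ≤ 5 * (d : ℝ)^3 * ell d) (Zf_nonneg hd hK hκ)
  linarith

/-- `Bf ≤ Bmax` as long as `1/d ≤ κ K i`. -/
theorem Bf_le {d : ℕ} (hd : 1 ≤ d) {K : Fin d → ℝ} (hK : ∀ i, 0 ≤ K i) {κ : ℝ} (hκ : 0 < κ)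
    (i : Fin d) (h : 1 / (d : ℝ) ≤ κ * K i) : Bf K κ i ≤ Bmax d := by
  unfold Bf Bmax
  have hd0 : (0 : ℝ) < d := by exact_mod_cast hd
  have h1 := ell_pos' hd
  have h2 := lam_pos' hd
  have h0 : 0 < κ * K i := lt_of_lt_of_le (by positivity) h
  have h3 : Real.logb 2 (2 * lam d / (κ * K i)) ≤ Real.logb 2 (2 * lam d * d) := by
    apply Real.logb_le_logb_of_le (by norm_num) (by positivity)
    rw [div_le_iff₀ h0]
    have h4 : 1 ≤ d * (κ * K i) := by
      rw [div_le_iff₀ hd0] at h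
      linarith
    nlinarith
  have h4 : ell d / 2 * Real.logb 2 (2 * lam d / (κ * K i)) ≤
      ell d / 2 * Real.logb 2 (2 * lam d * d) := mul_le_mul_of_nonneg_left h3 (by positivity)
  have h5 := mul_le_mul_of_nonneg_left (Zf_le hd hK hκ)
    (by positivity : 0 ≤ 5 * (d : ℝ)^3 * ell d)
  have h6 : 5 * (d : ℝ)^3 * ell d * (1 / (10 * (d:ℝ)^3 * ell d)) = 1 / 2 := by
    field_simp
    norm_num
  linarith

theorem Bmax_ge {d : ℕ} (hd : 1 ≤ d) : ell d / 2 ≤ Bmax d := by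
  unfold Bmax
  have hd0 : (1 : ℝ) ≤ d := by exact_mod_cast hd
  have h1 := ell_pos' hd
  have h2 := lam_ge hd
  have h3 : 0 ≤ Real.logb 2 (2 * lam d * d) := Real.logb_nonneg (by norm_num) (by nlinarith)
  have h4 : 0 ≤ ell d / 2 * Real.logb 2 (2 * lam d * d) := by positivity
  linarith

/-- The final numerical bound. -/
theorem numeric : ∃ C : ℝ, 0 < C ∧ ∀ d : ℕ, 1 ≤ d →
    Bstar d + 2 * ell d ≤ C * (1 + Real.log d)^2 := by
  refine ⟨10000, by norm_num, fun d hd => ?_⟩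
  have hd1 : (1 : ℝ) ≤ d := by exact_mod_cast hd
  have hd0 : (0 : ℝ) < d := by linarith
  obtain ⟨L, hL⟩ : ∃ L : ℝ, L = 1 + Real.log d := ⟨_, rfl⟩
  have hlog : 0 ≤ Real.log d := Real.log_nonneg hd1
  have hL1 : 1 ≤ L := by rw [hL]; linarith
  have h1 := ell_ge hd
  have h1' := ell_pos' hd
  have h2 := lam_pos' hd
  have e2 := Real.log_two_lt_d9
  have e2' := Real.log_two_gt_d9
  have hell : ell d ≤ 62 * L := by
    unfold ell
    rw [Real.log_mul (by norm_num) (by positivity), Real.log_pow]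
    have a1 : Real.log 2.1 ≤ 2.1 - 1 := Real.log_le_sub_one_of_pos (by norm_num)
    have a2 : Real.log ((d : ℝ) + 1) ≤ Real.log (2 * d) :=
      Real.log_le_log (by positivity) (by linarith)
    rw [Real.log_mul (by norm_num) (by positivity)] at a2
    push_cast
    linarith
  have hlogb : Real.logb 2 (2 * lam d * d) ≤ 305 * L := by
    have b1 : 2 * lam d * d = 80 * ((d : ℝ)^6 * ell d ^2) := by unfold lam; ring
    rw [b1, Real.logb, div_le_iff₀ (by linarith), Real.log_mul (by norm_num) (by positivity),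
      Real.log_mul (by positivity) (by positivity), Real.log_pow, Real.log_pow]
    have b2 : Real.log 80 ≤ 80 - 1 := Real.log_le_sub_one_of_pos (by norm_num)
    have b3 : Real.log (ell d) ≤ ell d - 1 := Real.log_le_sub_one_of_pos h1'
    push_cast
    nlinarith
  have h5 : ell d / 2 * Real.logb 2 (2 * lam d * d) ≤ 31 * L * (305 * L) := by
    apply mul_le_mul (by linarith) hlogb _ (by positivity)
    have h2' := lam_ge hd
    exact Real.logb_nonneg (by norm_num) (by nlinarith)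
  unfold Bstar Bmax
  rw [← hL]
  nlinarith

end P262
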