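import Mathlib

/-!
# P262 [ZQ] Parameters of the improved tree (bound `√(d log d)`)

Same as `Params.lean` (namespace `P262`) with other constants; the proofs of the lemmas on `Zf`, `zeta` are
the same.
-/

namespace P262Q

noncomputable def ell (d : ℕ) : ℝ := 20 * Real.sqrt (1 + Real.log d)
noncomputable def lam (d : ℕ) : ℝ := 10^5 * (d : ℝ)^10 * ell d ^2
noncomputable def Zf {d : ℕ} (K : Fin d → ℝ) (κ : ℝ) : ℝ :=
  2 * d * ell d * ∑ l, min (1 / (κ * K l)) (2 / lam d)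
noncomputable def zeta {d : ℕ} (K : Fin d → ℝ) (κ : ℝ) : ℝ :=
  2 * d * ell d * ∑ l with lam d ≤ κ * K l, 1 / (κ * K l)

/-- bound for `TV_i` of a node when `i` becomes done -/
noncomputable def tau (d : ℕ) : ℝ := 2 * ell d + 2

/-- budget of a done coordinate -/
noncomputable def bmax (d : ℕ) : ℝ :=
  ell d ^2 / 4 + 3 * Real.logb 2 (2 * lam d * d) + 3 + tau d ^ 2

/-- budget of coordinate `i` at scale `κ`: `0` while fat, then `ell²/4 + 3 log₂ (2 lam/(κ K i))`,
then `bmax`. -/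
noncomputable def bet {d : ℕ} (K : Fin d → ℝ) (κ : ℝ) (i : Fin d) : ℝ :=
  if lam d ≤ κ * K i then 0 else
    if 1 / (d : ℝ) ≤ κ * K i then ell d ^2 / 4 + 3 * Real.logb 2 (2 * lam d / (κ * K i))
    else bmax d

/-- total budget -/
noncomputable def BB {d : ℕ} (K : Fin d → ℝ) (κ : ℝ) : ℝ :=
  ∑ i, bet K κ i + 2 * 10^5 * (d : ℝ)^8 * ell d * Zf K κ

/-- bound for the quadratic potential used in the rounding -/
noncomputable def UU (d : ℕ) : ℝ := 10^8 * (d : ℝ)^8

theorem ell_ge {d : ℕ} (hd : 1 ≤ d) : 20 ≤ ell d := by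
  unfold ell
  have h1 : (1 : ℝ) ≤ d := by exact_mod_cast hd
  have h2 : 0 ≤ Real.log d := Real.log_nonneg h1
  have h3 : 1 ≤ Real.sqrt (1 + Real.log d) := Real.one_le_sqrt.mpr (by linarith)
  linarith

theorem ell_sq {d : ℕ} (hd : 1 ≤ d) : ell d ^ 2 = 400 * (1 + Real.log d) := by
  unfold ell
  have h1 : (1 : ℝ) ≤ d := by exact_mod_cast hd
  have h2 : 0 ≤ Real.log d := Real.log_nonneg h1
  rw [mul_pow, Real.sq_sqrt (by linarith)]
  ring

theorem lam_ge {d : ℕ} (hd : 1 ≤ d) : 16000 ≤ lam d := by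
  unfold lam
  have h1 : (1 : ℝ) ≤ d := by exact_mod_cast hd
  have h2 : (1 : ℝ) ≤ (d : ℝ)^10 := one_le_pow₀ h1
  have h3 := ell_ge hd
  have h4 : (400 : ℝ) ≤ ell d ^2 := by nlinarith
  nlinarith

private theorem lam_pos' {d : ℕ} (hd : 1 ≤ d) : 0 < lam d := by
  have := lam_ge hd
  linarith

private theorem ell_pos' {d : ℕ} (hd : 1 ≤ d) : 0 < ell d := by
  have := ell_ge hd
  linarith

theorem Zf_nonneg {d : ℕ} (hd : 1 ≤ d) {K : Fin d → ℝ} (hK : ∀ i, 0 ≤ K i) {κ : ℝ} (hκ : 0 < κ) :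
    0 ≤ Zf K κ := by
  unfold Zf
  have := ell_pos' hd
  have := lam_pos' hd
  refine mul_nonneg (by positivity) (Finset.sum_nonneg fun l _ => le_min ?_ (by positivity))
  exact div_nonneg zero_le_one (mul_nonneg hκ.le (hK l))

theorem zeta_nonneg {d : ℕ} (hd : 1 ≤ d) {K : Fin d → ℝ} (hK : ∀ i, 0 ≤ K i) {κ : ℝ} (hκ : 0 < κ) :
    0 ≤ zeta K κ := by
  unfold zeta
  have := ell_pos' hd
  refine mul_nonneg (by positivity) (Finset.sum_nonneg fun l _ => ?_)
  exact div_nonneg zero_le_one (mul_nonneg hκ.le (hK l))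

theorem Zf_half {d : ℕ} (hd : 1 ≤ d) {K : Fin d → ℝ} (hK : ∀ i, 0 ≤ K i) {κ : ℝ} (hκ : 0 < κ) :
    Zf K κ + zeta K κ ≤ Zf K (κ/2) := by
  unfold Zf zeta
  have h1 := ell_pos' hd
  have h2 := lam_pos' hd
  rw [← mul_add, Finset.sum_filter, ← Finset.sum_add_distrib]
  refine mul_le_mul_of_nonneg_left (Finset.sum_le_sum fun l _ => ?_) (by positivity)
  have h0 : 0 ≤ κ * K l := mul_nonneg hκ.le (hK l)
  have h3 : 1 / (κ / 2 * K l) = 2 * (1 / (κ * K l)) := by
    rw [show κ / 2 * K l = κ * K l / 2 by ring, one_div_div]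
    ring
  have h4 : 0 ≤ 1 / (κ * K l) := div_nonneg zero_le_one h0
  rw [h3]
  split_ifs with h
  · have h5 : 1 / (κ * K l) ≤ 1 / lam d := one_div_le_one_div_of_le h2 h
    refine le_min ?_ ?_
    · have := min_le_left (1 / (κ * K l)) (2 / lam d)
      linarith
    · have := min_le_left (1 / (κ * K l)) (2 / lam d)
      have h6 : 2 / lam d = 1 / lam d + 1 / lam d := by ring
      linarith
  · rw [add_zero]
    exact le_min ((min_le_left _ _).trans (by linarith)) (min_le_right _ _)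

/-- `Zf ≤ 4 d² ell / lam` -/
theorem Zf_lam {d : ℕ} (hd : 1 ≤ d) {K : Fin d → ℝ} (hK : ∀ i, 0 ≤ K i) {κ : ℝ} (hκ : 0 < κ) :
    Zf K κ * lam d ≤ 4 * (d:ℝ)^2 * ell d := by
  unfold Zf
  have h0 : (0 : ℝ) < d := by exact_mod_cast hd
  have h1 := ell_pos' hd
  have h2 := lam_pos' hd
  have h3 : ∑ l, min (1 / (κ * K l)) (2 / lam d) ≤ d * (2 / lam d) := by
    have := Finset.sum_le_sum (s := Finset.univ) (f := fun l => min (1 / (κ * K l)) (2 / lam d))
      (g := fun _ => 2 / lam d) fun l _ => min_le_right _ _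
    simpa using this
  calc 2 * d * ell d * (∑ l, min (1 / (κ * K l)) (2 / lam d)) * lam d
      ≤ 2 * d * ell d * (d * (2 / lam d)) * lam d :=
        mul_le_mul_of_nonneg_right (mul_le_mul_of_nonneg_left h3 (by positivity)) h2.le
    _ = 4 * (d:ℝ)^2 * ell d := by
      field_simp
      ring

/-- `Zf ≤ 4 / (10^5 d^8 ell)` -/
theorem Zf_le {d : ℕ} (hd : 1 ≤ d) {K : Fin d → ℝ} (hK : ∀ i, 0 ≤ K i) {κ : ℝ} (hκ : 0 < κ) :
    Zf K κ * (10^5 * (d:ℝ)^8 * ell d) ≤ 4 := by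
  have h0 : (0 : ℝ) < d := by exact_mod_cast hd
  have h1 := ell_pos' hd
  have h2 := Zf_lam hd hK hκ
  have h3 : Zf K κ * lam d = (Zf K κ * (10^5 * (d:ℝ)^8 * ell d)) * ((d:ℝ)^2 * ell d) := by
    unfold lam
    ring
  rw [h3] at h2
  have h4 : (4 : ℝ) * (d:ℝ)^2 * ell d = 4 * ((d:ℝ)^2 * ell d) := by ring
  rw [h4] at h2
  exact le_of_mul_le_mul_right h2 (by positivity)

theorem zeta_le {d : ℕ} (hd : 1 ≤ d) {K : Fin d → ℝ} (hK : ∀ i, 0 ≤ K i) {κ : ℝ} (hκ : 0 < κ) :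
    zeta K κ ≤ 1 / 400 := by
  unfold zeta
  have h00 : (1 : ℝ) ≤ d := by exact_mod_cast hd
  have h0 : (0 : ℝ) < d := by exact_mod_cast hd
  have h1 := ell_pos' hd
  have h2 := lam_pos' hd
  have h3 : ∑ l with lam d ≤ κ * K l, 1 / (κ * K l) ≤ d * (1 / lam d) := by
    rw [Finset.sum_filter]
    have := Finset.sum_le_sum (s := Finset.univ)
      (f := fun l => if lam d ≤ κ * K l then 1 / (κ * K l) else 0)
      (g := fun _ => 1 / lam d) fun l _ => by
        split_ifs with h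
        · exact one_div_le_one_div_of_le h2 h
        · positivity
    simpa using this
  calc 2 * d * ell d * ∑ l with lam d ≤ κ * K l, 1 / (κ * K l)
      ≤ 2 * d * ell d * (d * (1 / lam d)) := mul_le_mul_of_nonneg_left h3 (by positivity)
    _ = 1 / (50000 * (d:ℝ)^8 * ell d) := by
      unfold lam
      field_simp
      ring
    _ ≤ 1 / 400 := by
      apply one_div_le_one_div_of_le (by norm_num)
      have h4 : (1 : ℝ) ≤ (d : ℝ)^8 := one_le_pow₀ h00
      have h5 := ell_ge hd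
      nlinarith

private theorem logb_lam_nonneg {d : ℕ} (hd : 1 ≤ d) : 0 ≤ Real.logb 2 (2 * lam d * d) := by
  have h1 : (1 : ℝ) ≤ d := by exact_mod_cast hd
  have h2 := lam_ge hd
  exact Real.logb_nonneg (by norm_num) (by nlinarith)

private theorem bmax_nonneg {d : ℕ} (hd : 1 ≤ d) : 0 ≤ bmax d := by
  unfold bmax
  have := logb_lam_nonneg hd
  positivity

private theorem logb_le {d : ℕ} (hd : 1 ≤ d) {s : ℝ} (h2 : 1 / (d:ℝ) ≤ s) :
    Real.logb 2 (2 * lam d / s) ≤ Real.logb 2 (2 * lam d * d) := by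
  have hd0 : (0 : ℝ) < d := by exact_mod_cast hd
  have h3 := lam_pos' hd
  have h0 : 0 < s := lt_of_lt_of_le (by positivity) h2
  apply Real.logb_le_logb_of_le (by norm_num) (by positivity)
  rw [div_le_iff₀ h0]
  have h4 : 1 ≤ d * s := by
    rw [div_le_iff₀ hd0] at h2
    linarith
  nlinarith

theorem bet_nonneg {d : ℕ} (hd : 1 ≤ d) {K : Fin d → ℝ} (hK : ∀ i, 0 ≤ K i) {κ : ℝ} (hκ : 0 < κ)
    (i : Fin d) : 0 ≤ bet K κ i := by
  unfold bet
  have hd0 : (0 : ℝ) < d := by exact_mod_cast hd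
  split_ifs with h1 h2
  · exact le_rfl
  · have h0 : 0 < κ * K i := lt_of_lt_of_le (by positivity) h2
    have h3 : 0 ≤ Real.logb 2 (2 * lam d / (κ * K i)) := by
      refine Real.logb_nonneg (by norm_num) ?_
      rw [one_le_div h0]
      push Not at h1
      linarith [lam_pos' hd]
    positivity
  · exact bmax_nonneg hd

/-- budgets only grow -/
theorem bet_mono {d : ℕ} (hd : 1 ≤ d) {K : Fin d → ℝ} (hK : ∀ i, 0 ≤ K i) {κ : ℝ} (hκ : 0 < κ)
    (i : Fin d) : bet K κ i ≤ bet K (κ/2) i := by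
  have hd0 : (0 : ℝ) < d := by exact_mod_cast hd
  by_cases h1 : lam d ≤ κ * K i
  · have h2 : bet K κ i = 0 := by unfold bet; rw [if_pos h1]
    rw [h2]
    exact bet_nonneg hd hK (by linarith) i
  have h1' : ¬ lam d ≤ κ / 2 * K i := by
    intro h
    apply h1
    have : 0 ≤ κ * K i := mul_nonneg hκ.le (hK i)
    have h3 : κ / 2 * K i = κ * K i / 2 := by ring
    rw [h3] at h
    linarith
  have h3 : κ / 2 * K i = κ * K i / 2 := by ring
  by_cases h2 : 1 / (d:ℝ) ≤ κ * K i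
  · have h0 : 0 < κ * K i := lt_of_lt_of_le (by positivity) h2
    by_cases h2' : 1 / (d:ℝ) ≤ κ / 2 * K i
    · unfold bet
      rw [if_neg h1, if_pos h2, if_neg h1', if_pos h2']
      have h4 : Real.logb 2 (2 * lam d / (κ * K i)) ≤ Real.logb 2 (2 * lam d / (κ / 2 * K i)) := by
        have := lam_pos' hd
        apply Real.logb_le_logb_of_le (by norm_num) (by positivity)
        rw [h3]
        exact div_le_div_of_nonneg_left (by positivity) (by positivity) (by linarith)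
      linarith
    · unfold bet
      rw [if_neg h1, if_pos h2, if_neg h1', if_neg h2']
      unfold bmax
      have h4 := logb_le hd h2
      have h5 := sq_nonneg (tau d)
      linarith
  · have h2' : ¬ 1 / (d:ℝ) ≤ κ / 2 * K i := by
      intro h
      apply h2
      have : 0 ≤ κ * K i := mul_nonneg hκ.le (hK i)
      rw [h3] at h
      linarith
    unfold bet
    rw [if_neg h1, if_neg h2, if_neg h1', if_neg h2']

/-- a coordinate entering the middle range gets `ell²/4 + 3` -/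
theorem bet_enter {d : ℕ} (hd : 1 ≤ d) {K : Fin d → ℝ} (hK : ∀ i, 0 ≤ K i) {κ : ℝ} (hκ : 0 < κ)
    (i : Fin d) (h1 : lam d ≤ κ * K i) (h2 : κ / 2 * K i < lam d) :
    bet K κ i = 0 ∧ ell d ^2 / 4 + 3 ≤ bet K (κ/2) i := by
  have hd1 : (1 : ℝ) ≤ d := by exact_mod_cast hd
  have hd0 : (0 : ℝ) < d := by linarith
  have h3 : κ / 2 * K i = κ * K i / 2 := by ring
  have hl := lam_ge hd
  have h4 : 1 / (d:ℝ) ≤ κ / 2 * K i := by
    rw [h3]
    have h5 : 1 / (d:ℝ) ≤ 1 := by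
      rw [div_le_one hd0]
      exact hd1
    linarith
  refine ⟨by unfold bet; rw [if_pos h1], ?_⟩
  unfold bet
  rw [if_neg (not_le.mpr h2), if_pos h4]
  have h0 : 0 < κ / 2 * K i := lt_of_lt_of_le (by positivity) h4
  have h5 : 1 ≤ Real.logb 2 (2 * lam d / (κ / 2 * K i)) := by
    rw [Real.le_logb_iff_rpow_le (by norm_num) (by positivity), Real.rpow_one,
      le_div_iff₀ h0]
    linarith
  linarith

/-- a middle coordinate gets `3` more per level -/
theorem bet_mid {d : ℕ} (hd : 1 ≤ d) {K : Fin d → ℝ} (hK : ∀ i, 0 ≤ K i) {κ : ℝ} (hκ : 0 < κ)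
    (i : Fin d) (h1 : κ * K i < lam d) (h2 : 1 / (d:ℝ) ≤ κ * K i) :
    bet K κ i + 3 ≤ bet K (κ/2) i := by
  have hd0 : (0 : ℝ) < d := by exact_mod_cast hd
  have h0 : 0 < κ * K i := lt_of_lt_of_le (by positivity) h2
  have h3 : κ / 2 * K i = κ * K i / 2 := by ring
  have h1' : ¬ lam d ≤ κ / 2 * K i := by
    rw [h3]
    push Not
    linarith
  by_cases h2' : 1 / (d:ℝ) ≤ κ / 2 * K i
  · unfold bet
    rw [if_neg (not_le.mpr h1), if_pos h2, if_neg h1', if_pos h2']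
    have hl := lam_pos' hd
    have h4 : Real.logb 2 (2 * lam d / (κ / 2 * K i)) =
        1 + Real.logb 2 (2 * lam d / (κ * K i)) := by
      have e : 2 * lam d / (κ / 2 * K i) = 2 * (2 * lam d / (κ * K i)) := by
        rw [h3]
        field_simp
      rw [e, Real.logb_mul (by norm_num) (by positivity), Real.logb_self_eq_one (by norm_num)]
    rw [h4]
    linarith
  · unfold bet
    rw [if_neg (not_le.mpr h1), if_pos h2, if_neg h1', if_neg h2']
    unfold bmax
    have h4 := logb_le hd h2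
    have h5 := sq_nonneg (tau d)
    linarith

/-- a newly done coordinate gets `3 + tau²` more -/
theorem bet_done {d : ℕ} (hd : 1 ≤ d) {K : Fin d → ℝ} (hK : ∀ i, 0 ≤ K i) {κ : ℝ} (hκ : 0 < κ)
    (i : Fin d) (h1 : κ * K i < lam d) (h2 : 1 / (d:ℝ) ≤ κ * K i) (h3 : κ / 2 * K i < 1 / (d:ℝ)) :
    bet K κ i + 3 + tau d ^ 2 ≤ bet K (κ/2) i := by
  have hd0 : (0 : ℝ) < d := by exact_mod_cast hd
  have h0 : 0 < κ * K i := lt_of_lt_of_le (by positivity) h2
  have h1' : ¬ lam d ≤ κ / 2 * K i := by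
    have : κ / 2 * K i = κ * K i / 2 := by ring
    rw [this]
    push Not
    linarith
  unfold bet
  rw [if_neg (not_le.mpr h1), if_pos h2, if_neg h1', if_neg (not_le.mpr h3)]
  unfold bmax
  have h4 := logb_le hd h2
  linarith

private theorem bet_le_bmax {d : ℕ} (hd : 1 ≤ d) (K : Fin d → ℝ) (κ : ℝ) (i : Fin d) :
    bet K κ i ≤ bmax d := by
  unfold bet
  split_ifs with h1 h2
  · exact bmax_nonneg hd
  · unfold bmax
    have h4 := logb_le hd h2
    have h5 := sq_nonneg (tau d)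
    linarith
  · exact le_rfl

private theorem bmax_le {d : ℕ} (hd : 1 ≤ d) : bmax d ≤ 3000 * (1 + Real.log d) := by
  have hd1 : (1 : ℝ) ≤ d := by exact_mod_cast hd
  have hd0 : (0 : ℝ) < d := by linarith
  have hlog : 0 ≤ Real.log d := Real.log_nonneg hd1
  have he := ell_sq hd
  have hg := ell_ge hd
  have hel : ell d ≤ 20 * (1 + Real.log d) := by nlinarith
  have h2 : Real.logb 2 (2 * lam d * d) ≤ 40 * (1 + Real.log d) := by
    have b1 : 2 * lam d * d = 80000000 * ((d : ℝ)^11 * (1 + Real.log d)) := by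
      unfold lam
      rw [he]
      ring
    have e2 := Real.log_two_gt_d9
    have e3 := Real.log_two_lt_d9
    rw [b1, Real.logb, div_le_iff₀ (by linarith), Real.log_mul (by norm_num) (by positivity),
      Real.log_mul (by positivity) (by positivity), Real.log_pow]
    have b2 : Real.log 80000000 ≤ 27 * Real.log 2 := by
      have : (27 : ℝ) * Real.log 2 = Real.log (2 ^ 27) := by
        rw [Real.log_pow]
        norm_num
      rw [this]
      exact Real.log_le_log (by norm_num) (by norm_num)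
    have b3 : Real.log (1 + Real.log d) ≤ (1 + Real.log d) - 1 :=
      Real.log_le_sub_one_of_pos (by linarith)
    push_cast
    nlinarith
  unfold bmax tau
  nlinarith

theorem BB_le {d : ℕ} (hd : 1 ≤ d) {K : Fin d → ℝ} (hK : ∀ i, 0 ≤ K i) {κ : ℝ} (hκ : 0 < κ) :
    BB K κ ≤ 10^4 * d * (1 + Real.log d) := by
  have hd1 : (1 : ℝ) ≤ d := by exact_mod_cast hd
  have hlog : 0 ≤ Real.log d := Real.log_nonneg hd1
  have h1 : ∑ i, bet K κ i ≤ d * bmax d := by
    have := Finset.sum_le_sum (s := Finset.univ) (f := fun i => bet K κ i)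
      (g := fun _ => bmax d) fun i _ => bet_le_bmax hd K κ i
    simpa using this
  have h2 := bmax_le hd
  have h3 := Zf_le hd hK hκ
  have h4 : (d:ℝ) * bmax d ≤ d * (3000 * (1 + Real.log d)) :=
    mul_le_mul_of_nonneg_left h2 (by linarith)
  have h5 : 1 ≤ (d:ℝ) * (1 + Real.log d) := by nlinarith
  unfold BB
  nlinarith

/-- `BB` is far below `UU` -/
theorem BB_le_UU {d : ℕ} (hd : 1 ≤ d) {K : Fin d → ℝ} (hK : ∀ i, 0 ≤ K i) {κ : ℝ} (hκ : 0 < κ) :
    4 * BB K κ + 4 ≤ UU d := by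
  have hd1 : (1 : ℝ) ≤ d := by exact_mod_cast hd
  have h1 := BB_le hd hK hκ
  have h2 : Real.log d ≤ d - 1 := Real.log_le_sub_one_of_pos (by linarith)
  have h3 : (d:ℝ) * (1 + Real.log d) ≤ d * d := mul_le_mul_of_nonneg_left (by linarith) (by linarith)
  have h4 : (d:ℝ) * d ≤ (d:ℝ)^8 := by
    have : (d:ℝ)^2 ≤ (d:ℝ)^8 := pow_le_pow_right₀ hd1 (by norm_num)
    linarith [sq (d:ℝ)]
  have h5 : (1:ℝ) ≤ (d:ℝ)^8 := one_le_pow₀ hd1
  unfold UU
  nlinarith

theorem ell_round {d : ℕ} (hd : 1 ≤ d) :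
    3 * Real.sqrt (Real.log (2 * ((d:ℝ) + 1)^2 * (UU d + 4))) ≤ ell d := by
  have hd1 : (1 : ℝ) ≤ d := by exact_mod_cast hd
  have hd0 : (0 : ℝ) < d := by linarith
  have hlog : 0 ≤ Real.log d := Real.log_nonneg hd1
  have h5 : (1:ℝ) ≤ (d:ℝ)^8 := one_le_pow₀ hd1
  have hU : UU d + 4 ≤ 2 * 10^8 * (d:ℝ)^8 := by unfold UU; nlinarith
  have hU0 : 0 < UU d + 4 := by unfold UU; positivity
  have h1 : 2 * ((d:ℝ) + 1)^2 ≤ 8 * (d:ℝ)^2 := by nlinarith
  have h2 : 2 * ((d:ℝ) + 1)^2 * (UU d + 4) ≤ 2^31 * (d:ℝ)^10 := by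
    calc 2 * ((d:ℝ) + 1)^2 * (UU d + 4) ≤ (8 * (d:ℝ)^2) * (2 * 10^8 * (d:ℝ)^8) :=
          mul_le_mul h1 hU hU0.le (by positivity)
      _ = 1600000000 * (d:ℝ)^10 := by ring
      _ ≤ 2^31 * (d:ℝ)^10 := mul_le_mul_of_nonneg_right (by norm_num) (by positivity)
  have h3 : Real.log (2 * ((d:ℝ) + 1)^2 * (UU d + 4)) ≤ 31 * Real.log 2 + 10 * Real.log d := by
    refine (Real.log_le_log (by positivity) h2).trans (le_of_eq ?_)
    rw [Real.log_mul (by positivity) (by positivity), Real.log_pow, Real.log_pow]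
    norm_num
  have e3 := Real.log_two_lt_d9
  have h4 : 3 * Real.sqrt (Real.log (2 * ((d:ℝ) + 1)^2 * (UU d + 4))) =
      Real.sqrt (9 * Real.log (2 * ((d:ℝ) + 1)^2 * (UU d + 4))) := by
    rw [Real.sqrt_mul (by norm_num), show (9:ℝ) = 3 ^ 2 by norm_num, Real.sqrt_sq (by norm_num)]
  have h6 : ell d = Real.sqrt (400 * (1 + Real.log d)) := by
    unfold ell
    rw [Real.sqrt_mul (by norm_num), show (400:ℝ) = 20 ^ 2 by norm_num, Real.sqrt_sq (by norm_num)]
  rw [h4, h6]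
  refine Real.sqrt_le_sqrt ?_
  linarith

end P262Q
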