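import Vale.Agent.P262.RoundAux

/-!
# P262 [R] Rounding lemma (Gram–Schmidt walk, small test vectors)

For `A : Finset ι` put `N θ A = ‖P_{span (w '' A)} θ‖²` (squared norm of the orthogonal projection).

Proof of `rounding` (strong induction on the finset `A` of alive indices, with a pivot `p ∈ A`).
STATEMENT S(A): for all `p ∈ A`, all `x : ι → ℝ` with `|x i| ≤ 1`, and all weights `ω k ≥ 0` there are
signs `ε i ∈ {1,-1}` with
  `∑ k, ω k * exp ⟪θ k, ∑ i ∈ A, (ε i - x i) • w i⟫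
     ≤ ∑ k, ω k * exp (2 * (x p ^ 2 * N (θ k) (A \ p) + (1 - x p ^ 2) * N (θ k) A))`.
(The right side is `≤ ∑ ω exp (2‖θ‖²)`, since `N ≤ ‖θ‖²`.)
* If some `i ∈ A`, `i ≠ p` has `x i = ±1`: put `ε i = x i`, use S(A \ i) and monotonicity of `N`.
* If `x p = ±1`: put `ε p = x p`; if `A = {p}` done; otherwise pick any new pivot `q ∈ A \ p`,
  S(A \ p) gives the exponent `2 (x_q² N(A\{p,q}) + (1-x_q²) N(A\p)) ≤ 2 N(A\p)`.
* Otherwise all `|x i| < 1` on `A`.  Let `V' = span (w '' (A \ p))`, `b = w p - P_{V'} (w p)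
  = ∑ i ∈ A, u i • w i` with `u p = 1` (the projection is in the span).  Let `δ₊ > 0`, `δ₋ > 0` be maximal with
  `x + δ₊ u`, `x - δ₋ u ∈ [-1,1]^A` (exist since `u p = 1`; `δ₊ + δ₋ ≤ 2`). At both endpoints some
  coordinate `i ∈ A` of `x' = x + δ u` is `±1`; so by the two previous cases (applied to `x'`, with weights
  `ω' k = ω k * exp (δ ⟪θ k, b⟫)`), signs exist with
  `∑ ω exp ⟪θ, ∑ (ε-x) w⟫ ≤ ∑ ω exp (δ ⟪θ,b⟫ + 2 (x'_p² N(A\p) + (1-x'_p²) N(A)))`, `x'_p = x_p + δ`.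
  It remains: the average over `δ = δ₊` (prob. `δ₋/(δ₊+δ₋)`), `δ = -δ₋` (prob. `δ₊/(δ₊+δ₋)`) of the right side is
  `≤ ∑ ω exp (2 (x_p² N(A\p) + (1-x_p²) N(A)))`, so one of the two outcomes is good.
  Termwise (lemma `two_point`): with `a = ⟪θ,b⟫`, `D = N(A) - N(A\p)`: `a² ≤ D ≤ 1/100` (lemma `gs_ineq`) and
  `E exp (δ a - 2 D (2 x_p δ + δ²)) ≤ 1` because with `κ = a - 4 D x_p` one has `κ² ≤ 2 D`, `|κ δ| ≤ 1/2`,
  so `δ a - 2D(2xδ+δ²) ≤ κδ - (κδ)²` and `exp (y - y²) ≤ 1 + y` for `|y| ≤ 1/2`; `E δ = 0`.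
* `gs_ineq`: `⟪θ,b⟫ = ⟪P_V θ - P_{V'} θ, b⟫` (as `b ∈ V`, `b ⟂ V'`), `‖b‖ ≤ 1`,
  `‖P_V θ - P_{V'} θ‖² = ‖P_V θ‖² - ‖P_{V'} θ‖²`.
-/

namespace P262

/-- `exp (y - y²) ≤ 1 + y` for `|y| ≤ 1/2`. -/
theorem exp_sub_sq_le {y : ℝ} (hy : |y| ≤ 1/2) : Real.exp (y - y^2) ≤ 1 + y := by
  have h1 : |-y| < 1 := by rw [abs_neg]; linarith
  have h2 := Real.abs_log_sub_add_sum_range_le h1 4
  rw [abs_neg, sub_neg_eq_add] at h2
  have h3 : (∑ i ∈ Finset.range 4, (-y) ^ (i + 1) / ((i : ℝ) + 1)) =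
      -y + y^2/2 - y^3/3 + y^4/4 := by
    simp only [Finset.sum_range_succ, Finset.sum_range_zero]
    push_cast
    ring
  rw [h3] at h2
  have h4 := (abs_le.mp h2).1
  have hb := abs_nonneg y
  have h5 : |y| ^ (4 + 1) / (1 - |y|) ≤ 2 * |y| ^ 5 := by
    rw [div_le_iff₀ (by linarith)]
    have h6 : 0 ≤ |y| ^ 5 := by positivity
    have h7 := mul_le_mul_of_nonneg_left hy h6
    have h8 : |y| ^ (4 + 1) = |y| ^ 5 := rfl
    rw [h8]
    linarith
  have hy2 : |y| ^ 2 = y ^ 2 := sq_abs y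
  have hy3 : -|y| ^ 3 ≤ y ^ 3 := by
    have := neg_abs_le (y ^ 3)
    rwa [abs_pow] at this
  have hy4 : |y| ^ 4 = y ^ 4 := by
    rw [show (4 : ℕ) = 2 * 2 from rfl, pow_mul, pow_mul, sq_abs]
  have h6 : |y| ^ 3 / 3 + |y| ^ 4 / 4 + 2 * |y| ^ 5 ≤ |y| ^ 2 / 2 := by
    have h7 : |y| ^ 2 / 2 - (|y| ^ 3 / 3 + |y| ^ 4 / 4 + 2 * |y| ^ 5) =
        |y| ^ 2 * (1/2 - (|y| / 3 + |y| ^ 2 / 4 + 2 * |y| ^ 3)) := by ring
    have h8 : |y| ^ 2 ≤ (1/2) ^ 2 := pow_le_pow_left₀ hb hy 2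
    have h9 : |y| ^ 3 ≤ (1/2) ^ 3 := pow_le_pow_left₀ hb hy 3
    have h10 : 0 ≤ |y| ^ 2 * (1/2 - (|y| / 3 + |y| ^ 2 / 4 + 2 * |y| ^ 3)) :=
      mul_nonneg (sq_nonneg _) (by linarith)
    linarith
  have h11 : y - y ^ 2 ≤ Real.log (1 + y) := by
    linarith
  have h12 : 0 < 1 + y := by
    have := (abs_le.mp hy).1
    linarith
  calc Real.exp (y - y^2) ≤ Real.exp (Real.log (1 + y)) := Real.exp_le_exp.mpr h11
    _ = 1 + y := Real.exp_log h12

/-- The two-point inequality. -/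
theorem two_point {a D x δp δm : ℝ} (hD : a^2 ≤ D) (hD' : D ≤ 1/100) (hx : |x| ≤ 1)
    (hp : 0 < δp) (hm : 0 < δm) (hp2 : δp ≤ 2) (hm2 : δm ≤ 2) :
    δm / (δp + δm) * Real.exp (δp * a - 2 * D * (2 * x * δp + δp^2)) +
      δp / (δp + δm) * Real.exp (-δm * a - 2 * D * (-2 * x * δm + δm^2)) ≤ 1 := by
  have hD0 : 0 ≤ D := (sq_nonneg a).trans hD
  obtain ⟨s, hs0, hs⟩ : ∃ s, 0 ≤ s ∧ D = s ^ 2 := ⟨Real.sqrt D, Real.sqrt_nonneg D, (Real.sq_sqrt hD0).symm⟩
  have hs1 : s ≤ 1/10 := by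
    rw [hs] at hD'
    nlinarith
  have ha : |a| ≤ s := abs_le_of_sq_le_sq (by rw [← hs]; exact hD) hs0
  set κ := a - 4 * D * x with hκ
  have hκ1 : |κ| ≤ 1.4 * s := by
    have h1 : |κ| ≤ |a| + |4 * D * x| := by
      rw [hκ]; exact abs_sub _ _
    have h2 : |4 * D * x| ≤ 4 * D := by
      rw [abs_mul, abs_of_nonneg (by positivity : (0:ℝ) ≤ 4 * D)]
      exact mul_le_of_le_one_right (by positivity) hx
    have h3 : 4 * D ≤ 0.4 * s := by rw [hs]; nlinarith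
    linarith
  have hκ2 : κ ^ 2 ≤ 2 * D := by
    rw [← sq_abs, hs]
    nlinarith [abs_nonneg κ]
  have hκ3 : |κ| ≤ 0.14 := by linarith
  have key : ∀ δ : ℝ, |δ| ≤ 2 →
      Real.exp (δ * a - 2 * D * (2 * x * δ + δ^2)) ≤ 1 + κ * δ := by
    intro δ hδ
    have h1 : |κ * δ| ≤ 1/2 := by
      rw [abs_mul]
      have := mul_le_mul hκ3 hδ (abs_nonneg _) (by norm_num)
      linarith
    refine le_trans (Real.exp_le_exp.mpr ?_) (exp_sub_sq_le h1)
    have h2 : δ * a - 2 * D * (2 * x * δ + δ^2) = κ * δ - 2 * D * δ ^ 2 := by rw [hκ]; ring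
    rw [h2, mul_pow]
    have := mul_le_mul_of_nonneg_right hκ2 (sq_nonneg δ)
    linarith
  have h1 := key δp (by rw [abs_of_pos hp]; exact hp2)
  have h2 := key (-δm) (by rw [abs_neg, abs_of_pos hm]; exact hm2)
  have h3 : -δm * a - 2 * D * (2 * x * -δm + (-δm)^2) = -δm * a - 2 * D * (-2 * x * δm + δm^2) := by
    ring
  rw [h3] at h2
  have hS : 0 < δp + δm := by positivity
  have h4 := mul_le_mul_of_nonneg_left h1 (by positivity : 0 ≤ δm / (δp + δm))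
  have h5 := mul_le_mul_of_nonneg_left h2 (by positivity : 0 ≤ δp / (δp + δm))
  have h6 : δm / (δp + δm) * (1 + κ * δp) + δp / (δp + δm) * (1 + κ * -δm) = 1 := by
    field_simp
    ring
  linarith

theorem rounding {ι H κ : Type*} [Fintype ι] [DecidableEq ι] [NormedAddCommGroup H]
    [InnerProductSpace ℝ H] [FiniteDimensional ℝ H] [Fintype κ]
    (w : ι → H) (hw : ∀ i, ‖w i‖ ≤ 1) (x : ι → ℝ) (hx : ∀ i, |x i| ≤ 1)
    (θ : κ → H) (hθ : ∀ k, ‖θ k‖ ≤ 1/10) (ω : κ → ℝ) (hω : ∀ k, 0 ≤ ω k) :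
    ∃ ε : ι → ℝ, (∀ i, ε i = 1 ∨ ε i = -1) ∧
      ∑ k, ω k * Real.exp (inner ℝ (θ k) (∑ i, (ε i - x i) • w i)) ≤
        ∑ k, ω k * Real.exp (2 * ‖θ k‖^2) :=
  rounding_aux (fun h1 h2 h3 h4 h5 h6 h7 => two_point h1 h2 h3 h4 h5 h6 h7) w hw x hx θ hθ ω hω

/-- Rounding of features: apply `rounding` to `w e = f e / 2`, test vectors `± e_k / 10`, weights 1. -/
theorem rounding_features {ι κ : Type*} [DecidableEq ι] [Fintype κ] [Nonempty κ] (G : Finset ι)
    (f : ι → κ → ℝ) (hf : ∀ e ∈ G, ∑ k, f e k ^ 2 ≤ 4) (x : ι → ℝ) (hx : ∀ e ∈ G, |x e| ≤ 1) :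
    ∃ ε : ι → ℝ, (∀ e, ε e = 1 ∨ ε e = -1) ∧
      ∀ k, |∑ e ∈ G, (ε e - x e) * f e k| ≤ 20 * Real.log (2.1 * Fintype.card κ) := by
  classical
  let w : {e // e ∈ G} → EuclideanSpace ℝ κ := fun e => WithLp.toLp 2 fun k => f e k / 2
  have hw : ∀ e, ‖w e‖ ≤ 1 := by
    intro e
    rw [EuclideanSpace.norm_eq, Real.sqrt_le_one]
    have h1 : ∑ k, ‖w e k‖ ^ 2 = (∑ k, f e k ^ 2) / 4 := by
      rw [Finset.sum_div]
      refine Finset.sum_congr rfl fun k _ => ?_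
      have : w e k = f e k / 2 := rfl
      rw [this, Real.norm_eq_abs, sq_abs]
      ring
    rw [h1]
    have := hf e e.2
    linarith
  let θ : κ × Bool → EuclideanSpace ℝ κ := fun ks =>
    EuclideanSpace.single ks.1 (if ks.2 then (1/10 : ℝ) else -(1/10))
  have hθ' : ∀ ks, ‖θ ks‖ = 1/10 := by
    rintro ⟨k, s⟩
    simp only [θ]
    rw [PiLp.norm_single]
    cases s
    · simp
    · simp
  obtain ⟨ε, hε, h1⟩ := rounding w hw (fun e => x e) (fun e => hx e e.2) θ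
    (fun ks => (hθ' ks).le) (fun _ => 1) (fun _ => zero_le_one)
  let ε' : ι → ℝ := fun e => if h : e ∈ G then ε ⟨e, h⟩ else 1
  refine ⟨ε', ?_, ?_⟩
  · intro e
    simp only [ε']
    split_ifs with h
    · exact hε _
    · exact Or.inl rfl
  · intro k
    set T := ∑ e ∈ G, (ε' e - x e) * f e k with hT
    have hsum : (∑ e, (ε e - x e) • w e) k = T / 2 := by
      rw [hT, ← Finset.sum_coe_sort G, Finset.sum_div]
      have h2 : (∑ e, (ε e - x e) • w e) k = ∑ e, ((ε e - x e) • w e) k := by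
        simp
      rw [h2]
      refine Finset.sum_congr rfl fun e _ => ?_
      have h3 : ε' e = ε e := by
        simp only [ε']
        rw [dif_pos e.2]
      rw [h3]
      have h4 : ((ε e - x e) • w e) k = (ε e - x e) * (f e k / 2) := rfl
      rw [h4]
      ring
    have hin : ∀ s : Bool, inner ℝ (θ (k, s)) (∑ e, (ε e - x e) • w e) =
        (if s then (1/10 : ℝ) else -(1/10)) * (T / 2) := by
      intro s
      simp only [θ]
      rw [EuclideanSpace.inner_single_left, hsum]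
      simp
    have hterm : ∀ s : Bool, Real.exp ((if s then (1/10 : ℝ) else -(1/10)) * (T / 2)) ≤
        2.1 * Fintype.card κ := by
      intro s
      have h2 : (1 : ℝ) * Real.exp (inner ℝ (θ (k, s)) (∑ e, (ε e - x e) • w e)) ≤
          ∑ ks, (1 : ℝ) * Real.exp (inner ℝ (θ ks) (∑ e, (ε e - x e) • w e)) :=
        Finset.single_le_sum (f := fun ks => (1 : ℝ) * Real.exp (inner ℝ (θ ks)
          (∑ e, (ε e - x e) • w e))) (fun ks _ => by positivity) (Finset.mem_univ (k, s))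
      have h3 := h2.trans h1
      rw [hin, one_mul] at h3
      refine h3.trans ?_
      have h4 : ∀ ks : κ × Bool, (1 : ℝ) * Real.exp (2 * ‖θ ks‖ ^ 2) = Real.exp 0.02 := by
        intro ks
        rw [hθ', one_mul]
        congr 1
        norm_num
      simp_rw [h4]
      rw [Finset.sum_const, Finset.card_univ, Fintype.card_prod, Fintype.card_bool, nsmul_eq_mul]
      have h5 : Real.exp 0.02 ≤ 1.05 := by
        have h6 := Real.exp_bound_div_one_sub_of_interval (x := 0.02) (by norm_num) (by norm_num)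
        refine h6.trans ?_
        norm_num
      push_cast
      have h7 : (0 : ℝ) ≤ Fintype.card κ := by positivity
      nlinarith
    have hcard : 0 < (2.1 : ℝ) * Fintype.card κ := by
      have : (0 : ℝ) < Fintype.card κ := by exact_mod_cast Fintype.card_pos
      positivity
    have habs : Real.exp (|T| / 20) ≤ 2.1 * Fintype.card κ := by
      rcases abs_cases T with ⟨h, _⟩ | ⟨h, _⟩
      · have := hterm true
        rw [h]
        convert this using 2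
        simp only [if_true]
        ring
      · have := hterm false
        rw [h]
        convert this using 2
        simp only [Bool.false_eq_true, if_false]
        ring
    have h8 : |T| / 20 ≤ Real.log (2.1 * Fintype.card κ) := by
      rw [Real.le_log_iff_exp_le hcard]
      exact habs
    linarith

end P262
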