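import Mathlib

/-!
# P262 [R2] The rounding lemma (Gram–Schmidt walk)

See the header of `Round.lean` for the proof.
-/

namespace P262

/-- Squared norm of the projection of `θ` on the span of `w i`, `i ∈ A`. -/
noncomputable def Npr {ι H : Type*} [NormedAddCommGroup H] [InnerProductSpace ℝ H]
    [FiniteDimensional ℝ H] (w : ι → H) (θ : H) (A : Finset ι) : ℝ :=
  ‖(Submodule.span ℝ (w '' (A : Set ι))).starProjection θ‖ ^ 2

section proj

variable {ι H : Type*} [NormedAddCommGroup H] [InnerProductSpace ℝ H] [FiniteDimensional ℝ H]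

theorem Npr_nonneg (w : ι → H) (θ : H) (A : Finset ι) : 0 ≤ Npr w θ A := by
  unfold Npr; positivity

theorem Npr_le (w : ι → H) (θ : H) (A : Finset ι) : Npr w θ A ≤ ‖θ‖ ^ 2 := by
  unfold Npr
  have := (Submodule.span ℝ (w '' (A : Set ι))).norm_starProjection_apply_le θ
  gcongr

theorem proj_pyth {U V : Submodule ℝ H} (h : U ≤ V) (θ : H) :
    ‖V.starProjection θ‖ ^ 2 =
      ‖U.starProjection θ‖ ^ 2 + ‖V.starProjection θ - U.starProjection θ‖ ^ 2 := by
  have h1 : U.starProjection (V.starProjection θ) = U.starProjection θ :=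
    DFunLike.congr_fun (Submodule.starProjection_comp_starProjection_of_le h) θ
  have h2 := Submodule.norm_sq_eq_add_norm_sq_starProjection (V.starProjection θ) U
  rw [Submodule.starProjection_orthogonal_val, h1] at h2
  exact h2

theorem Npr_mono (w : ι → H) (θ : H) {A B : Finset ι} (h : A ⊆ B) : Npr w θ A ≤ Npr w θ B := by
  unfold Npr
  rw [proj_pyth (Submodule.span_mono (Set.image_mono (Finset.coe_subset.mpr h))) θ]
  exact le_add_of_nonneg_right (sq_nonneg _)

theorem gs_ineq (w : ι → H) (θ b : H) {A B : Finset ι} (h : A ⊆ B)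
    (hb : b ∈ Submodule.span ℝ (w '' (B : Set ι)))
    (hb' : ∀ y ∈ Submodule.span ℝ (w '' (A : Set ι)), inner ℝ y b = 0) (hb1 : ‖b‖ ≤ 1) :
    (inner ℝ θ b) ^ 2 ≤ Npr w θ B - Npr w θ A := by
  unfold Npr
  set U := Submodule.span ℝ (w '' (A : Set ι))
  set V := Submodule.span ℝ (w '' (B : Set ι))
  have hUV : U ≤ V := Submodule.span_mono (Set.image_mono (Finset.coe_subset.mpr h))
  have h1 : inner ℝ θ b = inner ℝ (V.starProjection θ - U.starProjection θ) b := by
    have h2 : inner ℝ (θ - V.starProjection θ) b = 0 := V.starProjection_inner_eq_zero θ b hb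
    have h3 : inner ℝ (U.starProjection θ) b = 0 := hb' _ (U.starProjection_apply_mem θ)
    rw [inner_sub_left] at h2 ⊢
    rw [h3]
    linarith
  rw [proj_pyth hUV θ, h1]
  have h4 := abs_real_inner_le_norm (V.starProjection θ - U.starProjection θ) b
  have h5 : ‖V.starProjection θ - U.starProjection θ‖ * ‖b‖ ≤
      ‖V.starProjection θ - U.starProjection θ‖ :=
    mul_le_of_le_one_right (norm_nonneg _) hb1
  have h6 : (inner ℝ (V.starProjection θ - U.starProjection θ) b) ^ 2 ≤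
      ‖V.starProjection θ - U.starProjection θ‖ ^ 2 := by
    rw [← sq_abs]
    exact pow_le_pow_left₀ (abs_nonneg _) (h4.trans h5) 2
  linarith

end proj

/-- moving in the direction `u` until the boundary of the cube -/
theorem exists_step {ι : Type*} (A : Finset ι) {p : ι} (hp : p ∈ A) (x u : ι → ℝ)
    (hx : ∀ i ∈ A, |x i| < 1) (hu : |u p| = 1) :
    ∃ δ : ℝ, 0 < δ ∧ δ ≤ 2 ∧ (∀ i ∈ A, |x i + δ * u i| ≤ 1) ∧ ∃ i ∈ A, |x i + δ * u i| = 1 := by
  have hne : A.Nonempty := ⟨p, hp⟩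
  let f : ℝ → ℝ := fun δ => A.sup' hne fun i => |x i + δ * u i|
  have hf : Continuous f := by
    apply Continuous.finset_sup'_apply hne
    intro i _
    fun_prop
  have h0 : f 0 < 1 := by
    simp only [f]
    rw [Finset.sup'_lt_iff]
    intro i hi
    simpa using hx i hi
  have h2 : 1 ≤ f 2 := by
    have h3 : |x p + 2 * u p| ≤ f 2 := Finset.le_sup' (fun i => |x i + 2 * u i|) hp
    refine le_trans ?_ h3
    have h4 := hx p hp
    have h5 : |2 * u p| = 2 := by rw [abs_mul, hu]; norm_num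
    have h6 : |2 * u p| ≤ |x p + 2 * u p| + |x p| := by
      have := abs_sub (x p + 2 * u p) (x p)
      have h7 : x p + 2 * u p - x p = 2 * u p := by ring
      rw [h7] at this
      exact this
    linarith
  obtain ⟨δ, hδ, hδ2⟩ := intermediate_value_Icc (by norm_num : (0 : ℝ) ≤ 2) hf.continuousOn
    (show (1 : ℝ) ∈ Set.Icc (f 0) (f 2) from ⟨h0.le, h2⟩)
  refine ⟨δ, ?_, hδ.2, ?_, ?_⟩
  · rcases hδ.1.eq_or_lt with h | h
    · rw [← h] at hδ2
      exact absurd hδ2 h0.ne
    · exact h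
  · intro i hi
    rw [← hδ2]
    exact Finset.le_sup' (fun i => |x i + δ * u i|) hi
  · obtain ⟨i, hi, h3⟩ := Finset.exists_mem_eq_sup' hne fun i => |x i + δ * u i|
    exact ⟨i, hi, by rw [← h3]; exact hδ2⟩

section walk

variable {ι H κ : Type*} [DecidableEq ι] [NormedAddCommGroup H]
    [InnerProductSpace ℝ H] [FiniteDimensional ℝ H] [Fintype κ]

/-- exponent of the potential -/
noncomputable def expo (w : ι → H) (θ : κ → H) (A : Finset ι) (p : ι) (t : ℝ) (k : κ) : ℝ :=
  2 * (t ^ 2 * Npr w (θ k) (A.erase p) + (1 - t ^ 2) * Npr w (θ k) A)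

/-- the statement `S(A)` for fixed data -/
def Goal (w : ι → H) (θ : κ → H) (A : Finset ι) (p : ι) (x : ι → ℝ) (ω : κ → ℝ) : Prop :=
  ∃ ε : ι → ℝ, (∀ i, ε i = 1 ∨ ε i = -1) ∧
    ∑ k, ω k * Real.exp (inner ℝ (θ k) (∑ i ∈ A, (ε i - x i) • w i)) ≤
      ∑ k, ω k * Real.exp (expo w θ A p (x p) k)

/-- the boundary cases -/
theorem goal_boundary (w : ι → H) (θ : κ → H) (A : Finset ι)
    (ih : ∀ B ⊂ A, ∀ p ∈ B, ∀ (x : ι → ℝ), (∀ i ∈ B, |x i| ≤ 1) → ∀ ω : κ → ℝ, (∀ k, 0 ≤ ω k) →
      Goal w θ B p x ω)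
    {p : ι} (hp : p ∈ A) {x : ι → ℝ} (hx : ∀ i ∈ A, |x i| ≤ 1) {ω : κ → ℝ} (hω : ∀ k, 0 ≤ ω k)
    {i : ι} (hi : i ∈ A) (hxi : |x i| = 1) : Goal w θ A p x ω := by
  have hxi' : x i = 1 ∨ x i = -1 := eq_or_eq_neg_of_abs_eq hxi
  have hsub : A.erase i ⊂ A := Finset.erase_ssubset hi
  have key : ∀ ε : ι → ℝ, ∑ j ∈ A, (Function.update ε i (x i) j - x j) • w j =
      ∑ j ∈ A.erase i, (ε j - x j) • w j := by
    intro ε
    rw [← Finset.add_sum_erase A _ hi]
    rw [Function.update_self, sub_self, zero_smul, zero_add]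
    refine Finset.sum_congr rfl fun j hj => ?_
    rw [Function.update_of_ne (Finset.ne_of_mem_erase hj)]
  have hsign : ∀ ε : ι → ℝ, (∀ j, ε j = 1 ∨ ε j = -1) →
      ∀ j, Function.update ε i (x i) j = 1 ∨ Function.update ε i (x i) j = -1 := by
    intro ε hε j
    by_cases h : j = i
    · subst h; rw [Function.update_self]; exact hxi'
    · rw [Function.update_of_ne h]; exact hε j
  by_cases hip : i = p
  · subst hip
    have hsq : x i ^ 2 = 1 := by rw [← sq_abs, hxi, one_pow]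
    by_cases hne : (A.erase i).Nonempty
    · obtain ⟨q, hq⟩ := hne
      obtain ⟨ε, hε, h1⟩ := ih (A.erase i) hsub q hq x
        (fun j hj => hx j (Finset.mem_of_mem_erase hj)) ω hω
      refine ⟨Function.update ε i (x i), hsign ε hε, ?_⟩
      rw [key ε]
      refine h1.trans (Finset.sum_le_sum fun k _ => ?_)
      refine mul_le_mul_of_nonneg_left (Real.exp_le_exp.mpr ?_) (hω k)
      unfold expo
      rw [hsq]
      have h2 : Npr w (θ k) ((A.erase i).erase q) ≤ Npr w (θ k) (A.erase i) :=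
        Npr_mono w (θ k) (Finset.erase_subset q _)
      have h3 : x q ^ 2 ≤ 1 := by
        rw [← sq_abs]
        exact pow_le_one₀ (abs_nonneg _) (hx q (Finset.mem_of_mem_erase hq))
      nlinarith [sq_nonneg (x q)]
    · rw [Finset.not_nonempty_iff_eq_empty] at hne
      refine ⟨Function.update (fun _ => 1) i (x i), hsign _ (fun _ => Or.inl rfl), ?_⟩
      rw [key]
      refine Finset.sum_le_sum fun k _ => ?_
      refine mul_le_mul_of_nonneg_left (Real.exp_le_exp.mpr ?_) (hω k)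
      rw [hne, Finset.sum_empty, inner_zero_right]
      unfold expo
      rw [hsq]
      have := Npr_nonneg w (θ k) (A.erase i)
      linarith
  · have hpi : p ∈ A.erase i := Finset.mem_erase.mpr ⟨fun h => hip h.symm, hp⟩
    obtain ⟨ε, hε, h1⟩ := ih (A.erase i) hsub p hpi x
      (fun j hj => hx j (Finset.mem_of_mem_erase hj)) ω hω
    refine ⟨Function.update ε i (x i), hsign ε hε, ?_⟩
    rw [key ε]
    refine h1.trans (Finset.sum_le_sum fun k _ => ?_)
    refine mul_le_mul_of_nonneg_left (Real.exp_le_exp.mpr ?_) (hω k)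
    unfold expo
    have h2 : Npr w (θ k) ((A.erase i).erase p) ≤ Npr w (θ k) (A.erase p) :=
      Npr_mono w (θ k) (Finset.erase_subset_erase p (Finset.erase_subset i A))
    have h3 : Npr w (θ k) (A.erase i) ≤ Npr w (θ k) A := Npr_mono w (θ k) (Finset.erase_subset i A)
    have h4 : x p ^ 2 ≤ 1 := by
      rw [← sq_abs]
      exact pow_le_one₀ (abs_nonneg _) (hx p hp)
    have h5 := mul_le_mul_of_nonneg_left h2 (sq_nonneg (x p))
    have h6 := mul_le_mul_of_nonneg_left h3 (by linarith : 0 ≤ 1 - x p ^ 2)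
    linarith

theorem goal_all
    (htwo : ∀ {a D x δp δm : ℝ}, a^2 ≤ D → D ≤ 1/100 → |x| ≤ 1 → 0 < δp → 0 < δm → δp ≤ 2 →
      δm ≤ 2 → δm / (δp + δm) * Real.exp (δp * a - 2 * D * (2 * x * δp + δp^2)) +
      δp / (δp + δm) * Real.exp (-δm * a - 2 * D * (-2 * x * δm + δm^2)) ≤ 1)
    (w : ι → H) (hw : ∀ i, ‖w i‖ ≤ 1) (θ : κ → H) (hθ : ∀ k, ‖θ k‖ ≤ 1/10) (A : Finset ι) :
    ∀ p ∈ A, ∀ (x : ι → ℝ), (∀ i ∈ A, |x i| ≤ 1) → ∀ ω : κ → ℝ, (∀ k, 0 ≤ ω k) →
      Goal w θ A p x ω := by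
  induction A using Finset.strongInduction with
  | H A ih =>
  intro p hp x hx ω hω
  by_cases hbd : ∃ i ∈ A, |x i| = 1
  · obtain ⟨i, hi, hxi⟩ := hbd
    exact goal_boundary w θ A ih hp hx hω hi hxi
  · push Not at hbd
    have hx' : ∀ i ∈ A, |x i| < 1 := fun i hi => lt_of_le_of_ne (hx i hi) (hbd i hi)
    -- the direction
    set V' := Submodule.span ℝ (w '' ((A.erase p : Finset ι) : Set ι)) with hV'
    have hmem : V'.starProjection (w p) ∈ V' := V'.starProjection_apply_mem (w p)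
    rw [hV', Submodule.mem_span_image_finset_iff_exists_fun'] at hmem
    obtain ⟨c, hc⟩ := hmem
    rw [← hV'] at hc
    set u : ι → ℝ := fun i => if i = p then 1 else - c i with hu
    have hup : u p = 1 := by simp [hu]
    set b : H := w p - V'.starProjection (w p) with hb
    have hbu : ∑ i ∈ A, u i • w i = b := by
      rw [← Finset.add_sum_erase A _ hp, hup, one_smul, hb, ← hc, sub_eq_add_neg,
        ← Finset.sum_neg_distrib]
      congr 1
      refine Finset.sum_congr rfl fun i hi => ?_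
      simp only [hu]
      rw [if_neg (Finset.ne_of_mem_erase hi), neg_smul]
    have hbV : b ∈ Submodule.span ℝ (w '' (A : Set ι)) := by
      rw [← hbu]
      exact Submodule.sum_mem _ fun i hi => Submodule.smul_mem _ _
        (Submodule.subset_span ⟨i, hi, rfl⟩)
    have hborth : ∀ y ∈ V', inner ℝ y b = 0 := by
      intro y hy
      rw [real_inner_comm]
      exact V'.starProjection_inner_eq_zero (w p) y hy
    have hb1 : ‖b‖ ≤ 1 := by
      have h2 := Submodule.norm_sq_eq_add_norm_sq_starProjection (w p) V'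
      rw [Submodule.starProjection_orthogonal_val] at h2
      have h3 : ‖b‖ ^ 2 ≤ 1 := by
        have h4 : ‖w p‖ ^ 2 ≤ 1 := pow_le_one₀ (norm_nonneg _) (hw p)
        have h5 : 0 ≤ ‖V'.starProjection (w p)‖ ^ 2 := by positivity
        rw [hb]
        linarith
      exact (sq_le_one_iff₀ (norm_nonneg b)).mp h3
    -- the two endpoints
    have hend : ∀ (s : ℝ) (hs : |s| = 1), ∃ δ : ℝ, 0 < δ ∧ δ ≤ 2 ∧
        ∃ ε : ι → ℝ, (∀ i, ε i = 1 ∨ ε i = -1) ∧
        ∑ k, ω k * Real.exp (inner ℝ (θ k) (∑ i ∈ A, (ε i - x i) • w i)) ≤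
          ∑ k, ω k * Real.exp ((δ * s) * inner ℝ (θ k) b + expo w θ A p (x p + δ * s) k) := by
      intro s hs
      obtain ⟨δ, hδ0, hδ2, hδ, i, hi, hδi⟩ := exists_step A hp x (fun i => s * u i) hx'
        (by rw [hup, mul_one, hs])
      refine ⟨δ, hδ0, hδ2, ?_⟩
      let x' : ι → ℝ := fun i => x i + δ * (s * u i)
      let ω' : κ → ℝ := fun k => ω k * Real.exp ((δ * s) * inner ℝ (θ k) b)
      obtain ⟨ε, hε, h1⟩ := goal_boundary w θ A ih hp (x := x') hδ (ω := ω')
        (fun k => mul_nonneg (hω k) (Real.exp_pos _).le) hi hδi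
      refine ⟨ε, hε, ?_⟩
      have hxp : x' p = x p + δ * s := by simp only [x']; rw [hup, mul_one]
      rw [hxp] at h1
      have h2 : ∀ k, ω k * Real.exp (inner ℝ (θ k) (∑ i ∈ A, (ε i - x i) • w i)) =
          ω' k * Real.exp (inner ℝ (θ k) (∑ i ∈ A, (ε i - x' i) • w i)) := by
        intro k
        simp only [ω']
        rw [mul_assoc, ← Real.exp_add]
        congr 2
        have h3 : ∑ i ∈ A, (ε i - x i) • w i = (δ * s) • b + ∑ i ∈ A, (ε i - x' i) • w i := by
          rw [← hbu, Finset.smul_sum, ← Finset.sum_add_distrib]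
          refine Finset.sum_congr rfl fun i _ => ?_
          rw [smul_smul, ← add_smul]
          congr 1
          simp only [x']
          ring
        rw [h3, inner_add_right, real_inner_smul_right]
      simp_rw [h2]
      refine h1.trans (le_of_eq ?_)
      refine Finset.sum_congr rfl fun k _ => ?_
      simp only [ω']
      rw [mul_assoc, ← Real.exp_add]
    obtain ⟨δp, hp0, hp2, εp, hεp, hp3⟩ := hend 1 (by simp)
    obtain ⟨δm, hm0, hm2, εm, hεm, hm3⟩ := hend (-1) (by simp)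
    set Rp := ∑ k, ω k * Real.exp ((δp * 1) * inner ℝ (θ k) b + expo w θ A p (x p + δp * 1) k)
      with hRp
    set Rm := ∑ k, ω k * Real.exp ((δm * -1) * inner ℝ (θ k) b + expo w θ A p (x p + δm * -1) k)
      with hRm
    set R0 := ∑ k, ω k * Real.exp (expo w θ A p (x p) k) with hR0
    have hS : 0 < δp + δm := by positivity
    have havg : δm / (δp + δm) * Rp + δp / (δp + δm) * Rm ≤ R0 := by
      rw [hRp, hRm, hR0, Finset.mul_sum, Finset.mul_sum, ← Finset.sum_add_distrib]
      refine Finset.sum_le_sum fun k _ => ?_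
      set D := Npr w (θ k) A - Npr w (θ k) (A.erase p) with hD
      have hD1 : (inner ℝ (θ k) b) ^ 2 ≤ D :=
        gs_ineq w (θ k) b (Finset.erase_subset p A) hbV hborth hb1
      have hD2 : D ≤ 1 / 100 := by
        have h1 := Npr_le w (θ k) A
        have h2 := Npr_nonneg w (θ k) (A.erase p)
        have h3 : ‖θ k‖ ^ 2 ≤ (1/10) ^ 2 := pow_le_pow_left₀ (norm_nonneg _) (hθ k) 2
        norm_num at h3
        linarith
      have h2 := htwo hD1 hD2 (hx p hp) hp0 hm0 hp2 hm2
      have e1 : (δp * 1) * inner ℝ (θ k) b + expo w θ A p (x p + δp * 1) k =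
          (δp * inner ℝ (θ k) b - 2 * D * (2 * x p * δp + δp^2)) + expo w θ A p (x p) k := by
        unfold expo
        rw [hD]; ring
      have e2 : (δm * -1) * inner ℝ (θ k) b + expo w θ A p (x p + δm * -1) k =
          (-δm * inner ℝ (θ k) b - 2 * D * (-2 * x p * δm + δm^2)) + expo w θ A p (x p) k := by
        unfold expo
        rw [hD]; ring
      rw [e1, e2, Real.exp_add, Real.exp_add]
      have h3 := mul_le_mul_of_nonneg_left h2
        (mul_nonneg (hω k) (Real.exp_pos (expo w θ A p (x p) k)).le)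
      calc _ = ω k * Real.exp (expo w θ A p (x p) k) *
            (δm / (δp + δm) * Real.exp (δp * inner ℝ (θ k) b - 2 * D * (2 * x p * δp + δp^2)) +
              δp / (δp + δm) * Real.exp (-δm * inner ℝ (θ k) b -
                2 * D * (-2 * x p * δm + δm^2))) := by ring
        _ ≤ _ := h3
        _ = _ := by ring
    have hwt : δm / (δp + δm) + δp / (δp + δm) = 1 := by field_simp; ring
    have hwp : 0 < δm / (δp + δm) := by positivity
    have hwm : 0 < δp / (δp + δm) := by positivity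
    by_cases hR : Rp ≤ R0
    · exact ⟨εp, hεp, hp3.trans hR⟩
    · push Not at hR
      refine ⟨εm, hεm, hm3.trans ?_⟩
      by_contra hcon
      push Not at hcon
      have h1 := mul_lt_mul_of_pos_left hR hwp
      have h2 := mul_lt_mul_of_pos_left hcon hwm
      have h3 : R0 = δm / (δp + δm) * R0 + δp / (δp + δm) * R0 := by
        rw [← add_mul, hwt, one_mul]
      linarith

end walk

theorem rounding_aux {ι H κ : Type*} [Fintype ι] [DecidableEq ι] [NormedAddCommGroup H]
    [InnerProductSpace ℝ H] [FiniteDimensional ℝ H] [Fintype κ]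
    (htwo : ∀ {a D x δp δm : ℝ}, a^2 ≤ D → D ≤ 1/100 → |x| ≤ 1 → 0 < δp → 0 < δm → δp ≤ 2 →
      δm ≤ 2 → δm / (δp + δm) * Real.exp (δp * a - 2 * D * (2 * x * δp + δp^2)) +
      δp / (δp + δm) * Real.exp (-δm * a - 2 * D * (-2 * x * δm + δm^2)) ≤ 1)
    (w : ι → H) (hw : ∀ i, ‖w i‖ ≤ 1) (x : ι → ℝ) (hx : ∀ i, |x i| ≤ 1)
    (θ : κ → H) (hθ : ∀ k, ‖θ k‖ ≤ 1/10) (ω : κ → ℝ) (hω : ∀ k, 0 ≤ ω k) :
    ∃ ε : ι → ℝ, (∀ i, ε i = 1 ∨ ε i = -1) ∧
      ∑ k, ω k * Real.exp (inner ℝ (θ k) (∑ i, (ε i - x i) • w i)) ≤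
        ∑ k, ω k * Real.exp (2 * ‖θ k‖^2) := by
  rcases isEmpty_or_nonempty ι with hι | ⟨⟨p⟩⟩
  · refine ⟨fun _ => 1, fun _ => Or.inl rfl, ?_⟩
    refine Finset.sum_le_sum fun k _ => ?_
    refine mul_le_mul_of_nonneg_left (Real.exp_le_exp.mpr ?_) (hω k)
    rw [Finset.univ_eq_empty, Finset.sum_empty, inner_zero_right]
    positivity
  · obtain ⟨ε, hε, h1⟩ := goal_all htwo w hw θ hθ Finset.univ p (Finset.mem_univ p) x
      (fun i _ => hx i) ω hω
    refine ⟨ε, hε, h1.trans (Finset.sum_le_sum fun k _ => ?_)⟩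
    refine mul_le_mul_of_nonneg_left (Real.exp_le_exp.mpr ?_) (hω k)
    unfold expo
    have h2 : Npr w (θ k) (Finset.univ.erase p) ≤ Npr w (θ k) Finset.univ :=
      Npr_mono w (θ k) (Finset.erase_subset p _)
    have h3 := Npr_le w (θ k) (Finset.univ : Finset ι)
    have h4 : x p ^ 2 ≤ 1 := by
      rw [← sq_abs]
      exact pow_le_one₀ (abs_nonneg _) (hx p)
    have h5 := mul_le_mul_of_nonneg_left h2 (sq_nonneg (x p))
    linarith

end P262
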