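import Vale.Agent.P262.RoundH

/-!
# P262 [D] The Gram–Schmidt walk as a random rounding: subgaussian with constant 1, mean zero

Statement `S(A)` (strong induction on `A`): for all `p ∈ A`, `|x i| ≤ 1` on `A` there is a finite
probability distribution `P` on sign vectors `ε` with `E ε i = x i` (`i ∈ A`) and, for ALL `θ`,
`E exp ⟪θ, ∑ i ∈ A, (ε i - x i) w i⟫ ≤ exp (pot w θ A p (x p))`.
Same structure as `goal_boundary`/`goal_all` in `RoundAux.lean`:
* boundary, `|x i| = 1`, `i ≠ p`: use `S(A \ i)` with pivot `p`, set `ε i = x i`, `pot_drop`;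
* boundary, `|x p| = 1`: `A = {p}` trivial (`pot_frozen`, `Npr ≥ 0`); otherwise new pivot `q`, `S(A \ p)`, `pot_le`
  and `pot_frozen`.
* interior: `u`, `b = ∑ u i w i = resid w A p`, `exists_step` gives `δ₊, δ₋ > 0`; the mixture
  (weight `δ₋/(δ₊+δ₋)` of the distribution for `x + δ₊ u`, weight `δ₊/(δ₊+δ₋)` of the one for `x - δ₋ u`, on
  `Ω₁ ⊕ Ω₂`). With `a = ⟪θ,b⟫`, by `exp_hh` the quantity
  `exp (δ a) * exp (pot (x p + δ)) = exp (Npr/2 - a²/2 - a x_p) * ((1+x_p+δ)/2 e^a + (1-x_p-δ)/2 e^(-a))`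
  is AFFINE in `δ`, so the average is exactly the value at `δ = 0`, which is `exp (pot (x p))`.
-/

namespace P262

section dist

variable {ι H : Type*} [DecidableEq ι] [NormedAddCommGroup H]
    [InnerProductSpace ℝ H] [FiniteDimensional ℝ H]

/-- the statement `S(A)` for fixed data -/
def DGoal (w : ι → H) (A : Finset ι) (p : ι) (x : ι → ℝ) : Prop :=
  ∃ (Ω : Type) (_ : Fintype Ω) (P : Ω → ℝ) (ε : Ω → ι → ℝ),
    (∀ o, 0 ≤ P o) ∧ ∑ o, P o = 1 ∧ (∀ o i, ε o i = 1 ∨ ε o i = -1) ∧
    (∀ i ∈ A, ∑ o, P o * ε o i = x i) ∧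
    ∀ θ : H, ∑ o, P o * Real.exp (inner ℝ θ (∑ i ∈ A, (ε o i - x i) • w i)) ≤
      Real.exp (pot w θ A p (x p))

/-- the boundary cases -/
theorem dgoal_boundary (w : ι → H) (hw : ∀ i, ‖w i‖ ≤ 1) (A : Finset ι)
    (ih : ∀ B ⊂ A, ∀ p ∈ B, ∀ (x : ι → ℝ), (∀ i ∈ B, |x i| ≤ 1) → DGoal w B p x)
    {p : ι} (hp : p ∈ A) {x : ι → ℝ} (hx : ∀ i ∈ A, |x i| ≤ 1)
    {i : ι} (hi : i ∈ A) (hxi : |x i| = 1) : DGoal w A p x := by
  have hxi' : x i = 1 ∨ x i = -1 := eq_or_eq_neg_of_abs_eq hxi
  have hsub : A.erase i ⊂ A := Finset.erase_ssubset hi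
  have key : ∀ ε : ι → ℝ, ∑ j ∈ A, (Function.update ε i (x i) j - x j) • w j =
      ∑ j ∈ A.erase i, (ε j - x j) • w j := by
    intro ε
    rw [← Finset.add_sum_erase A _ hi]
    rw [Function.update_self, sub_self, zero_smul, zero_add]
    refine Finset.sum_congr rfl fun j hj => ?_
    rw [Function.update_of_ne (Finset.ne_of_mem_erase hj)]
  have hsign : ∀ ε : ι → ℝ, (∀ j, ε j = 1 ∨ ε j = -1) →
      ∀ j, Function.update ε i (x i) j = 1 ∨ Function.update ε i (x i) j = -1 := by
    intro ε hε j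
    by_cases h : j = i
    · subst h; rw [Function.update_self]; exact hxi'
    · rw [Function.update_of_ne h]; exact hε j
  have hmean : ∀ (Ω : Type) (_ : Fintype Ω) (P : Ω → ℝ) (ε : Ω → ι → ℝ), ∑ o, P o = 1 →
      (∀ j ∈ A.erase i, ∑ o, P o * ε o j = x j) →
      ∀ j ∈ A, ∑ o, P o * Function.update (ε o) i (x i) j = x j := by
    intro Ω _ P ε hP1 hm j hj
    by_cases h : j = i
    · subst h
      simp only [Function.update_self]
      rw [← Finset.sum_mul, hP1, one_mul]
    · simp only [Function.update_of_ne h]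
      exact hm j (Finset.mem_erase.mpr ⟨h, hj⟩)
  by_cases hip : i = p
  · subst hip
    by_cases hne : (A.erase i).Nonempty
    · obtain ⟨q, hq⟩ := hne
      obtain ⟨Ω, hΩ, P, ε, hP0, hP1, hε, hm, h1⟩ := ih (A.erase i) hsub q hq x
        (fun j hj => hx j (Finset.mem_of_mem_erase hj))
      refine ⟨Ω, hΩ, P, fun o => Function.update (ε o) i (x i), hP0, hP1,
        fun o => hsign (ε o) (hε o), hmean Ω hΩ P ε hP1 hm, ?_⟩
      intro θ
      simp_rw [key]
      refine (h1 θ).trans (Real.exp_le_exp.mpr ?_)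
      exact (pot_le w θ (hx q (Finset.mem_of_mem_erase hq))).trans (pot_frozen w hw θ hp hxi)
    · rw [Finset.not_nonempty_iff_eq_empty] at hne
      refine ⟨Unit, inferInstance, fun _ => 1, fun _ => Function.update (fun _ => 1) i (x i),
        fun _ => zero_le_one, by simp, fun _ => hsign _ (fun _ => Or.inl rfl),
        hmean Unit inferInstance (fun _ => 1) (fun _ _ => 1) (by simp) (by simp [hne]), ?_⟩
      intro θ
      simp_rw [key]
      rw [hne]
      simp only [Finset.sum_empty, inner_zero_right, Real.exp_zero, mul_one,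
        Finset.univ_unique, Finset.sum_singleton]
      rw [← Real.exp_zero]
      refine Real.exp_le_exp.mpr ?_
      refine le_trans ?_ (pot_frozen w hw θ hp hxi)
      have := Npr_nonneg w θ (A.erase i)
      linarith
  · have hpi : p ∈ A.erase i := Finset.mem_erase.mpr ⟨fun h => hip h.symm, hp⟩
    obtain ⟨Ω, hΩ, P, ε, hP0, hP1, hε, hm, h1⟩ := ih (A.erase i) hsub p hpi x
      (fun j hj => hx j (Finset.mem_of_mem_erase hj))
    refine ⟨Ω, hΩ, P, fun o => Function.update (ε o) i (x i), hP0, hP1,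
      fun o => hsign (ε o) (hε o), hmean Ω hΩ P ε hP1 hm, ?_⟩
    intro θ
    simp_rw [key]
    refine (h1 θ).trans (Real.exp_le_exp.mpr ?_)
    exact pot_drop w hw θ hp hi hip (hx p hp)

theorem dgoal_all (w : ι → H) (hw : ∀ i, ‖w i‖ ≤ 1) (A : Finset ι) :
    ∀ p ∈ A, ∀ (x : ι → ℝ), (∀ i ∈ A, |x i| ≤ 1) → DGoal w A p x := by
  induction A using Finset.strongInduction with
  | H A ih =>
  intro p hp x hx
  by_cases hbd : ∃ i ∈ A, |x i| = 1
  · obtain ⟨i, hi, hxi⟩ := hbd
    exact dgoal_boundary w hw A ih hp hx hi hxi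
  · push Not at hbd
    have hx' : ∀ i ∈ A, |x i| < 1 := fun i hi => lt_of_le_of_ne (hx i hi) (hbd i hi)
    -- the direction
    set V' := Submodule.span ℝ (w '' ((A.erase p : Finset ι) : Set ι)) with hV'
    have hmem : V'.starProjection (w p) ∈ V' := V'.starProjection_apply_mem (w p)
    rw [hV', Submodule.mem_span_image_finset_iff_exists_fun'] at hmem
    obtain ⟨c, hc⟩ := hmem
    rw [← hV'] at hc
    set u : ι → ℝ := fun i => if i = p then 1 else - c i with hu
    have hup : u p = 1 := by simp [hu]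
    have hbu : ∑ i ∈ A, u i • w i = resid w A p := by
      change _ = w p - V'.starProjection (w p)
      rw [← Finset.add_sum_erase A _ hp, hup, one_smul, ← hc, sub_eq_add_neg,
        ← Finset.sum_neg_distrib]
      congr 1
      refine Finset.sum_congr rfl fun i hi => ?_
      simp only [hu]
      rw [if_neg (Finset.ne_of_mem_erase hi), neg_smul]
    -- the two endpoints
    have hend : ∀ (s : ℝ) (hs : |s| = 1), ∃ δ : ℝ, 0 < δ ∧ |x p + δ * s| ≤ 1 ∧
        ∃ (Ω : Type) (_ : Fintype Ω) (P : Ω → ℝ) (ε : Ω → ι → ℝ),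
          (∀ o, 0 ≤ P o) ∧ ∑ o, P o = 1 ∧ (∀ o i, ε o i = 1 ∨ ε o i = -1) ∧
          (∀ i ∈ A, ∑ o, P o * ε o i = x i + (δ * s) * u i) ∧
          ∀ θ : H, ∑ o, P o * Real.exp (inner ℝ θ (∑ i ∈ A, (ε o i - x i) • w i)) ≤
            Real.exp ((δ * s) * inner ℝ θ (resid w A p)) *
              Real.exp (pot w θ A p (x p + δ * s)) := by
      intro s hs
      obtain ⟨δ, hδ0, hδ2, hδ, i, hi, hδi⟩ := exists_step A hp x (fun i => s * u i) hx'
        (by rw [hup, mul_one, hs])
      let x' : ι → ℝ := fun i => x i + δ * (s * u i)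
      have hxp : x' p = x p + δ * s := by simp only [x']; rw [hup, mul_one]
      obtain ⟨Ω, hΩ, P, ε, hP0, hP1, hε, hm, h1⟩ := dgoal_boundary w hw A ih hp (x := x') hδ hi hδi
      refine ⟨δ, hδ0, by rw [← hxp]; exact hδ p hp, Ω, hΩ, P, ε, hP0, hP1, hε, ?_, ?_⟩
      · intro j hj
        rw [hm j hj]
        simp only [x']
        ring
      · intro θ
        have h2 : ∀ o, P o * Real.exp (inner ℝ θ (∑ i ∈ A, (ε o i - x i) • w i)) =
            Real.exp ((δ * s) * inner ℝ θ (resid w A p)) *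
              (P o * Real.exp (inner ℝ θ (∑ i ∈ A, (ε o i - x' i) • w i))) := by
          intro o
          have h3 : ∑ i ∈ A, (ε o i - x i) • w i =
              (δ * s) • resid w A p + ∑ i ∈ A, (ε o i - x' i) • w i := by
            rw [← hbu, Finset.smul_sum, ← Finset.sum_add_distrib]
            refine Finset.sum_congr rfl fun i _ => ?_
            rw [smul_smul, ← add_smul]
            congr 1
            simp only [x']
            ring
          rw [h3, inner_add_right, real_inner_smul_right, Real.exp_add]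
          ring
        simp_rw [h2]
        rw [← Finset.mul_sum]
        have h4 := h1 θ
        rw [hxp] at h4
        exact mul_le_mul_of_nonneg_left h4 (Real.exp_pos _).le
    obtain ⟨δp, hp0, hpx, Ωp, hΩp, Pp, εp, hPp0, hPp1, hεp, hmp, hp3⟩ := hend 1 (by simp)
    obtain ⟨δm, hm0, hmx, Ωm, hΩm, Pm, εm, hPm0, hPm1, hεm, hmm, hm3⟩ := hend (-1) (by simp)
    have hS : 0 < δp + δm := by positivity
    set lp : ℝ := δm / (δp + δm) with hlp
    set lm : ℝ := δp / (δp + δm) with hlm
    have hlp0 : 0 ≤ lp := by rw [hlp]; positivity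
    have hlm0 : 0 ≤ lm := by rw [hlm]; positivity
    have hl1 : lp + lm = 1 := by rw [hlp, hlm]; field_simp; ring
    have hl2 : lp * δp = lm * δm := by rw [hlp, hlm]; field_simp
    refine ⟨Ωp ⊕ Ωm, inferInstance, Sum.elim (fun o => lp * Pp o) (fun o => lm * Pm o),
      Sum.elim εp εm, ?_, ?_, ?_, ?_, ?_⟩
    · rintro (o | o)
      · exact mul_nonneg hlp0 (hPp0 o)
      · exact mul_nonneg hlm0 (hPm0 o)
    · rw [Fintype.sum_sum_type]
      simp only [Sum.elim_inl, Sum.elim_inr]
      rw [← Finset.mul_sum, ← Finset.mul_sum, hPp1, hPm1]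
      linarith
    · rintro (o | o)
      · exact hεp o
      · exact hεm o
    · intro i hi
      rw [Fintype.sum_sum_type]
      simp only [Sum.elim_inl, Sum.elim_inr, mul_assoc]
      rw [← Finset.mul_sum, ← Finset.mul_sum, hmp i hi, hmm i hi]
      have h1 : lp * (x i + δp * 1 * u i) + lm * (x i + δm * -1 * u i) =
          (lp + lm) * x i + (lp * δp - lm * δm) * u i := by ring
      rw [h1, hl1, hl2]
      ring
    · intro θ
      rw [Fintype.sum_sum_type]
      simp only [Sum.elim_inl, Sum.elim_inr, mul_assoc]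
      rw [← Finset.mul_sum, ← Finset.mul_sum]
      set a : ℝ := inner ℝ θ (resid w A p) with ha
      set N : ℝ := Npr w θ A with hN
      have hval : ∀ δ : ℝ, |x p + δ| ≤ 1 → Real.exp (δ * a) * Real.exp (pot w θ A p (x p + δ)) =
          Real.exp (N / 2 - a ^ 2 / 2 - a * x p) *
            ((1 + (x p + δ))/2 * Real.exp a + (1 - (x p + δ))/2 * Real.exp (-a)) := by
        intro δ hδ
        have h1 : pot w θ A p (x p + δ) = N / 2 + (- hh a (x p + δ)) := by
          unfold pot
          ring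
        rw [h1, Real.exp_add, exp_hh a hδ, ← mul_assoc, ← mul_assoc, ← Real.exp_add,
          ← Real.exp_add]
        congr 2
        ring
      have h1 := mul_le_mul_of_nonneg_left (hp3 θ) hlp0
      have h2 := mul_le_mul_of_nonneg_left (hm3 θ) hlm0
      rw [← ha, hval (δp * 1) hpx] at h1
      rw [← ha, hval (δm * -1) hmx] at h2
      have h0 := hval 0 (by rw [add_zero]; exact hx p hp)
      rw [zero_mul, Real.exp_zero, one_mul, add_zero] at h0
      rw [h0]
      refine (add_le_add h1 h2).trans (le_of_eq ?_)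
      have e1 : lp * (Real.exp (N / 2 - a ^ 2 / 2 - a * x p) *
            ((1 + (x p + δp * 1))/2 * Real.exp a + (1 - (x p + δp * 1))/2 * Real.exp (-a))) +
          lm * (Real.exp (N / 2 - a ^ 2 / 2 - a * x p) *
            ((1 + (x p + δm * -1))/2 * Real.exp a + (1 - (x p + δm * -1))/2 * Real.exp (-a))) =
          Real.exp (N / 2 - a ^ 2 / 2 - a * x p) *
            (((lp + lm) * (1 + x p) + (lp * δp - lm * δm))/2 * Real.exp a +
              ((lp + lm) * (1 - x p) - (lp * δp - lm * δm))/2 * Real.exp (-a)) := by ring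
      rw [e1, hl1, hl2]
      ring

end dist

theorem rounding_dist {ι H : Type*} [Fintype ι] [DecidableEq ι] [NormedAddCommGroup H]
    [InnerProductSpace ℝ H] [FiniteDimensional ℝ H] (w : ι → H) (hw : ∀ i, ‖w i‖ ≤ 1)
    (x : ι → ℝ) (hx : ∀ i, |x i| ≤ 1) :
    ∃ (Ω : Type) (_ : Fintype Ω) (P : Ω → ℝ) (ε : Ω → ι → ℝ),
      (∀ o, 0 ≤ P o) ∧ ∑ o, P o = 1 ∧ (∀ o i, ε o i = 1 ∨ ε o i = -1) ∧
      (∀ i, ∑ o, P o * ε o i = x i) ∧
      ∀ θ : H, ∑ o, P o * Real.exp (inner ℝ θ (∑ i, (ε o i - x i) • w i)) ≤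
        Real.exp (‖θ‖^2 / 2) := by
  rcases isEmpty_or_nonempty ι with hι | ⟨⟨p⟩⟩
  · refine ⟨Unit, inferInstance, fun _ => 1, fun _ _ => 1, fun _ => zero_le_one, by simp,
      fun _ _ => Or.inl rfl, fun i => (hι.false i).elim, ?_⟩
    intro θ
    simp only [Finset.univ_eq_empty, Finset.sum_empty, inner_zero_right, Real.exp_zero, mul_one,
      Finset.univ_unique, Finset.sum_singleton]
    exact Real.one_le_exp (by positivity)
  · obtain ⟨Ω, hΩ, P, ε, hP0, hP1, hε, hm, h1⟩ := dgoal_all w hw Finset.univ p (Finset.mem_univ p) x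
      (fun i _ => hx i)
    refine ⟨Ω, hΩ, P, ε, hP0, hP1, hε, fun i => hm i (Finset.mem_univ i), fun θ => ?_⟩
    refine (h1 θ).trans (Real.exp_le_exp.mpr ?_)
    have h2 := pot_le w θ (A := Finset.univ) (p := p) (hx p)
    have h3 := Npr_le w θ (Finset.univ : Finset ι)
    linarith

end P262
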