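import Vale.Agent.P262.RoundH2

/-!
# P262 [H] The function `hh` and the monotonicity lemma for the true subgaussian rounding

`hh a x = a²/2 + a x - log ((1+x)/2 e^a + (1-x)/2 e^(-a))` (`|x| ≤ 1`).
For fixed `x`: `hh 0 x = 0`, derivative in `a`: `a + x - m`, `m = ((1+x)/2 e^a - (1-x)/2 e^(-a))/(…) ∈ [-1,1]`
(zero at `a = 0`), second derivative `1 - (1 - m²) = m² ∈ [0,1]`.  So `hh · x` is convex, `≥ 0`, and
`|hh'(a)| ≤ |a|` with the sign of `a`.  Tangent line: `hh a x - hh (a+q) x ≤ - q * hh'(a) ≤ max 0 (-(a*q))`.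

`Npr_drop`: `i ∈ A`, `i ≠ p`.  `V' = span (A \ p)`, `V'' = span (A \ {p,i})`, `b = w p - P_{V'} w p`,
`b' = w p - P_{V''} w p = b + r`, `r = P_{V'} w p - P_{V''} w p`, `r ⟂ V''`, `r ∈ V'`, `b ⟂ V'`, so `b ⟂ r`,
`‖b‖² + ‖r‖² = ‖b'‖² ≤ 1`; `a = ⟪θ,b⟫`, `q = ⟪θ,r⟫`, `a' = ⟪θ,b'⟫ = a + q`.
`Npr A - Npr (A \ i) ≥ ⟪θ,n⟫²/‖n‖²` with `n = ‖r‖² b - ‖b‖² r` (if `b, r ≠ 0`): `n ∈ V_A`, `n ⟂ V_{A \ i}`
(`V_{A\i} = V'' + span w_p = V'' + span b'`, and `n ⟂ V''`, `n ⟂ b'`).  `‖n‖² = ‖b‖²‖r‖²‖b'‖² ≤ ‖b‖²‖r‖²`,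
`⟪θ,n⟫ = ‖r‖² a - ‖b‖² q`; if `a q < 0` then `⟪θ,n⟫² ≥ 4 ‖r‖²‖b‖² |a q|`, so the difference is
`≥ 4 |a q| ≥ 2 |a q|`.  (If `a q < 0` then automatically `b, r ≠ 0`.)
-/

namespace P262

/-- the function `hh` -/
noncomputable def hh (a x : ℝ) : ℝ :=
  a^2/2 + a * x - Real.log ((1 + x)/2 * Real.exp a + (1 - x)/2 * Real.exp (-a))

/-- the moment generating function of a sign with mean `x` -/
noncomputable def mgfM (a x : ℝ) : ℝ := (1 + x)/2 * Real.exp a + (1 - x)/2 * Real.exp (-a)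

/-- its derivative in `a` -/
noncomputable def mgfN (a x : ℝ) : ℝ := (1 + x)/2 * Real.exp a - (1 - x)/2 * Real.exp (-a)

theorem mgfM_pos (a : ℝ) {x : ℝ} (hx : |x| ≤ 1) : 0 < mgfM a x := by
  unfold mgfM
  have h1 := abs_le.mp hx
  have h2 := Real.exp_pos a
  have h3 := Real.exp_pos (-a)
  rcases le_total x 0 with h | h
  · have h4 : 0 ≤ (1 + x)/2 * Real.exp a := mul_nonneg (by linarith) h2.le
    have h5 : 0 < (1 - x)/2 * Real.exp (-a) := mul_pos (by linarith) h3
    linarith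
  · have h4 : 0 < (1 + x)/2 * Real.exp a := mul_pos (by linarith) h2
    have h5 : 0 ≤ (1 - x)/2 * Real.exp (-a) := mul_nonneg (by linarith) h3.le
    linarith

theorem mgfN_abs (a : ℝ) {x : ℝ} (hx : |x| ≤ 1) : |mgfN a x| ≤ mgfM a x := by
  unfold mgfN mgfM
  have h1 := abs_le.mp hx
  have h4 : 0 ≤ (1 + x)/2 * Real.exp a := mul_nonneg (by linarith) (Real.exp_pos a).le
  have h5 : 0 ≤ (1 - x)/2 * Real.exp (-a) := mul_nonneg (by linarith) (Real.exp_pos (-a)).le
  rw [abs_le]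
  constructor <;> linarith

theorem hasDerivAt_mgfM (a x : ℝ) : HasDerivAt (fun a => mgfM a x) (mgfN a x) a := by
  unfold mgfM mgfN
  have h1 := (Real.hasDerivAt_exp a).const_mul ((1 + x)/2)
  have h2 := ((hasDerivAt_neg a).exp).const_mul ((1 - x)/2)
  have h3 := h1.add h2
  refine h3.congr_deriv ?_
  ring

theorem hasDerivAt_mgfN (a x : ℝ) : HasDerivAt (fun a => mgfN a x) (mgfM a x) a := by
  unfold mgfM mgfN
  have h1 := (Real.hasDerivAt_exp a).const_mul ((1 + x)/2)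
  have h2 := ((hasDerivAt_neg a).exp).const_mul ((1 - x)/2)
  have h3 := h1.sub h2
  refine h3.congr_deriv ?_
  ring

/-- the tilted mean -/
noncomputable def tmean (a x : ℝ) : ℝ := mgfN a x / mgfM a x

theorem tmean_abs (a : ℝ) {x : ℝ} (hx : |x| ≤ 1) : |tmean a x| ≤ 1 := by
  unfold tmean
  rw [abs_div, abs_of_pos (mgfM_pos a hx), div_le_one (mgfM_pos a hx)]
  exact mgfN_abs a hx

theorem hasDerivAt_tmean (a : ℝ) {x : ℝ} (hx : |x| ≤ 1) :
    HasDerivAt (fun a => tmean a x) (1 - tmean a x ^ 2) a := by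
  have h0 := (mgfM_pos a hx).ne'
  have h1 := (hasDerivAt_mgfN a x).div (hasDerivAt_mgfM a x) h0
  refine h1.congr_deriv ?_
  unfold tmean
  field_simp

theorem tmean_zero (x : ℝ) : tmean 0 x = x := by
  unfold tmean mgfN mgfM
  simp only [Real.exp_zero, neg_zero]
  ring

theorem tmean_mono {x : ℝ} (hx : |x| ≤ 1) : Monotone (fun a => tmean a x) := by
  refine monotone_of_deriv_nonneg (fun a => (hasDerivAt_tmean a hx).differentiableAt) fun a => ?_
  rw [(hasDerivAt_tmean a hx).deriv]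
  have h1 := abs_le.mp (tmean_abs a hx)
  nlinarith

/-- the derivative of `hh` -/
noncomputable def dhh (a x : ℝ) : ℝ := a + x - tmean a x

theorem dhh_zero (x : ℝ) : dhh 0 x = 0 := by
  unfold dhh
  rw [tmean_zero]
  ring

theorem dhh_mono {x : ℝ} (hx : |x| ≤ 1) : Monotone (fun a => dhh a x) := by
  have h0 : ∀ a, HasDerivAt (fun a => dhh a x) (tmean a x ^ 2) a := by
    intro a
    have h1 := ((hasDerivAt_id' a).add_const x).sub (hasDerivAt_tmean a hx)
    refine h1.congr_deriv ?_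
    ring
  refine monotone_of_deriv_nonneg (fun a => (h0 a).differentiableAt) fun a => ?_
  rw [(h0 a).deriv]
  positivity

theorem dhh_nonneg {a x : ℝ} (hx : |x| ≤ 1) (ha : 0 ≤ a) : 0 ≤ dhh a x ∧ dhh a x ≤ a := by
  have h1 : dhh 0 x ≤ dhh a x := dhh_mono hx ha
  have h2 : tmean 0 x ≤ tmean a x := tmean_mono hx ha
  rw [dhh_zero] at h1
  rw [tmean_zero] at h2
  refine ⟨h1, ?_⟩
  unfold dhh
  linarith

theorem dhh_nonpos {a x : ℝ} (hx : |x| ≤ 1) (ha : a ≤ 0) : dhh a x ≤ 0 ∧ a ≤ dhh a x := by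
  have h1 : dhh a x ≤ dhh 0 x := dhh_mono hx ha
  have h2 : tmean a x ≤ tmean 0 x := tmean_mono hx ha
  rw [dhh_zero] at h1
  rw [tmean_zero] at h2
  refine ⟨h1, ?_⟩
  unfold dhh
  linarith

theorem hasDerivAt_hh (a : ℝ) {x : ℝ} (hx : |x| ≤ 1) :
    HasDerivAt (fun a => hh a x) (dhh a x) a := by
  have h0 := (mgfM_pos a hx).ne'
  have h1 : HasDerivAt (fun a : ℝ => a ^ 2 / 2 + a * x) (a + x) a := by
    have h2 := ((hasDerivAt_pow 2 a).div_const 2).add ((hasDerivAt_id' a).mul_const x)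
    refine h2.congr_deriv ?_
    norm_num
  have h3 := h1.sub ((hasDerivAt_mgfM a x).log h0)
  exact h3

theorem hh_zero (x : ℝ) : hh 0 x = 0 := by
  unfold hh
  have h1 : (1 + x)/2 * Real.exp 0 + (1 - x)/2 * Real.exp (-0) = 1 := by
    simp only [neg_zero, Real.exp_zero]
    ring
  rw [h1]
  simp

theorem hh_nonneg (a : ℝ) {x : ℝ} (hx : |x| ≤ 1) : 0 ≤ hh a x := by
  have hcont : Continuous (fun a => hh a x) :=
    continuous_iff_continuousAt.mpr fun a => (hasDerivAt_hh a hx).continuousAt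
  rcases le_total 0 a with ha | ha
  · have h1 : MonotoneOn (fun a => hh a x) (Set.Ici 0) := by
      refine monotoneOn_of_deriv_nonneg (convex_Ici 0) hcont.continuousOn
        (fun b _ => (hasDerivAt_hh b hx).differentiableAt.differentiableWithinAt) fun b hb => ?_
      rw [(hasDerivAt_hh b hx).deriv]
      rw [interior_Ici] at hb
      exact (dhh_nonneg hx (le_of_lt hb)).1
    have h2 : hh 0 x ≤ hh a x := h1 (Set.mem_Ici.mpr le_rfl) (Set.mem_Ici.mpr ha) ha
    rwa [hh_zero] at h2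
  · have h1 : AntitoneOn (fun a => hh a x) (Set.Iic 0) := by
      refine antitoneOn_of_deriv_nonpos (convex_Iic 0) hcont.continuousOn
        (fun b _ => (hasDerivAt_hh b hx).differentiableAt.differentiableWithinAt) fun b hb => ?_
      rw [(hasDerivAt_hh b hx).deriv]
      rw [interior_Iic] at hb
      exact (dhh_nonpos hx (le_of_lt hb)).1
    have h2 : hh 0 x ≤ hh a x := h1 (Set.mem_Iic.mpr ha) (Set.mem_Iic.mpr le_rfl) ha
    rwa [hh_zero] at h2

theorem hh_le (a : ℝ) {x : ℝ} (hx : |x| ≤ 1) : hh a x ≤ a^2/2 := by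
  have h0 := abs_le.mp hx
  have h1 := convexOn_exp.2 (Set.mem_univ a) (Set.mem_univ (-a))
    (show 0 ≤ (1 + x)/2 by linarith) (show 0 ≤ (1 - x)/2 by linarith) (by ring)
  simp only [smul_eq_mul] at h1
  have h2 : (1 + x)/2 * a + (1 - x)/2 * -a = a * x := by ring
  rw [h2] at h1
  have h3 := Real.log_le_log (Real.exp_pos _) h1
  rw [Real.log_exp] at h3
  unfold hh
  linarith

/-- at the boundary `hh a (±1) = a²/2` -/
theorem hh_boundary (a : ℝ) {x : ℝ} (hx : |x| = 1) : hh a x = a^2/2 := by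
  unfold hh
  rcases eq_or_eq_neg_of_abs_eq hx with h | h
  · have h1 : (1 + x)/2 * Real.exp a + (1 - x)/2 * Real.exp (-a) = Real.exp a := by
      rw [h]; ring
    rw [h1, Real.log_exp, h]
    ring
  · have h1 : (1 + x)/2 * Real.exp a + (1 - x)/2 * Real.exp (-a) = Real.exp (-a) := by
      rw [h]; ring
    rw [h1, Real.log_exp, h]
    ring

theorem hh_sub_le (a q : ℝ) {x : ℝ} (hx : |x| ≤ 1) : hh a x - hh (a + q) x ≤ max 0 (-(a * q)) := by
  have hM := mgfM_pos a hx
  have hM' := mgfM_pos (a + q) hx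
  have hkey : hh a x - hh (a + q) x ≤ -(q * dhh a x) := by
    have h1 := hh_nonneg q (tmean_abs a hx)
    have h2 : (1 + tmean a x)/2 * Real.exp q + (1 - tmean a x)/2 * Real.exp (-q) =
        mgfM (a + q) x / mgfM a x := by
      unfold tmean
      rw [eq_div_iff hM.ne']
      have h3 : ((1 + mgfN a x / mgfM a x)/2 * Real.exp q +
          (1 - mgfN a x / mgfM a x)/2 * Real.exp (-q)) * mgfM a x =
          (mgfM a x + mgfN a x)/2 * Real.exp q + (mgfM a x - mgfN a x)/2 * Real.exp (-q) := by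
        field_simp
      rw [h3]
      unfold mgfM mgfN
      rw [neg_add, Real.exp_add, Real.exp_add]
      ring
    unfold hh at h1
    rw [h2, Real.log_div hM'.ne' hM.ne'] at h1
    have e1 : hh a x = a^2/2 + a * x - Real.log (mgfM a x) := rfl
    have e2 : hh (a + q) x = (a + q)^2/2 + (a + q) * x - Real.log (mgfM (a + q) x) := rfl
    rw [e1, e2]
    unfold dhh
    nlinarith
  refine hkey.trans ?_
  rcases le_total 0 a with ha | ha
  · obtain ⟨h1, h2⟩ := dhh_nonneg hx ha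
    rcases le_total 0 q with hq | hq
    · refine le_max_of_le_left ?_
      have := mul_nonneg hq h1
      linarith
    · refine le_max_of_le_right ?_
      have := mul_le_mul_of_nonpos_left h2 hq
      linarith
  · obtain ⟨h1, h2⟩ := dhh_nonpos hx ha
    rcases le_total 0 q with hq | hq
    · refine le_max_of_le_right ?_
      have := mul_le_mul_of_nonneg_left h2 hq
      linarith
    · refine le_max_of_le_left ?_
      have := mul_nonneg_of_nonpos_of_nonpos hq h1
      linarith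

/-- `exp (a t - hh a (x+t) )` is affine in `t` up to a factor: the key identity. -/
theorem exp_hh (a : ℝ) {x : ℝ} (hx : |x| ≤ 1) :
    Real.exp (- hh a x) = Real.exp (-(a^2/2) - a * x) *
      ((1 + x)/2 * Real.exp a + (1 - x)/2 * Real.exp (-a)) := by
  have h1 : - hh a x = (-(a^2/2) - a * x) + Real.log (mgfM a x) := by
    unfold hh mgfM
    ring
  rw [h1, Real.exp_add, Real.exp_log (mgfM_pos a hx)]
  rfl

/-- the residual vector of `p` with respect to the other elements of `A` -/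
noncomputable def resid {ι H : Type*} [DecidableEq ι] [NormedAddCommGroup H]
    [InnerProductSpace ℝ H] [FiniteDimensional ℝ H] (w : ι → H) (A : Finset ι) (p : ι) : H :=
  w p - (Submodule.span ℝ (w '' ((A.erase p : Finset ι) : Set ι))).starProjection (w p)

/-- the potential exponent -/
noncomputable def pot {ι H : Type*} [DecidableEq ι] [NormedAddCommGroup H]
    [InnerProductSpace ℝ H] [FiniteDimensional ℝ H] (w : ι → H) (θ : H) (A : Finset ι) (p : ι)
    (t : ℝ) : ℝ :=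
  Npr w θ A / 2 - hh (inner ℝ θ (resid w A p)) t

/-- dropping a non-pivot element decreases the potential -/
theorem pot_drop {ι H : Type*} [DecidableEq ι] [NormedAddCommGroup H]
    [InnerProductSpace ℝ H] [FiniteDimensional ℝ H] (w : ι → H) (hw : ∀ i, ‖w i‖ ≤ 1) (θ : H)
    {A : Finset ι} {p i : ι} (hp : p ∈ A) (hi : i ∈ A) (hip : i ≠ p) {t : ℝ} (ht : |t| ≤ 1) :
    pot w θ (A.erase i) p t ≤ pot w θ A p t := by
  unfold pot
  have h1 := Npr_drop w hw θ hp hi hip (a := inner ℝ θ (resid w A p))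
    (a' := inner ℝ θ (resid w (A.erase i) p)) rfl rfl
  have h2 := hh_sub_le (inner ℝ θ (resid w A p))
    (inner ℝ θ (resid w (A.erase i) p) - inner ℝ θ (resid w A p)) ht
  rw [add_sub_cancel] at h2
  linarith

/-- when the pivot is frozen the potential dominates half the squared projection of the rest -/
theorem pot_frozen {ι H : Type*} [DecidableEq ι] [NormedAddCommGroup H]
    [InnerProductSpace ℝ H] [FiniteDimensional ℝ H] (w : ι → H) (hw : ∀ i, ‖w i‖ ≤ 1) (θ : H)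
    {A : Finset ι} {p : ι} (hp : p ∈ A) {t : ℝ} (ht : |t| = 1) :
    Npr w θ (A.erase p) / 2 ≤ pot w θ A p t := by
  unfold pot
  rw [hh_boundary _ ht]
  have h1 := Npr_frozen w hw θ hp
  have h2 : inner ℝ θ (resid w A p) ^ 2 ≤ Npr w θ A - Npr w θ (A.erase p) := h1
  linarith

theorem pot_le {ι H : Type*} [DecidableEq ι] [NormedAddCommGroup H]
    [InnerProductSpace ℝ H] [FiniteDimensional ℝ H] (w : ι → H) (θ : H)
    {A : Finset ι} {p : ι} {t : ℝ} (ht : |t| ≤ 1) :
    pot w θ A p t ≤ Npr w θ A / 2 := by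
  unfold pot
  have h1 := hh_nonneg (inner ℝ θ (resid w A p)) ht
  linarith

end P262
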