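import Vale.Agent.P262.RoundAux

/-!
# P262 [H2] The projection inequalities behind `pot_drop` and `pot_frozen`

See the header of `RoundH.lean`.
-/

namespace P262

section proj2

variable {ι H : Type*} [NormedAddCommGroup H] [InnerProductSpace ℝ H] [FiniteDimensional ℝ H]

/-- `gs_ineq` for a vector of arbitrary norm -/
theorem gs_ineq' (w : ι → H) (θ b : H) {A B : Finset ι} (h : A ⊆ B)
    (hb : b ∈ Submodule.span ℝ (w '' (B : Set ι)))
    (hb' : ∀ y ∈ Submodule.span ℝ (w '' (A : Set ι)), inner ℝ y b = 0) :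
    (inner ℝ θ b) ^ 2 ≤ ‖b‖ ^ 2 * (Npr w θ B - Npr w θ A) := by
  by_cases hz : b = 0
  · subst hz
    simp
  have hn : 0 < ‖b‖ := norm_pos_iff.mpr hz
  have h1 := gs_ineq w θ ((‖b‖)⁻¹ • b) h (Submodule.smul_mem _ _ hb)
    (fun y hy => by rw [real_inner_smul_right, hb' y hy, mul_zero])
    (by rw [norm_smul, norm_inv, norm_norm, inv_mul_cancel₀ hn.ne'])
  rw [real_inner_smul_right, mul_pow] at h1
  have h2 := mul_le_mul_of_nonneg_left h1 (sq_nonneg ‖b‖)
  rw [← mul_assoc, ← mul_pow, mul_inv_cancel₀ hn.ne', one_pow, one_mul] at h2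
  exact h2

theorem resid_norm_le (w : ι → H) (hw : ∀ i, ‖w i‖ ≤ 1) (V : Submodule ℝ H) (p : ι) :
    ‖w p - V.starProjection (w p)‖ ^ 2 ≤ 1 := by
  have h2 := Submodule.norm_sq_eq_add_norm_sq_starProjection (w p) V
  rw [Submodule.starProjection_orthogonal_val] at h2
  have h4 : ‖w p‖ ^ 2 ≤ 1 := pow_le_one₀ (norm_nonneg _) (hw p)
  have h5 : 0 ≤ ‖V.starProjection (w p)‖ ^ 2 := by positivity
  linarith

variable [DecidableEq ι]

theorem Npr_frozen (w : ι → H) (hw : ∀ i, ‖w i‖ ≤ 1) (θ : H) {A : Finset ι} {p : ι} (hp : p ∈ A) :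
    (inner ℝ θ (w p - (Submodule.span ℝ
      (w '' ((A.erase p : Finset ι) : Set ι))).starProjection (w p))) ^ 2 ≤
      Npr w θ A - Npr w θ (A.erase p) := by
  set V' := Submodule.span ℝ (w '' ((A.erase p : Finset ι) : Set ι)) with hV'
  have hle : V' ≤ Submodule.span ℝ (w '' (A : Set ι)) :=
    Submodule.span_mono (Set.image_mono (Finset.coe_subset.mpr (Finset.erase_subset p A)))
  refine gs_ineq w θ _ (Finset.erase_subset p A) ?_ ?_ ?_
  · refine Submodule.sub_mem _ (Submodule.subset_span ⟨p, hp, rfl⟩) (hle ?_)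
    exact V'.starProjection_apply_mem (w p)
  · intro y hy
    rw [real_inner_comm]
    exact V'.starProjection_inner_eq_zero (w p) y hy
  · exact (sq_le_one_iff₀ (norm_nonneg _)).mp (resid_norm_le w hw V' p)

theorem Npr_drop (w : ι → H) (hw : ∀ i, ‖w i‖ ≤ 1) (θ : H) {A : Finset ι} {p i : ι}
    (hp : p ∈ A) (hi : i ∈ A) (hip : i ≠ p) {a a' : ℝ}
    (ha : a = inner ℝ θ (w p - (Submodule.span ℝ
      (w '' ((A.erase p : Finset ι) : Set ι))).starProjection (w p)))
    (ha' : a' = inner ℝ θ (w p - (Submodule.span ℝ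
      (w '' (((A.erase i).erase p : Finset ι) : Set ι))).starProjection (w p))) :
    max 0 (-(a * (a' - a))) ≤ (Npr w θ A - Npr w θ (A.erase i)) / 2 := by
  have hmono : Npr w θ (A.erase i) ≤ Npr w θ A := Npr_mono w θ (Finset.erase_subset i A)
  rw [max_le_iff]
  refine ⟨by linarith, ?_⟩
  by_cases hq : 0 ≤ a * (a' - a)
  · linarith
  push Not at hq
  set V := Submodule.span ℝ (w '' (A : Set ι)) with hV
  set V' := Submodule.span ℝ (w '' ((A.erase p : Finset ι) : Set ι)) with hV'
  set V'' := Submodule.span ℝ (w '' (((A.erase i).erase p : Finset ι) : Set ι)) with hV''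
  have hle : V' ≤ V :=
    Submodule.span_mono (Set.image_mono (Finset.coe_subset.mpr (Finset.erase_subset p A)))
  have hle' : V'' ≤ V' :=
    Submodule.span_mono (Set.image_mono (Finset.coe_subset.mpr
      (Finset.erase_subset_erase p (Finset.erase_subset i A))))
  set b := w p - V'.starProjection (w p) with hb
  set b' := w p - V''.starProjection (w p) with hb'
  set r := b' - b with hr
  have hr' : r = V'.starProjection (w p) - V''.starProjection (w p) := by
    rw [hr, hb, hb']; abel
  have hrV : r ∈ V' := by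
    rw [hr']
    exact Submodule.sub_mem _ (V'.starProjection_apply_mem (w p))
      (hle' (V''.starProjection_apply_mem (w p)))
  have hborth : ∀ y ∈ V', inner ℝ y b = 0 := by
    intro y hy
    rw [real_inner_comm]
    exact V'.starProjection_inner_eq_zero (w p) y hy
  have hborth' : ∀ y ∈ V'', inner ℝ y b' = 0 := by
    intro y hy
    rw [real_inner_comm]
    exact V''.starProjection_inner_eq_zero (w p) y hy
  have hrorth : ∀ y ∈ V'', inner ℝ y r = 0 := by
    intro y hy
    rw [hr, inner_sub_right, hborth' y hy, hborth y (hle' hy), sub_zero]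
  have hbr : inner ℝ r b = 0 := hborth r hrV
  have hbr' : inner ℝ b r = 0 := by rw [real_inner_comm]; exact hbr
  have hqr : a' - a = inner ℝ θ r := by rw [hr, inner_sub_right, ← ha, ← ha']
  rw [hqr] at hq ⊢
  set q : ℝ := inner ℝ θ r with hqdef
  have hb0 : b ≠ 0 := by
    intro h
    rw [ha, h, inner_zero_right, zero_mul] at hq
    exact lt_irrefl _ hq
  have hr0 : r ≠ 0 := by
    intro h
    rw [hqdef, h, inner_zero_right, mul_zero] at hq
    exact lt_irrefl _ hq
  set B : ℝ := ‖b‖ ^ 2 with hB
  set R : ℝ := ‖r‖ ^ 2 with hR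
  have hBpos : 0 < B := by rw [hB]; have := norm_pos_iff.mpr hb0; positivity
  have hRpos : 0 < R := by rw [hR]; have := norm_pos_iff.mpr hr0; positivity
  have hsum : B + R ≤ 1 := by
    have h1 := resid_norm_le w hw V'' p
    rw [← hb'] at h1
    have h2 : b' = b + r := by rw [hr]; abel
    have h3 : ‖b + r‖ ^ 2 = B + R := by
      rw [norm_add_sq_real, hbr']
      ring
    rw [h2, h3] at h1
    exact h1
  set n : H := R • b - B • r with hn
  have hbb : inner ℝ b b = B := by rw [hB]; exact real_inner_self_eq_norm_sq b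
  have hrr : inner ℝ r r = R := by rw [hR]; exact real_inner_self_eq_norm_sq r
  have hnn : ‖n‖ ^ 2 = B * R * (B + R) := by
    rw [← real_inner_self_eq_norm_sq, hn]
    simp only [inner_sub_left, inner_sub_right, real_inner_smul_left, real_inner_smul_right, hbb,
      hrr, hbr, hbr']
    ring
  have hnV : n ∈ V := by
    rw [hn]
    refine Submodule.sub_mem _ (Submodule.smul_mem _ _ ?_) (Submodule.smul_mem _ _ (hle hrV))
    rw [hb]
    exact Submodule.sub_mem _ (Submodule.subset_span ⟨p, hp, rfl⟩)
      (hle (V'.starProjection_apply_mem (w p)))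
  have hnorth : ∀ y ∈ Submodule.span ℝ (w '' ((A.erase i : Finset ι) : Set ι)),
      inner ℝ y n = 0 := by
    intro y hy
    induction hy using Submodule.span_induction with
    | mem y hy =>
      obtain ⟨j, hj, rfl⟩ := hy
      by_cases hjp : j = p
      · subst hjp
        have h2 : w j = b + r + V''.starProjection (w j) := by rw [hr, hb']; abel
        have h3 : inner ℝ (V''.starProjection (w j)) b = 0 :=
          hborth _ (hle' (V''.starProjection_apply_mem (w j)))
        have h4 : inner ℝ (V''.starProjection (w j)) r = 0 :=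
          hrorth _ (V''.starProjection_apply_mem (w j))
        rw [h2, hn]
        simp only [inner_sub_right, inner_add_left, real_inner_smul_right, hbb, hrr, hbr, hbr',
          h3, h4]
        ring
      · have h1 : w j ∈ V'' := by
          refine Submodule.subset_span ⟨j, ?_, rfl⟩
          have : j ∈ A.erase i := Finset.mem_coe.mp hj
          exact Finset.mem_coe.mpr (Finset.mem_erase.mpr ⟨hjp, this⟩)
        rw [hn, inner_sub_right, real_inner_smul_right, real_inner_smul_right, hborth _ (hle' h1),
          hrorth _ h1]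
        ring
    | zero => exact inner_zero_left _
    | add x y _ _ hx hy => rw [inner_add_left, hx, hy, add_zero]
    | smul c x _ hx => rw [real_inner_smul_left, hx, mul_zero]
  have hmain := gs_ineq' w θ n (Finset.erase_subset i A) hnV hnorth
  have htn : inner ℝ θ n = R * a - B * q := by
    rw [hn, inner_sub_right, real_inner_smul_right, real_inner_smul_right, ← ha]
  rw [htn, hnn] at hmain
  set D : ℝ := Npr w θ A - Npr w θ (A.erase i) with hD
  have hD0 : 0 ≤ D := by rw [hD]; linarith
  have h1 : B * R * (B + R) * D ≤ B * R * D := by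
    have : B * R * D * (B + R) ≤ B * R * D * 1 :=
      mul_le_mul_of_nonneg_left hsum (by positivity)
    nlinarith
  have h2 : -(4 * (B * R) * (a * q)) ≤ (R * a - B * q) ^ 2 := by
    nlinarith [sq_nonneg (R * a + B * q)]
  have h3 : B * R * (-(4 * (a * q))) ≤ B * R * D := by nlinarith
  have h4 : -(4 * (a * q)) ≤ D := le_of_mul_le_mul_left h3 (by positivity)
  linarith

end proj2

end P262
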