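import Vale.Agent.P262.RoundD

/-!
# P262 [Q] Rounding with sup bounds for all features and a quadratic bound for some of them

Apply `rounding_dist` to `w e = f e / 2` in `EuclideanSpace ℝ κ`; `Z k = ∑ e ∈ G, (ε e - x e) * f e k`.
`E Z k = 0`, `E exp (t Z k) ≤ exp (2 t²)` for all real `t` (`θ = 2 t e_k`).
`E (Z k)² ≤ 8 (e^{1/2} - 1) ≤ 5.2` (from `t = ±1/2` and `e^y + e^{-y} ≥ 2 + y²`).
If `S ≠ ∅`: with `m = card κ`, `t > 0`, `ω = |S|/(m e^{2t²})` the potential
`F = ∑_{k∈S} (u k + Z k/2)² + ω ∑_k (cosh (t Z k) - 1)` has `E F ≤ ∑_S u k² + 2.3 |S|`; take an outcome with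
`F ≤ E F`.  Then `ω (cosh (t Z k) - 1) ≤ U + 2.3 |S|`, so `exp (t |Z k|) ≤ 2 m e^{2t²} (U + 4)`,
`|Z k| ≤ 2 t + L/t`, `L = log (2 m (U+4))`; `t = √(L/2)` gives `|Z k| ≤ 2 √2 √L ≤ 3 √L`.
If `S = ∅`: use `F = ∑_k cosh (t Z k)`.
-/

namespace P262

/-- the distribution in terms of the features -/
theorem rounding_feat {ι κ : Type*} [DecidableEq ι] [Fintype κ] [DecidableEq κ]
    (G : Finset ι) (f : ι → κ → ℝ) (hf : ∀ e ∈ G, ∑ k, f e k ^ 2 ≤ 4)
    (x : ι → ℝ) (hx : ∀ e ∈ G, |x e| ≤ 1) :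
    ∃ (Ω : Type) (_ : Fintype Ω) (P : Ω → ℝ) (ε : Ω → ι → ℝ),
      (∀ o, 0 ≤ P o) ∧ ∑ o, P o = 1 ∧ (∀ o i, ε o i = 1 ∨ ε o i = -1) ∧
      (∀ k, ∑ o, P o * (∑ e ∈ G, (ε o e - x e) * f e k) = 0) ∧
      ∀ k, ∀ t : ℝ, ∑ o, P o * Real.exp (t * ∑ e ∈ G, (ε o e - x e) * f e k) ≤
        Real.exp (2 * t ^ 2) := by
  classical
  let w : {e // e ∈ G} → EuclideanSpace ℝ κ := fun e => WithLp.toLp 2 fun k => f e k / 2
  have hw : ∀ e, ‖w e‖ ≤ 1 := by
    intro e
    have h1 : ‖w e‖ ^ 2 ≤ 1 := by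
      rw [EuclideanSpace.norm_sq_eq]
      have h2 : ∑ k, ‖(w e) k‖ ^ 2 = (∑ k, f e k ^ 2) / 4 := by
        rw [Finset.sum_div]
        refine Finset.sum_congr rfl fun k _ => ?_
        simp only [w, Real.norm_eq_abs, sq_abs]
        ring
      rw [h2]
      have := hf e e.2
      linarith
    exact (sq_le_one_iff₀ (norm_nonneg _)).mp h1
  obtain ⟨Ω, hΩ, P, ε, hP0, hP1, hε, hmean, hsub⟩ := rounding_dist w hw (fun e => x e)
    (fun e => hx e e.2)
  let ε' : Ω → ι → ℝ := fun o i => if h : i ∈ G then ε o ⟨i, h⟩ else 1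
  have hsum : ∀ o k, ∑ e ∈ G, (ε' o e - x e) * f e k =
      ∑ e : {e // e ∈ G}, (ε o e - x e) * f e k := by
    intro o k
    rw [← Finset.sum_coe_sort G]
    refine Finset.sum_congr rfl fun e _ => ?_
    simp only [ε']
    rw [dif_pos e.2]
  refine ⟨Ω, hΩ, P, ε', hP0, hP1, ?_, ?_, ?_⟩
  · intro o i
    simp only [ε']
    split_ifs with h
    · exact hε o _
    · exact Or.inl rfl
  · intro k
    simp_rw [hsum, Finset.mul_sum]
    rw [Finset.sum_comm]
    refine Finset.sum_eq_zero fun e _ => ?_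
    have h1 : ∑ o, P o * ((ε o e - x e) * f e k) =
        (∑ o, P o * ε o e - (∑ o, P o) * x e) * f e k := by
      rw [Finset.sum_mul, ← Finset.sum_sub_distrib, Finset.sum_mul]
      refine Finset.sum_congr rfl fun o _ => ?_
      ring
    rw [h1, hmean e, hP1]
    ring
  · intro k t
    have h1 := hsub (EuclideanSpace.single k (2 * t))
    have h2 : ‖EuclideanSpace.single k (2 * t)‖ ^ 2 / 2 = 2 * t ^ 2 := by
      rw [EuclideanSpace.norm_single, Real.norm_eq_abs, sq_abs]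
      ring
    rw [h2] at h1
    refine le_trans (le_of_eq ?_) h1
    refine Finset.sum_congr rfl fun o _ => ?_
    congr 2
    rw [hsum, inner_sum, Finset.mul_sum]
    refine Finset.sum_congr rfl fun e _ => ?_
    rw [real_inner_smul_right, EuclideanSpace.inner_single_left]
    simp only [w, conj_trivial]
    ring

/-- `e^y + e^{-y} ≥ 2 + y²` -/
theorem cosh_ge (y : ℝ) : 1 + y ^ 2 / 2 ≤ Real.cosh y := by
  have h0 : ∀ z : ℝ, 0 ≤ z → z ^ 2 ≤ Real.sinh z ^ 2 := fun z hz =>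
    pow_le_pow_left₀ hz (Real.self_le_sinh_iff.mpr hz) 2
  have h1 : (y / 2) ^ 2 ≤ Real.sinh (y / 2) ^ 2 := by
    rcases le_total 0 (y / 2) with h | h
    · exact h0 _ h
    · have h2 := h0 (-(y / 2)) (by linarith)
      rw [Real.sinh_neg, neg_sq, neg_sq] at h2
      exact h2
  have h3 : Real.cosh y = 1 + 2 * Real.sinh (y / 2) ^ 2 := by
    have h4 := Real.cosh_two_mul (y / 2)
    rw [mul_div_cancel₀ y (two_ne_zero), Real.cosh_sq'] at h4
    linarith
  nlinarith

theorem rounding_quad {ι κ : Type*} [DecidableEq ι] [Fintype κ] [DecidableEq κ] [Nonempty κ]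
    (G : Finset ι) (f : ι → κ → ℝ) (hf : ∀ e ∈ G, ∑ k, f e k ^ 2 ≤ 4)
    (x : ι → ℝ) (hx : ∀ e ∈ G, |x e| ≤ 1) (S : Finset κ) (u : κ → ℝ) (U : ℝ)
    (hU : ∑ k ∈ S, u k ^ 2 ≤ U) :
    ∃ ε : ι → ℝ, (∀ e, ε e = 1 ∨ ε e = -1) ∧
      (∀ k, |∑ e ∈ G, (ε e - x e) * f e k| ≤
        3 * Real.sqrt (Real.log (2 * Fintype.card κ * (U + 4)))) ∧
      ∑ k ∈ S, (u k + (∑ e ∈ G, (ε e - x e) * f e k) / 2) ^ 2 ≤
        ∑ k ∈ S, u k ^ 2 + 3 * S.card := by
  obtain ⟨Ω, hΩ, P, ε, hP0, hP1, hε, hmean, hsub⟩ := rounding_feat G f hf x hx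
  set Z : Ω → κ → ℝ := fun o k => ∑ e ∈ G, (ε o e - x e) * f e k with hZ
  change ∀ k, ∑ o, P o * Z o k = 0 at hmean
  change ∀ k, ∀ t : ℝ, ∑ o, P o * Real.exp (t * Z o k) ≤ Real.exp (2 * t ^ 2) at hsub
  have hU0 : 0 ≤ U := le_trans (Finset.sum_nonneg fun k _ => sq_nonneg _) hU
  set m : ℝ := (Fintype.card κ : ℝ) with hm
  have hm1 : 1 ≤ m := by
    rw [hm]
    exact_mod_cast Fintype.card_pos
  set L : ℝ := Real.log (2 * m * (U + 4)) with hL
  have hLpos : 0 < L := by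
    rw [hL]
    refine Real.log_pos ?_
    nlinarith
  have hLexp : Real.exp L = 2 * m * (U + 4) := by
    rw [hL]
    exact Real.exp_log (by nlinarith)
  set t : ℝ := Real.sqrt (L / 2) with ht
  have htpos : 0 < t := by rw [ht]; exact Real.sqrt_pos.mpr (by linarith)
  have ht2 : t ^ 2 = L / 2 := by rw [ht]; exact Real.sq_sqrt (by linarith)
  -- expectations
  have hcosh : ∀ k, ∀ s : ℝ, ∑ o, P o * Real.cosh (s * Z o k) ≤ Real.exp (2 * s ^ 2) := by
    intro k s
    have h1 := hsub k s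
    have h2 := hsub k (-s)
    have h3 : ∑ o, P o * Real.cosh (s * Z o k) =
        (∑ o, P o * Real.exp (s * Z o k) + ∑ o, P o * Real.exp (-s * Z o k)) / 2 := by
      rw [← Finset.sum_add_distrib, Finset.sum_div]
      refine Finset.sum_congr rfl fun o _ => ?_
      rw [Real.cosh_eq, neg_mul]
      ring
    rw [h3]
    rw [neg_sq] at h2
    linarith
  have hvar : ∀ k, ∑ o, P o * Z o k ^ 2 ≤ 26 / 5 := by
    intro k
    have h1 := hcosh k (1 / 2)
    have h2 : ∑ o, P o * (1 + (1 / 2 * Z o k) ^ 2 / 2) ≤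
        ∑ o, P o * Real.cosh (1 / 2 * Z o k) :=
      Finset.sum_le_sum fun o _ => mul_le_mul_of_nonneg_left (cosh_ge _) (hP0 o)
    have h3 : ∑ o, P o * (1 + (1 / 2 * Z o k) ^ 2 / 2) = 1 + (∑ o, P o * Z o k ^ 2) / 8 := by
      have h4 : ∑ o, P o * (1 + (1 / 2 * Z o k) ^ 2 / 2) =
          ∑ o, P o + (∑ o, P o * Z o k ^ 2) / 8 := by
        rw [Finset.sum_div, ← Finset.sum_add_distrib]
        refine Finset.sum_congr rfl fun o _ => ?_
        ring
      rw [h4, hP1]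
    have h4 : Real.exp (2 * (1 / 2) ^ 2) ≤ 33 / 20 := by
      have h5 : Real.exp (2 * (1 / 2) ^ 2) ^ 2 = Real.exp 1 := by
        rw [← Real.exp_nat_mul]
        norm_num
      have h6 : Real.exp 1 < 2.7182818286 := Real.exp_one_lt_d9
      by_contra hcon
      push Not at hcon
      have h7 : (33 / 20 : ℝ) ^ 2 < Real.exp (2 * (1 / 2) ^ 2) ^ 2 :=
        pow_lt_pow_left₀ hcon (by norm_num) (by norm_num)
      rw [h5] at h7
      norm_num at h7
      linarith
    linarith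
  set c : ℝ := if S = ∅ then 1 else (S.card : ℝ) with hc
  have hc1 : 1 ≤ c := by
    rw [hc]
    split_ifs with h
    · exact le_rfl
    · exact_mod_cast Finset.card_pos.mpr (Finset.nonempty_iff_ne_empty.mpr h)
  have hSc : (S.card : ℝ) ≤ c := by
    rw [hc]
    split_ifs with h
    · rw [h]; simp
    · exact le_rfl
  set ω : ℝ := c / (m * Real.exp (2 * t ^ 2)) with hω
  have hωpos : 0 < ω := by rw [hω]; positivity
  have hωm : ω * (m * Real.exp (2 * t ^ 2)) = c := by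
    rw [hω]
    field_simp
  let F : Ω → ℝ := fun o => ∑ k ∈ S, (u k + Z o k / 2) ^ 2 + ω * ∑ k, (Real.cosh (t * Z o k) - 1)
  have hEF : ∑ o, P o * F o ≤ ∑ k ∈ S, u k ^ 2 + 13 / 10 * S.card + c := by
    have h1 : ∑ o, P o * F o = ∑ k ∈ S, (∑ o, P o * (u k + Z o k / 2) ^ 2) +
        ω * ∑ k, ∑ o, P o * (Real.cosh (t * Z o k) - 1) := by
      simp only [F]
      simp_rw [mul_add, Finset.sum_add_distrib]
      congr 1
      · simp_rw [Finset.mul_sum]
        rw [Finset.sum_comm]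
      · rw [Finset.sum_comm, Finset.mul_sum]
        refine Finset.sum_congr rfl fun o _ => ?_
        rw [Finset.mul_sum, Finset.mul_sum, Finset.mul_sum]
        refine Finset.sum_congr rfl fun k _ => ?_
        ring
    have h2 : ∀ k, ∑ o, P o * (u k + Z o k / 2) ^ 2 ≤ u k ^ 2 + 13 / 10 := by
      intro k
      have h3 : ∑ o, P o * (u k + Z o k / 2) ^ 2 =
          (∑ o, P o) * u k ^ 2 + (∑ o, P o * Z o k) * u k + (∑ o, P o * Z o k ^ 2) / 4 := by
        rw [Finset.sum_mul, Finset.sum_mul, Finset.sum_div, ← Finset.sum_add_distrib,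
          ← Finset.sum_add_distrib]
        refine Finset.sum_congr rfl fun o _ => ?_
        ring
      rw [h3, hP1, hmean k]
      have := hvar k
      linarith
    have h4 : ∀ k, ∑ o, P o * (Real.cosh (t * Z o k) - 1) ≤ Real.exp (2 * t ^ 2) := by
      intro k
      refine le_trans (Finset.sum_le_sum fun o _ => ?_) (hcosh k t)
      exact mul_le_mul_of_nonneg_left (by linarith) (hP0 o)
    have h5 : ∑ k ∈ S, (∑ o, P o * (u k + Z o k / 2) ^ 2) ≤
        ∑ k ∈ S, u k ^ 2 + 13 / 10 * S.card := by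
      refine (Finset.sum_le_sum fun k _ => h2 k).trans (le_of_eq ?_)
      rw [Finset.sum_add_distrib, Finset.sum_const, nsmul_eq_mul]
      ring
    have h6 : ∑ k : κ, ∑ o, P o * (Real.cosh (t * Z o k) - 1) ≤ m * Real.exp (2 * t ^ 2) := by
      refine (Finset.sum_le_sum fun k _ => h4 k).trans (le_of_eq ?_)
      rw [Finset.sum_const, nsmul_eq_mul, Finset.card_univ]
    have h7 := mul_le_mul_of_nonneg_left h6 hωpos.le
    rw [hωm] at h7
    rw [h1]
    linarith
  -- a good outcome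
  obtain ⟨o, ho⟩ : ∃ o, F o ≤ ∑ k ∈ S, u k ^ 2 + 13 / 10 * S.card + c := by
    by_contra hcon
    push Not at hcon
    have h1 : ∑ o, P o * (∑ k ∈ S, u k ^ 2 + 13 / 10 * S.card + c) < ∑ o, P o * F o := by
      refine Finset.sum_lt_sum (fun o _ => mul_le_mul_of_nonneg_left (hcon o).le (hP0 o)) ?_
      by_contra h2
      push Not at h2
      have h3 : ∀ o, P o = 0 := by
        intro o
        by_contra h4
        have h5 : 0 < P o := lt_of_le_of_ne (hP0 o) (Ne.symm h4)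
        have h6 := mul_lt_mul_of_pos_left (hcon o) h5
        have h7 := h2 o (Finset.mem_univ o)
        linarith
      simp [h3] at hP1
    rw [← Finset.sum_mul, hP1, one_mul] at h1
    linarith
  have hcosh1 : ∀ k, 0 ≤ Real.cosh (t * Z o k) - 1 := fun k => by
    have := Real.one_le_cosh (t * Z o k)
    linarith
  have hsq0 : 0 ≤ ∑ k ∈ S, (u k + Z o k / 2) ^ 2 := Finset.sum_nonneg fun k _ => sq_nonneg _
  have hch0 : 0 ≤ ω * ∑ k, (Real.cosh (t * Z o k) - 1) :=
    mul_nonneg hωpos.le (Finset.sum_nonneg fun k _ => hcosh1 k)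
  refine ⟨ε o, hε o, ?_, ?_⟩
  · intro k
    change |Z o k| ≤ 3 * Real.sqrt L
    have h1 : Real.cosh (t * Z o k) - 1 ≤ ∑ k, (Real.cosh (t * Z o k) - 1) :=
      Finset.single_le_sum (f := fun k => Real.cosh (t * Z o k) - 1) (fun k _ => hcosh1 k)
        (Finset.mem_univ k)
    have h2 : ω * (Real.cosh (t * Z o k) - 1) ≤ U + 23 / 10 * c := by
      have h3 := mul_le_mul_of_nonneg_left h1 hωpos.le
      simp only [F] at ho
      linarith
    have h4 : Real.cosh (t * Z o k) - 1 ≤ (U + 23 / 10) * (m * Real.exp (2 * t ^ 2)) := by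
      have h5 : c * (Real.cosh (t * Z o k) - 1) ≤
          (U + 23 / 10 * c) * (m * Real.exp (2 * t ^ 2)) := by
        have h6 := mul_le_mul_of_nonneg_right h2 (show 0 ≤ m * Real.exp (2 * t ^ 2) by positivity)
        calc c * (Real.cosh (t * Z o k) - 1) =
            ω * (m * Real.exp (2 * t ^ 2)) * (Real.cosh (t * Z o k) - 1) := by rw [hωm]
          _ = ω * (Real.cosh (t * Z o k) - 1) * (m * Real.exp (2 * t ^ 2)) := by ring
          _ ≤ _ := h6
      have h7 : (U + 23 / 10 * c) * (m * Real.exp (2 * t ^ 2)) ≤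
          c * ((U + 23 / 10) * (m * Real.exp (2 * t ^ 2))) := by
        have h8 : U + 23 / 10 * c ≤ c * (U + 23 / 10) := by nlinarith
        calc _ ≤ c * (U + 23 / 10) * (m * Real.exp (2 * t ^ 2)) :=
              mul_le_mul_of_nonneg_right h8 (by positivity)
          _ = _ := by ring
      exact le_of_mul_le_mul_left (h5.trans h7) (by linarith)
    have hE1 : 1 ≤ m * Real.exp (2 * t ^ 2) := by
      have : 1 ≤ Real.exp (2 * t ^ 2) := Real.one_le_exp (by positivity)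
      nlinarith
    have h9 : Real.cosh (t * Z o k) ≤ (U + 4) * (m * Real.exp (2 * t ^ 2)) := by nlinarith
    have h10 : Real.exp (t * |Z o k|) ≤ 2 * Real.cosh (t * Z o k) := by
      have h11 : Real.cosh (t * Z o k) = Real.cosh (t * |Z o k|) := by
        rw [← Real.cosh_abs (t * Z o k), abs_mul, abs_of_pos htpos]
      rw [h11, Real.cosh_eq]
      have := Real.exp_pos (-(t * |Z o k|))
      linarith
    have h12 : Real.exp (t * |Z o k|) ≤ Real.exp (2 * t ^ 2 + L) := by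
      rw [Real.exp_add, hLexp]
      nlinarith
    have h13 : t * |Z o k| ≤ 2 * t ^ 2 + L := Real.exp_le_exp.mp h12
    have h14 : t * |Z o k| ≤ t * (4 * t) := by
      have : L = 2 * t ^ 2 := by rw [ht2]; ring
      rw [this] at h13
      linarith
    have h15 : |Z o k| ≤ 4 * t := le_of_mul_le_mul_left h14 htpos
    refine h15.trans ?_
    have h16 : (4 * t) ^ 2 ≤ (3 * Real.sqrt L) ^ 2 := by
      rw [mul_pow, mul_pow, ht2, Real.sq_sqrt hLpos.le]
      linarith
    exact le_of_sq_le_sq h16 (by positivity)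
  · change ∑ k ∈ S, (u k + Z o k / 2) ^ 2 ≤ ∑ k ∈ S, u k ^ 2 + 3 * S.card
    by_cases hS : S = ∅
    · subst hS; simp
    · have h1 : c = S.card := by rw [hc, if_neg hS]
      simp only [F] at ho
      rw [h1] at ho
      have : (0:ℝ) ≤ S.card := by positivity
      linarith

end P262
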