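import Vale.Agent.P262.Round
import Vale.Agent.P262.Linear
import Vale.Agent.P262.Params

/-!
# P262 [T] The splitting step (helper21)
-/

namespace P262

/-- Invariants of a node `G` of the tree, with entry point `a`, exit point `c` and scale `κ`. -/
structure Inv {ι : Type*} {d : ℕ} (v b : ι → Fin d → ℝ) (K : Fin d → ℝ) (G : Finset ι)
    (a c : Fin d → ℝ) (κ : ℝ) : Prop where
  κpos : 0 < κ
  hend : ∀ i, c i = a i + ∑ e ∈ G, v e i
  hTV : ∀ i, ∑ e ∈ G, |v e i| ≤ d * (κ * K i) * (1 + 2 * Zf K κ) + 2 * ell d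
  hQ : ∀ i l, |∑ e ∈ G, v e i * b e l - (if i = l then κ * K i else 0)| ≤
    2 * d * (κ * K i) * Zf K κ + 2 * ell d
  hfat : ∀ i, lam d ≤ κ * K i → |a i| ≤ ell d / 2 ∧ |c i| ≤ ell d / 2
  hmid : ∀ i, κ * K i < lam d → 1 / (d : ℝ) ≤ κ * K i → |a i| ≤ Bf K κ i ∧ |c i| ≤ Bf K κ i
  hdone : ∀ i, κ * K i < 1 / (d : ℝ) → |a i| + ∑ e ∈ G, |v e i| ≤ Bstar d

/-- Weighted sums over the two halves. -/
theorem sum_half {ι : Type*} [DecidableEq ι] (G : Finset ι) (ε x f : ι → ℝ)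
    (hε : ∀ e, ε e = 1 ∨ ε e = -1) :
    ∑ e ∈ G with ε e = 1, f e = (∑ e ∈ G, f e + ∑ e ∈ G, x e * f e + ∑ e ∈ G, (ε e - x e) * f e) / 2
    ∧ ∑ e ∈ G \ (G.filter (fun e => ε e = 1)), f e =
      (∑ e ∈ G, f e - ∑ e ∈ G, x e * f e - ∑ e ∈ G, (ε e - x e) * f e) / 2 := by
  have h1 : ∑ e ∈ G with ε e = 1, f e = (∑ e ∈ G, f e + ∑ e ∈ G, ε e * f e) / 2 := by
    rw [Finset.sum_filter, ← Finset.sum_add_distrib, Finset.sum_div]
    refine Finset.sum_congr rfl fun e _ => ?_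
    rcases hε e with h | h
    · simp [h]
    · rw [h, if_neg (by norm_num)]; ring
  have h2 : ∑ e ∈ G, (ε e - x e) * f e = ∑ e ∈ G, ε e * f e - ∑ e ∈ G, x e * f e := by
    rw [← Finset.sum_sub_distrib]; exact Finset.sum_congr rfl fun e _ => by ring
  have h3 := Finset.sum_sdiff (f := f) (Finset.filter_subset (fun e => ε e = 1) G)
  constructor
  · rw [h1, h2]; ring
  · rw [h2]; rw [h1] at h3; linarith

theorem abs_le_one_of_sum_sq {d : ℕ} {f : Fin d → ℝ} (h : ∑ i, f i ^ 2 ≤ 1) (i : Fin d) :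
    |f i| ≤ 1 := by
  have h1 : f i ^ 2 ≤ ∑ i, f i ^ 2 :=
    Finset.single_le_sum (f := fun i => f i ^ 2) (fun j _ => sq_nonneg _) (Finset.mem_univ i)
  exact abs_le_one_iff_mul_self_le_one.mpr (by nlinarith)

/-- Numerical facts about the parameters, in multiplied-out form. -/
theorem param_facts {d : ℕ} (hd : 1 ≤ d) {K : Fin d → ℝ} (hK : ∀ i, 0 ≤ K i) {κ : ℝ}
    (κpos : 0 < κ) :
    0 ≤ Zf K κ ∧ 0 ≤ zeta K κ ∧ Zf K κ + zeta K κ ≤ Zf K (κ/2) ∧ Zf K (κ/2) ≤ 1/200 ∧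
      Zf K κ * (10 * (d:ℝ)^3 * ell d) ≤ 1 ∧ zeta K κ * (10 * (d:ℝ)^3 * ell d) ≤ 1 ∧
      zeta K κ ≤ 1/400 := by
  have hd1 : (1:ℝ) ≤ d := by exact_mod_cast hd
  have hd0 : (0:ℝ) < d := by linarith
  have hℓ : 20 ≤ ell d := ell_ge hd
  have hℓ0 : 0 < ell d := by linarith
  have hZ0 : 0 ≤ Zf K κ := Zf_nonneg hd hK κpos
  have hζ0 : 0 ≤ zeta K κ := zeta_nonneg hd hK κpos
  have hZ1 : Zf K κ ≤ 1 / (10 * (d:ℝ)^3 * ell d) := Zf_le hd hK κpos
  have hZ1' : Zf K (κ/2) ≤ 1 / (10 * (d:ℝ)^3 * ell d) := Zf_le hd hK (by positivity)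
  have hZ0' : 0 ≤ Zf K (κ/2) := Zf_nonneg hd hK (by positivity)
  have hζ1 : zeta K κ ≤ 1 / 400 := zeta_le hd hK κpos
  have hZh : Zf K κ + zeta K κ ≤ Zf K (κ/2) := Zf_half hd hK κpos
  have hd3 : (1:ℝ) ≤ (d:ℝ)^3 := one_le_pow₀ hd1
  have hpos : 0 < 10 * (d:ℝ)^3 * ell d := by positivity
  have hZc : Zf K κ * (10 * (d:ℝ)^3 * ell d) ≤ 1 := by
    rwa [le_div_iff₀ hpos] at hZ1
  have hZc' : Zf K (κ/2) * (10 * (d:ℝ)^3 * ell d) ≤ 1 := by
    rwa [le_div_iff₀ hpos] at hZ1'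
  have hZs : Zf K (κ/2) ≤ 1/200 := by
    have : Zf K (κ/2) * 200 ≤ Zf K (κ/2) * (10 * (d:ℝ)^3 * ell d) :=
      mul_le_mul_of_nonneg_left (by nlinarith) hZ0'
    linarith
  refine ⟨hZ0, hζ0, hZh, hZs, hZc, ?_, hζ1⟩
  refine le_trans ?_ hZc'
  exact mul_le_mul_of_nonneg_right (by linarith) hpos.le

/-- The steering step: a small fractional signing `x` which cancels the fat coordinates of the
midpoint. -/
theorem steer {ι : Type*} [DecidableEq ι] {d : ℕ} (hd : 1 ≤ d) {v b : ι → Fin d → ℝ}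
    {K : Fin d → ℝ} (hK : ∀ i, 0 ≤ K i) {G : Finset ι} {w : Fin d → ℝ} {κ : ℝ} (κpos : 0 < κ)
    (hb : ∀ e ∈ G, ∑ l, b e l ^ 2 ≤ 1)
    (hQ : ∀ i l, |∑ e ∈ G, v e i * b e l - (if i = l then κ * K i else 0)| ≤
      2 * d * (κ * K i) * Zf K κ + 2 * ell d)
    (hfat : ∀ i, lam d ≤ κ * K i → |w i| ≤ ell d) :
    ∃ x : ι → ℝ, (∀ e ∈ G, |x e| ≤ zeta K κ) ∧
      (∀ i, lam d ≤ κ * K i → ∑ e ∈ G, x e * v e i = w i) ∧
      (∀ i, κ * K i < lam d → |∑ e ∈ G, x e * v e i| ≤ 10 * (d : ℝ)^3 * ell d * zeta K κ) := by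
  classical
  have hd1 : (1:ℝ) ≤ d := by exact_mod_cast hd
  have hd0 : (0:ℝ) < d := by linarith
  obtain ⟨hZ0, hζ0, hZh, hZs, hZc, hζc, hζ1⟩ := param_facts hd hK κpos
  have hℓ : 20 ≤ ell d := ell_ge hd
  have hlam : lam d = 40 * (d : ℝ)^5 * ell d ^2 := rfl
  have hζlam : zeta K κ = 2 * d * ell d * ∑ l with lam d ≤ κ * K l, 1 / (κ * K l) := rfl
  generalize ell d = ℓ at *
  generalize Zf K κ = Z at *
  generalize zeta K κ = ζ at *
  have hℓ0 : 0 < ℓ := by linarith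
  have hd4 : (1:ℝ) ≤ (d:ℝ)^4 := one_le_pow₀ hd1
  have hd3 : (1:ℝ) ≤ (d:ℝ)^3 := one_le_pow₀ hd1
  obtain ⟨cc, hc0, hceq, hcb⟩ := solve_dom (Finset.univ.filter (fun i => lam d ≤ κ * K i))
    (fun i l => ∑ e ∈ G, v e i * b e l) (fun i => κ * K i)
    (fun i => 2 * d * (κ * K i) * Z + 2 * ℓ) w ℓ
    (by
      intro i hi
      have := (Finset.mem_filter.mp hi).2
      have h0 : 0 < lam d := by rw [hlam]; positivity
      linarith)
    (by
      intro i hi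
      have h1 := (Finset.mem_filter.mp hi).2
      show 2 * (d:ℝ) * (2 * d * (κ * K i) * Z + 2 * ℓ) ≤ κ * K i
      have h2 : 8 * d * ℓ ≤ lam d := by
        rw [hlam]
        have : (d:ℝ) * ℓ * 8 ≤ (d:ℝ) * ℓ * (40 * (d:ℝ)^4 * ℓ) :=
          mul_le_mul_of_nonneg_left (by nlinarith) (by positivity)
        linarith
      have h3 : 0 ≤ κ * K i := mul_nonneg κpos.le (hK i)
      have h4 : Z * (8 * (d:ℝ)^2) ≤ 1 := by
        refine le_trans ?_ hZc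
        refine mul_le_mul_of_nonneg_left ?_ hZ0
        have : (d:ℝ)^2 * 8 ≤ (d:ℝ)^2 * (10 * d * ℓ) :=
          mul_le_mul_of_nonneg_left (by nlinarith) (by positivity)
        linarith
      have h5 : (κ * K i) * (Z * (8 * (d:ℝ)^2)) ≤ (κ * K i) * 1 :=
        mul_le_mul_of_nonneg_left h4 h3
      linarith)
    (by
      intro i _ l _
      exact hQ i l)
    (by
      intro i hi
      exact hfat i (Finset.mem_filter.mp hi).2)
    hℓ0.le
  have hcb' : ∀ l, |cc l| ≤ ζ / d := by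
    intro l
    refine (hcb l).trans (le_of_eq ?_)
    rw [hζlam, eq_div_iff hd0.ne', Finset.sum_mul, Finset.mul_sum]
    exact Finset.sum_congr rfl fun i _ => by ring
  generalize hS : Finset.univ.filter (fun i => lam d ≤ κ * K i) = S at *
  have hcS : ∑ l ∈ S, |cc l| ≤ ζ := by
    calc ∑ l ∈ S, |cc l| ≤ ∑ l : Fin d, |cc l| :=
          Finset.sum_le_univ_sum_of_nonneg (fun _ => abs_nonneg _)
      _ ≤ ∑ l : Fin d, ζ / d := Finset.sum_le_sum fun l _ => hcb' l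
      _ = ζ := by
          rw [Finset.sum_const, Finset.card_univ, Fintype.card_fin, nsmul_eq_mul]; field_simp
  have hXv : ∀ i, ∑ e ∈ G, (∑ l ∈ S, cc l * b e l) * v e i =
      ∑ l ∈ S, (∑ e ∈ G, v e i * b e l) * cc l := by
    intro i
    simp only [Finset.sum_mul]
    rw [Finset.sum_comm]
    exact Finset.sum_congr rfl fun l _ => Finset.sum_congr rfl fun e _ => by ring
  refine ⟨fun e => ∑ l ∈ S, cc l * b e l, ?_, ?_, ?_⟩
  · intro e he
    calc |∑ l ∈ S, cc l * b e l| ≤ ∑ l ∈ S, |cc l * b e l| := Finset.abs_sum_le_sum_abs _ _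
      _ ≤ ∑ l ∈ S, |cc l| := by
          refine Finset.sum_le_sum fun l _ => ?_
          rw [abs_mul]
          exact mul_le_of_le_one_right (abs_nonneg _) (abs_le_one_of_sum_sq (hb e he) l)
      _ ≤ ζ := hcS
  · intro i hi
    have hiS : i ∈ S := hS ▸ Finset.mem_filter.mpr ⟨Finset.mem_univ _, hi⟩
    show ∑ e ∈ G, (∑ l ∈ S, cc l * b e l) * v e i = w i
    rw [hXv]
    exact hceq i hiS
  · intro i hi
    show |∑ e ∈ G, (∑ l ∈ S, cc l * b e l) * v e i| ≤ _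
    rw [hXv]
    calc |∑ l ∈ S, (∑ e ∈ G, v e i * b e l) * cc l|
        ≤ ∑ l ∈ S, |(∑ e ∈ G, v e i * b e l) * cc l| := Finset.abs_sum_le_sum_abs _ _
      _ ≤ ∑ l ∈ S, 10 * (d : ℝ)^3 * ℓ * |cc l| := by
          refine Finset.sum_le_sum fun l hl => ?_
          rw [abs_mul]
          refine mul_le_mul_of_nonneg_right ?_ (abs_nonneg _)
          have hil : i ≠ l := by
            rintro rfl
            rw [← hS] at hl
            exact absurd (Finset.mem_filter.mp hl).2 (not_le.mpr hi)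
          have h2 := hQ i l
          rw [if_neg hil, sub_zero] at h2
          refine h2.trans ?_
          have h3 : d * (κ * K i) * Z ≤ d * lam d * Z :=
            mul_le_mul_of_nonneg_right (mul_le_mul_of_nonneg_left hi.le hd0.le) hZ0
          have h4 : d * lam d * Z ≤ 4 * (d:ℝ)^3 * ℓ := by
            rw [hlam]
            have : (4 * (d:ℝ)^3 * ℓ) * (Z * (10 * (d:ℝ)^3 * ℓ)) ≤ (4 * (d:ℝ)^3 * ℓ) * 1 :=
              mul_le_mul_of_nonneg_left hZc (by positivity)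
            calc d * (40 * (d:ℝ)^5 * ℓ^2) * Z =
                  (4 * (d:ℝ)^3 * ℓ) * (Z * (10 * (d:ℝ)^3 * ℓ)) := by ring
              _ ≤ _ := by linarith
          have h5 : 2 * ℓ ≤ 2 * (d:ℝ)^3 * ℓ := by
            have := mul_le_mul_of_nonneg_right hd3 hℓ0.le
            linarith
          linarith
      _ = 10 * (d : ℝ)^3 * ℓ * ∑ l ∈ S, |cc l| := by rw [Finset.mul_sum]
      _ ≤ 10 * (d : ℝ)^3 * ℓ * ζ := mul_le_mul_of_nonneg_left hcS (by positivity)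

/-- Rounding the fractional signing `x`: a splitting of `G` in two halves. -/
theorem split {ι : Type*} [DecidableEq ι] {d : ℕ} (hd : 1 ≤ d) {v b : ι → Fin d → ℝ}
    {G : Finset ι} (hv : ∀ e ∈ G, ∑ i, v e i ^ 2 ≤ 1) (hb : ∀ e ∈ G, ∑ l, b e l ^ 2 ≤ 1)
    (x : ι → ℝ) (hx : ∀ e ∈ G, |x e| ≤ 1) :
    ∃ G' ⊆ G,
      (∀ i, |∑ e ∈ G', v e i - (∑ e ∈ G, v e i + ∑ e ∈ G, x e * v e i) / 2| ≤ ell d / 2) ∧
      (∀ i, |∑ e ∈ G', |v e i| - (∑ e ∈ G, |v e i| + ∑ e ∈ G, x e * (|v e i|)) / 2| ≤ ell d / 2) ∧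
      (∀ i, |∑ e ∈ G \ G', |v e i| - (∑ e ∈ G, |v e i| - ∑ e ∈ G, x e * (|v e i|)) / 2| ≤
        ell d / 2) ∧
      (∀ i l, |∑ e ∈ G', v e i * b e l -
        (∑ e ∈ G, v e i * b e l + ∑ e ∈ G, x e * (v e i * b e l)) / 2| ≤ ell d / 2) ∧
      (∀ i l, |∑ e ∈ G \ G', v e i * b e l -
        (∑ e ∈ G, v e i * b e l - ∑ e ∈ G, x e * (v e i * b e l)) / 2| ≤ ell d / 2) ∧
      |(G'.card : ℝ) - (G.card + ∑ e ∈ G, x e) / 2| ≤ ell d / 2 ∧
      |((G \ G').card : ℝ) - (G.card - ∑ e ∈ G, x e) / 2| ≤ ell d / 2 := by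
  classical
  obtain ⟨ε, hε, hround⟩ := rounding_features (κ := Fin d ⊕ (Fin d × Fin d) ⊕ Fin d ⊕ Unit) G
    (fun e => Sum.elim (fun i => v e i) (Sum.elim (fun p => v e p.1 * b e p.2)
      (Sum.elim (fun i => |v e i|) (fun _ => 1))))
    (by
      intro e he
      simp only [Fintype.sum_sum_type, Sum.elim_inl, Sum.elim_inr, Fintype.sum_prod_type,
        Finset.univ_unique, Finset.sum_singleton, sq_abs, one_pow]
      have h1 : ∑ i, ∑ l, (v e i * b e l)^2 = (∑ i, v e i ^2) * ∑ l, b e l ^2 := by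
        rw [Finset.sum_mul_sum]
        exact Finset.sum_congr rfl fun i _ => Finset.sum_congr rfl fun l _ => by ring
      rw [h1]
      have h2 := hv e he
      have h3 := hb e he
      have h4 : 0 ≤ ∑ i, v e i ^2 := Finset.sum_nonneg fun i _ => sq_nonneg _
      have h5 : 0 ≤ ∑ l, b e l ^2 := Finset.sum_nonneg fun i _ => sq_nonneg _
      nlinarith)
    x hx
  have hcard : (20 : ℝ) * Real.log (2.1 * Fintype.card (Fin d ⊕ (Fin d × Fin d) ⊕ Fin d ⊕ Unit))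
      = ell d := by
    rw [ell]
    congr 2
    simp only [Fintype.card_sum, Fintype.card_fin, Fintype.card_prod, Fintype.card_unit]
    push_cast
    ring
  rw [hcard] at hround
  have gen1 : ∀ f : ι → ℝ, |∑ e ∈ G, (ε e - x e) * f e| ≤ ell d →
      |∑ e ∈ G with ε e = 1, f e - (∑ e ∈ G, f e + ∑ e ∈ G, x e * f e) / 2| ≤ ell d / 2 := by
    intro f hf
    rw [(sum_half G ε x f hε).1]
    have h := abs_le.mp hf
    rw [abs_le]
    constructor <;> linarith [h.1, h.2]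
  have gen2 : ∀ f : ι → ℝ, |∑ e ∈ G, (ε e - x e) * f e| ≤ ell d →
      |∑ e ∈ G \ (G.filter (fun e => ε e = 1)), f e -
        (∑ e ∈ G, f e - ∑ e ∈ G, x e * f e) / 2| ≤ ell d / 2 := by
    intro f hf
    rw [(sum_half G ε x f hε).2]
    have h := abs_le.mp hf
    rw [abs_le]
    constructor <;> linarith [h.1, h.2]
  have hr1 : |∑ e ∈ G, (ε e - x e) * (fun _ => (1:ℝ)) e| ≤ ell d :=
    hround (Sum.inr (Sum.inr (Sum.inr ())))
  refine ⟨G.filter (fun e => ε e = 1), Finset.filter_subset _ _,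
    fun i => gen1 (fun e => v e i) (hround (Sum.inl i)),
    fun i => gen1 (fun e => |v e i|) (hround (Sum.inr (Sum.inr (Sum.inl i)))),
    fun i => gen2 (fun e => |v e i|) (hround (Sum.inr (Sum.inr (Sum.inl i)))),
    fun i l => gen1 (fun e => v e i * b e l) (hround (Sum.inr (Sum.inl (i, l)))),
    fun i l => gen2 (fun e => v e i * b e l) (hround (Sum.inr (Sum.inl (i, l)))), ?_, ?_⟩
  · have h := gen1 (fun _ => 1) hr1
    simpa only [Finset.sum_const, nsmul_eq_mul, mul_one] using h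
  · have h := gen2 (fun _ => 1) hr1
    simpa only [Finset.sum_const, nsmul_eq_mul, mul_one] using h

/-- `|∑ x f| ≤ ζ ∑ |g|` when `|x| ≤ ζ`, `|f| ≤ g`. -/
theorem abs_sum_mul_le {ι : Type*} (G : Finset ι) {x f g : ι → ℝ} {ζ : ℝ} (hζ : 0 ≤ ζ)
    (hx : ∀ e ∈ G, |x e| ≤ ζ) (hf : ∀ e ∈ G, |f e| ≤ g e) :
    |∑ e ∈ G, x e * f e| ≤ ζ * ∑ e ∈ G, g e := by
  calc |∑ e ∈ G, x e * f e| ≤ ∑ e ∈ G, |x e * f e| := Finset.abs_sum_le_sum_abs _ _
    _ ≤ ∑ e ∈ G, ζ * g e := by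
        refine Finset.sum_le_sum fun e he => ?_
        rw [abs_mul]
        exact mul_le_mul (hx e he) (hf e he) (abs_nonneg _) hζ
    _ = _ := by rw [Finset.mul_sum]

/-- Propagation of the total variation bound. -/
theorem prop_TV {T t X ζ Z Z' ℓ D : ℝ} (hD : 0 ≤ D) (hζ : 0 ≤ ζ) (hZ : 0 ≤ Z)
    (hZ' : Z' ≤ 1/200) (hZZ : Z + ζ ≤ Z') (hℓ : 0 ≤ ℓ)
    (hT : T ≤ D * (1 + 2 * Z) + 2 * ℓ) (hX : |X| ≤ ζ * T)
    (ht : |t - (T + X)/2| ≤ ℓ/2) : t ≤ D / 2 * (1 + 2 * Z') + 2 * ℓ := by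
  have h1 := le_of_abs_le hX
  have h2 := le_of_abs_le ht
  have h3 : (1 + ζ) * T ≤ (1 + ζ) * (D * (1 + 2 * Z) + 2 * ℓ) :=
    mul_le_mul_of_nonneg_left hT (by linarith)
  have h4 : (1 + ζ) * (1 + 2 * Z) ≤ 1 + 2 * Z' := by nlinarith
  have h5 : D * ((1 + ζ) * (1 + 2 * Z)) ≤ D * (1 + 2 * Z') := mul_le_mul_of_nonneg_left h4 hD
  have h6 : ζ * ℓ ≤ 1/200 * ℓ := mul_le_mul_of_nonneg_right (by linarith) hℓ
  nlinarith

/-- Propagation of the quadratic statistics. -/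
theorem prop_Q {T F t X ζ Z Z' ℓ D δ : ℝ} (hD : 0 ≤ D) (hζ : 0 ≤ ζ) (hZ : 0 ≤ Z)
    (hZ' : Z' ≤ 1/200) (hZZ : Z + ζ ≤ Z') (hℓ : 0 ≤ ℓ)
    (hT : T ≤ D * (1 + 2 * Z) + 2 * ℓ) (hF : |F - δ| ≤ 2 * D * Z + 2 * ℓ) (hX : |X| ≤ ζ * T)
    (ht : |t - (F + X)/2| ≤ ℓ/2) : |t - δ/2| ≤ 2 * (D/2) * Z' + 2 * ℓ := by
  have h3 : ζ * T ≤ ζ * (D * (1 + 2 * Z) + 2 * ℓ) := mul_le_mul_of_nonneg_left hT hζ
  have h4 : D * (ζ * (1 + 2 * Z)) ≤ D * (ζ * 2) :=
    mul_le_mul_of_nonneg_left (mul_le_mul_of_nonneg_left (by linarith) hζ) hD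
  have h5 : D * (Z + ζ) ≤ D * Z' := mul_le_mul_of_nonneg_left hZZ hD
  have h6 : ζ * ℓ ≤ 1/200 * ℓ := mul_le_mul_of_nonneg_right (by linarith) hℓ
  have h7 := abs_le.mp hF
  have h8 := abs_le.mp hX
  have h9 := abs_le.mp ht
  rw [abs_le]
  constructor <;> linarith [h7.1, h7.2, h8.1, h8.2, h9.1, h9.2]

theorem step {ι : Type*} [DecidableEq ι] {d : ℕ} (hd : 1 ≤ d) {v b : ι → Fin d → ℝ}
    {K : Fin d → ℝ} (hK : ∀ i, 0 ≤ K i) {G : Finset ι} {a c : Fin d → ℝ} {κ : ℝ}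
    (hv : ∀ e ∈ G, ∑ i, v e i ^ 2 ≤ 1) (hb : ∀ e ∈ G, ∑ l, b e l ^ 2 ≤ 1)
    (h : Inv v b K G a c κ) (hG : 2 * ell d < G.card) :
    ∃ G' ⊆ G, ∃ m : Fin d → ℝ, Inv v b K G' a m (κ/2) ∧ Inv v b K (G \ G') m c (κ/2) ∧
      G'.card < G.card ∧ (G \ G').card < G.card := by
  classical
  have hd1 : (1:ℝ) ≤ d := by exact_mod_cast hd
  have hd0 : (0:ℝ) < d := by linarith
  obtain ⟨κpos, hend, hTV, hQ, hfat, hmid, hdone⟩ := h
  obtain ⟨hZ0, hζ0, hZh, hZs, hZc, hζc, hζ1⟩ := param_facts hd hK κpos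
  have hℓ : 20 ≤ ell d := ell_ge hd
  have hlam0 : 16000 ≤ lam d := lam_ge hd
  obtain ⟨x, hx, hx1, hx2⟩ := steer hd hK (w := fun i => -(a i + c i)) κpos hb hQ (by
    intro i hi
    have h1 := hfat i hi
    rw [abs_neg]
    calc |a i + c i| ≤ |a i| + |c i| := abs_add_le _ _
      _ ≤ ell d := by linarith [h1.1, h1.2])
  obtain ⟨G', hsub, hv1, hT1, hT2, hQ1, hQ2, hc1, hc2⟩ := split hd hv hb x
    (fun e he => (hx e he).trans (by linarith))
  have hκK : ∀ i, 0 ≤ κ * K i := fun i => mul_nonneg κpos.le (hK i)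
  have hκK2 : ∀ i, κ / 2 * K i = κ * K i / 2 := fun i => by ring
  have hD : ∀ i, 0 ≤ d * (κ * K i) := fun i => mul_nonneg hd0.le (hκK i)
  have hX : ∀ i, |∑ e ∈ G, x e * (|v e i|)| ≤ zeta K κ * ∑ e ∈ G, |v e i| := fun i =>
    abs_sum_mul_le G hζ0 hx (fun e _ => (abs_abs _).le)
  have hXQ : ∀ i l, |∑ e ∈ G, x e * (v e i * b e l)| ≤ zeta K κ * ∑ e ∈ G, |v e i| := fun i l =>
    abs_sum_mul_le G hζ0 hx (fun e he => by
      rw [abs_mul]
      exact mul_le_of_le_one_right (abs_nonneg _) (abs_le_one_of_sum_sq (hb e he) l))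
  have TV1 : ∀ i, ∑ e ∈ G', |v e i| ≤ d * (κ / 2 * K i) * (1 + 2 * Zf K (κ/2)) + 2 * ell d := by
    intro i
    have h := prop_TV (hD i) hζ0 hZ0 hZs hZh (by linarith) (hTV i) (hX i) (hT1 i)
    rw [hκK2]
    linarith
  have TV2 : ∀ i, ∑ e ∈ G \ G', |v e i| ≤
      d * (κ / 2 * K i) * (1 + 2 * Zf K (κ/2)) + 2 * ell d := by
    intro i
    have h := prop_TV (X := -∑ e ∈ G, x e * (|v e i|)) (hD i) hζ0 hZ0 hZs hZh (by linarith)
      (hTV i) (by rw [abs_neg]; exact hX i) (by rw [← sub_eq_add_neg]; exact hT2 i)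
    rw [hκK2]
    linarith
  have Q1 : ∀ i l, |∑ e ∈ G', v e i * b e l - (if i = l then κ / 2 * K i else 0)| ≤
      2 * d * (κ / 2 * K i) * Zf K (κ/2) + 2 * ell d := by
    intro i l
    have h := prop_Q (hD i) hζ0 hZ0 hZs hZh (by linarith) (hTV i)
      (δ := if i = l then κ * K i else 0) (by
        have := hQ i l
        linarith) (hXQ i l) (hQ1 i l)
    have h0 : (if i = l then κ / 2 * K i else 0) = (if i = l then κ * K i else 0) / 2 := by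
      split_ifs <;> ring
    rw [h0, hκK2]
    linarith
  have Q2 : ∀ i l, |∑ e ∈ G \ G', v e i * b e l - (if i = l then κ / 2 * K i else 0)| ≤
      2 * d * (κ / 2 * K i) * Zf K (κ/2) + 2 * ell d := by
    intro i l
    have h := prop_Q (X := -∑ e ∈ G, x e * (v e i * b e l)) (hD i) hζ0 hZ0 hZs hZh (by linarith)
      (hTV i) (δ := if i = l then κ * K i else 0) (by
        have := hQ i l
        linarith) (by rw [abs_neg]; exact hXQ i l) (by rw [← sub_eq_add_neg]; exact hQ2 i l)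
    have h0 : (if i = l then κ / 2 * K i else 0) = (if i = l then κ * K i else 0) / 2 := by
      split_ifs <;> ring
    rw [h0, hκK2]
    linarith
  -- the midpoint
  have hmfat : ∀ i, lam d ≤ κ * K i → |a i + ∑ e ∈ G', v e i| ≤ ell d / 2 := by
    intro i hi
    have h1 := hx1 i hi
    have h2 := abs_le.mp (hv1 i)
    have h3 := hend i
    rw [h1] at h2
    rw [abs_le]
    constructor <;> linarith [h2.1, h2.2]
  have hmmid : ∀ i, κ * K i < lam d → ∀ B, |a i| ≤ B → |c i| ≤ B →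
      |a i + ∑ e ∈ G', v e i| ≤ B + ell d / 2 + 5 * (d : ℝ)^3 * ell d * zeta K κ := by
    intro i hi B ha hc
    have h1 := abs_le.mp (hx2 i hi)
    have h2 := abs_le.mp (hv1 i)
    have h3 := hend i
    have h4 := abs_le.mp ha
    have h5 := abs_le.mp hc
    rw [abs_le]
    constructor <;> linarith [h2.1, h2.2, h1.1, h1.2, h4.1, h4.2, h5.1, h5.2]
  -- bounds at the scale `κ/2`
  have fat2 : ∀ i, lam d ≤ κ / 2 * K i → |a i| ≤ ell d / 2 ∧ |a i + ∑ e ∈ G', v e i| ≤ ell d / 2 ∧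
      |c i| ≤ ell d / 2 := by
    intro i hi
    rw [hκK2] at hi
    have hi' : lam d ≤ κ * K i := by linarith
    exact ⟨(hfat i hi').1, hmfat i hi', (hfat i hi').2⟩
  have mid2 : ∀ i, κ / 2 * K i < lam d → 1 / (d:ℝ) ≤ κ / 2 * K i →
      |a i| ≤ Bf K (κ/2) i ∧ |a i + ∑ e ∈ G', v e i| ≤ Bf K (κ/2) i ∧ |c i| ≤ Bf K (κ/2) i := by
    intro i hi1 hi2
    have hd' : 0 < 1 / (d:ℝ) := by positivity
    have hKi : 0 < K i := by
      rcases (hK i).lt_or_eq with h | h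
      · exact h
      · rw [← h, mul_zero] at hi2; linarith
    by_cases hf : lam d ≤ κ * K i
    · have h1 : ell d / 2 ≤ Bf K (κ/2) i := Bf_ge hd hK (by positivity) i hKi (by linarith)
      exact ⟨(hfat i hf).1.trans h1, (hmfat i hf).trans h1, (hfat i hf).2.trans h1⟩
    · push Not at hf
      have h0 : 1 / (d:ℝ) ≤ κ * K i := by rw [hκK2] at hi2; linarith
      have h1 := hmid i hf h0
      have h2 := Bf_half hd hK κpos i hKi
      have h3 := hmmid i hf _ h1.1 h1.2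
      have h4 : 0 ≤ 5 * (d : ℝ)^3 * ell d * zeta K κ := by positivity
      exact ⟨by linarith [h1.1], by linarith, by linarith [h1.2]⟩
  have done2 : ∀ i, κ / 2 * K i < 1 / (d:ℝ) → |a i| + ∑ e ∈ G', |v e i| ≤ Bstar d ∧
      |a i + ∑ e ∈ G', v e i| + ∑ e ∈ G \ G', |v e i| ≤ Bstar d := by
    intro i hi
    have hsplit := Finset.sum_sdiff (f := fun e => |v e i|) hsub
    have hnn1 : 0 ≤ ∑ e ∈ G \ G', |v e i| := Finset.sum_nonneg fun _ _ => abs_nonneg _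
    have hm1 : |a i + ∑ e ∈ G', v e i| ≤ |a i| + ∑ e ∈ G', |v e i| := by
      calc |a i + ∑ e ∈ G', v e i| ≤ |a i| + |∑ e ∈ G', v e i| := abs_add_le _ _
        _ ≤ _ := by linarith [Finset.abs_sum_le_sum_abs (fun e => v e i) G']
    by_cases hf : κ * K i < 1 / (d:ℝ)
    · have h1 := hdone i hf
      exact ⟨by linarith, by linarith⟩
    · push Not at hf
      have hd' : 1 / (d:ℝ) ≤ 1 := by rw [div_le_one hd0]; exact hd1
      have h2 : κ * K i < lam d := by rw [hκK2] at hi; linarith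
      have h3 := hmid i h2 hf
      have h4 := Bf_le hd hK κpos i hf
      have h5 := hmmid i h2 _ h3.1 h3.2
      have h6 : 5 * (d : ℝ)^3 * ell d * zeta K κ ≤ 1/2 := by linarith
      have h7 : d * (κ / 2 * K i) * (1 + 2 * Zf K (κ/2)) ≤ 1.1 := by
        have h8 : d * (κ / 2 * K i) ≤ 1 := by
          rw [lt_div_iff₀ hd0] at hi; linarith
        have h9 : 0 ≤ d * (κ / 2 * K i) := by
          rw [hκK2]; have := hκK i; positivity
        have h10 : 1 + 2 * Zf K (κ/2) ≤ 1.1 := by linarith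
        calc d * (κ / 2 * K i) * (1 + 2 * Zf K (κ/2)) ≤ 1 * 1.1 :=
              mul_le_mul h8 h10 (by linarith) (by norm_num)
          _ = 1.1 := by norm_num
      have h8 := TV1 i
      have h9 := TV2 i
      have h10 : Bstar d = Bmax d + 2 + 3 * ell d := rfl
      rw [h10]
      exact ⟨by linarith [h3.1], by linarith⟩
  have hXc : |∑ e ∈ G, x e| ≤ G.card * (1/400) := by
    calc |∑ e ∈ G, x e| ≤ ∑ e ∈ G, |x e| := Finset.abs_sum_le_sum_abs _ _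
      _ ≤ ∑ e ∈ G, (1/400 : ℝ) := Finset.sum_le_sum fun e he => (hx e he).trans hζ1
      _ = _ := by rw [Finset.sum_const, nsmul_eq_mul]
  have hXc' := abs_le.mp hXc
  have hlt1 : (G'.card : ℝ) < G.card := by
    have h2 := abs_le.mp hc1
    linarith [h2.2, hXc'.2]
  have hlt2 : ((G \ G').card : ℝ) < G.card := by
    have h2 := abs_le.mp hc2
    linarith [hXc'.1, h2.2]
  refine ⟨G', hsub, fun i => a i + ∑ e ∈ G', v e i, ?_, ?_, by exact_mod_cast hlt1,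
    by exact_mod_cast hlt2⟩
  · exact ⟨by positivity, fun i => rfl, TV1, Q1, fun i hi => ⟨(fat2 i hi).1, (fat2 i hi).2.1⟩,
      fun i h1 h2 => ⟨(mid2 i h1 h2).1, (mid2 i h1 h2).2.1⟩, fun i hi => (done2 i hi).1⟩
  · refine ⟨by positivity, fun i => ?_, TV2, Q2, fun i hi => ⟨(fat2 i hi).2.1, (fat2 i hi).2.2⟩,
      fun i h1 h2 => ⟨(mid2 i h1 h2).2.1, (mid2 i h1 h2).2.2⟩, fun i hi => (done2 i hi).2⟩
    rw [hend i, ← Finset.sum_sdiff (f := fun e => v e i) hsub]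
    ring

end P262
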