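import Vale.Agent.P262.RoundQ
import Vale.Agent.P262.Linear
import Vale.Agent.P262.ParamsQ
import Vale.Agent.P262.Tree

/-!
# P262 [TQ] The splitting step with `ℓ²` accounting (helper21)
-/

namespace P262Q

/-- contribution of coordinate `i` to the position potential of an endpoint `p` (centre `z`) -/
noncomputable def contrib {d : ℕ} (K : Fin d → ℝ) (κ : ℝ) (p z : Fin d → ℝ) (i : Fin d) : ℝ :=
  if lam d ≤ κ * K i then 0 else if 1 / (d : ℝ) ≤ κ * K i then p i ^ 2 else z i ^ 2 / 2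

/-- Invariants of a node `G` of the tree, entry point `a`, exit point `c`, centres `z`, scale `κ`. -/
structure Inv {ι : Type*} {d : ℕ} (v b : ι → Fin d → ℝ) (K : Fin d → ℝ) (G : Finset ι)
    (a c z : Fin d → ℝ) (κ : ℝ) : Prop where
  κpos : 0 < κ
  hend : ∀ i, c i = a i + ∑ e ∈ G, v e i
  hTV : ∀ i, ∑ e ∈ G, |v e i| ≤ d * (κ * K i) * (1 + 2 * Zf K κ) + 2 * ell d
  hQ : ∀ i l, |∑ e ∈ G, v e i * b e l - (if i = l then κ * K i else 0)| ≤
    2 * d * (κ * K i) * Zf K κ + 2 * ell d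
  hfat : ∀ i, lam d ≤ κ * K i → |a i| ≤ ell d / 2 ∧ |c i| ≤ ell d / 2
  hpotA : ∑ i, contrib K κ a z i ≤ BB K κ
  hpotC : ∑ i, contrib K κ c z i ≤ BB K κ
  hdone : ∀ i, κ * K i < 1 / (d : ℝ) → |a i - z i| + ∑ e ∈ G, |v e i| ≤ 2 * tau d

/-- Numerical facts about the parameters, in multiplied-out form. -/
theorem param_facts {d : ℕ} (hd : 1 ≤ d) {K : Fin d → ℝ} (hK : ∀ i, 0 ≤ K i) {κ : ℝ}
    (κpos : 0 < κ) :
    0 ≤ Zf K κ ∧ 0 ≤ zeta K κ ∧ Zf K κ + zeta K κ ≤ Zf K (κ/2) ∧ Zf K (κ/2) ≤ 1/200 ∧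
      Zf K κ * (10^5 * (d:ℝ)^8 * ell d) ≤ 4 ∧ zeta K κ * (10^5 * (d:ℝ)^8 * ell d) ≤ 4 ∧
      zeta K κ ≤ 1/400 ∧ Zf K κ * lam d ≤ 4 * (d:ℝ)^2 * ell d := by
  have hd1 : (1:ℝ) ≤ d := by exact_mod_cast hd
  have hd0 : (0:ℝ) < d := by linarith
  have hℓ : 20 ≤ ell d := ell_ge hd
  have hℓ0 : 0 < ell d := by linarith
  have hZ0 : 0 ≤ Zf K κ := Zf_nonneg hd hK κpos
  have hζ0 : 0 ≤ zeta K κ := zeta_nonneg hd hK κpos
  have hZ1 := Zf_le hd hK κpos
  have hZ1' := Zf_le hd hK (by positivity : 0 < κ/2)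
  have hZ0' : 0 ≤ Zf K (κ/2) := Zf_nonneg hd hK (by positivity)
  have hζ1 : zeta K κ ≤ 1 / 400 := zeta_le hd hK κpos
  have hZh : Zf K κ + zeta K κ ≤ Zf K (κ/2) := Zf_half hd hK κpos
  have hd8 : (1:ℝ) ≤ (d:ℝ)^8 := one_le_pow₀ hd1
  have hbig : (800:ℝ) ≤ 10^5 * (d:ℝ)^8 * ell d := by
    have h1 : (1:ℝ) * 20 ≤ (d:ℝ)^8 * ell d := mul_le_mul hd8 hℓ (by norm_num) (by positivity)
    have h2 : 10^5 * (d:ℝ)^8 * ell d = 10^5 * ((d:ℝ)^8 * ell d) := by ring
    rw [h2]; linarith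
  have hZs : Zf K (κ/2) ≤ 1/200 := by
    have h1 : Zf K (κ/2) * 800 ≤ Zf K (κ/2) * (10^5 * (d:ℝ)^8 * ell d) :=
      mul_le_mul_of_nonneg_left hbig hZ0'
    linarith
  refine ⟨hZ0, hζ0, hZh, hZs, hZ1, ?_, hζ1, Zf_lam hd hK κpos⟩
  refine le_trans ?_ hZ1'
  exact mul_le_mul_of_nonneg_right (by linarith) (by linarith)

/-- The steering step: a small fractional signing `x` which cancels the fat coordinates of the
midpoint. -/
theorem steer {ι : Type*} [DecidableEq ι] {d : ℕ} (hd : 1 ≤ d) {v b : ι → Fin d → ℝ}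
    {K : Fin d → ℝ} (hK : ∀ i, 0 ≤ K i) {G : Finset ι} {w : Fin d → ℝ} {κ : ℝ} (κpos : 0 < κ)
    (hb : ∀ e ∈ G, ∑ l, b e l ^ 2 ≤ 1)
    (hQ : ∀ i l, |∑ e ∈ G, v e i * b e l - (if i = l then κ * K i else 0)| ≤
      2 * d * (κ * K i) * Zf K κ + 2 * ell d)
    (hfat : ∀ i, lam d ≤ κ * K i → |w i| ≤ ell d) :
    ∃ x : ι → ℝ, (∀ e ∈ G, |x e| ≤ zeta K κ) ∧
      (∀ i, lam d ≤ κ * K i → ∑ e ∈ G, x e * v e i = w i) ∧
      (∀ i, κ * K i < lam d → |∑ e ∈ G, x e * v e i| ≤ 10 * (d : ℝ)^3 * ell d * zeta K κ) := by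
  classical
  have hd1 : (1:ℝ) ≤ d := by exact_mod_cast hd
  have hd0 : (0:ℝ) < d := by linarith
  obtain ⟨hZ0, hζ0, hZh, hZs, hZc, hζc, hζ1, hZl⟩ := param_facts hd hK κpos
  have hℓ : 20 ≤ ell d := ell_ge hd
  have hlam : lam d = 10^5 * (d : ℝ)^10 * ell d ^2 := rfl
  have hζlam : zeta K κ = 2 * d * ell d * ∑ l with lam d ≤ κ * K l, 1 / (κ * K l) := rfl
  generalize ell d = ℓ at *
  generalize Zf K κ = Z at *
  generalize zeta K κ = ζ at *
  have hℓ0 : 0 < ℓ := by linarith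
  have hd9 : (1:ℝ) ≤ (d:ℝ)^9 := one_le_pow₀ hd1
  have hd6 : (1:ℝ) ≤ (d:ℝ)^6 := one_le_pow₀ hd1
  have hd3 : (1:ℝ) ≤ (d:ℝ)^3 := one_le_pow₀ hd1
  obtain ⟨cc, hc0, hceq, hcb⟩ := P262.solve_dom (Finset.univ.filter (fun i => lam d ≤ κ * K i))
    (fun i l => ∑ e ∈ G, v e i * b e l) (fun i => κ * K i)
    (fun i => 2 * d * (κ * K i) * Z + 2 * ℓ) w ℓ
    (by
      intro i hi
      have := (Finset.mem_filter.mp hi).2
      have h0 : 0 < lam d := by rw [hlam]; positivity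
      linarith)
    (by
      intro i hi
      have h1 := (Finset.mem_filter.mp hi).2
      show 2 * (d:ℝ) * (2 * d * (κ * K i) * Z + 2 * ℓ) ≤ κ * K i
      have h2 : 8 * d * ℓ ≤ lam d := by
        rw [hlam]
        have h3 : (1:ℝ) * 20 ≤ (d:ℝ)^9 * ℓ := mul_le_mul hd9 hℓ (by norm_num) (by positivity)
        have : (d:ℝ) * ℓ * 8 ≤ (d:ℝ) * ℓ * (10^5 * ((d:ℝ)^9 * ℓ)) :=
          mul_le_mul_of_nonneg_left (by linarith) (by positivity)
        linarith
      have h3 : 0 ≤ κ * K i := mul_nonneg κpos.le (hK i)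
      have h4 : Z * (8 * (d:ℝ)^2) ≤ 1 := by
        have h5 : Z * (32 * (d:ℝ)^2) ≤ 4 := by
          refine le_trans ?_ hZc
          refine mul_le_mul_of_nonneg_left ?_ hZ0
          have h6 : (1:ℝ) * 20 ≤ (d:ℝ)^6 * ℓ := mul_le_mul hd6 hℓ (by norm_num) (by positivity)
          have : (d:ℝ)^2 * 32 ≤ (d:ℝ)^2 * (10^5 * ((d:ℝ)^6 * ℓ)) :=
            mul_le_mul_of_nonneg_left (by linarith) (by positivity)
          linarith
        linarith
      have h5 : (κ * K i) * (Z * (8 * (d:ℝ)^2)) ≤ (κ * K i) * 1 :=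
        mul_le_mul_of_nonneg_left h4 h3
      linarith)
    (by
      intro i _ l _
      exact hQ i l)
    (by
      intro i hi
      exact hfat i (Finset.mem_filter.mp hi).2)
    hℓ0.le
  have hcb' : ∀ l, |cc l| ≤ ζ / d := by
    intro l
    refine (hcb l).trans (le_of_eq ?_)
    rw [hζlam, eq_div_iff hd0.ne', Finset.sum_mul, Finset.mul_sum]
    exact Finset.sum_congr rfl fun i _ => by ring
  generalize hS : Finset.univ.filter (fun i => lam d ≤ κ * K i) = S at *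
  have hcS : ∑ l ∈ S, |cc l| ≤ ζ := by
    calc ∑ l ∈ S, |cc l| ≤ ∑ l : Fin d, |cc l| :=
          Finset.sum_le_univ_sum_of_nonneg (fun _ => abs_nonneg _)
      _ ≤ ∑ l : Fin d, ζ / d := Finset.sum_le_sum fun l _ => hcb' l
      _ = ζ := by
          rw [Finset.sum_const, Finset.card_univ, Fintype.card_fin, nsmul_eq_mul]; field_simp
  have hXv : ∀ i, ∑ e ∈ G, (∑ l ∈ S, cc l * b e l) * v e i =
      ∑ l ∈ S, (∑ e ∈ G, v e i * b e l) * cc l := by
    intro i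
    simp only [Finset.sum_mul]
    rw [Finset.sum_comm]
    exact Finset.sum_congr rfl fun l _ => Finset.sum_congr rfl fun e _ => by ring
  refine ⟨fun e => ∑ l ∈ S, cc l * b e l, ?_, ?_, ?_⟩
  · intro e he
    calc |∑ l ∈ S, cc l * b e l| ≤ ∑ l ∈ S, |cc l * b e l| := Finset.abs_sum_le_sum_abs _ _
      _ ≤ ∑ l ∈ S, |cc l| := by
          refine Finset.sum_le_sum fun l _ => ?_
          rw [abs_mul]
          exact mul_le_of_le_one_right (abs_nonneg _) (P262.abs_le_one_of_sum_sq (hb e he) l)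
      _ ≤ ζ := hcS
  · intro i hi
    have hiS : i ∈ S := hS ▸ Finset.mem_filter.mpr ⟨Finset.mem_univ _, hi⟩
    show ∑ e ∈ G, (∑ l ∈ S, cc l * b e l) * v e i = w i
    rw [hXv]
    exact hceq i hiS
  · intro i hi
    show |∑ e ∈ G, (∑ l ∈ S, cc l * b e l) * v e i| ≤ _
    rw [hXv]
    calc |∑ l ∈ S, (∑ e ∈ G, v e i * b e l) * cc l|
        ≤ ∑ l ∈ S, |(∑ e ∈ G, v e i * b e l) * cc l| := Finset.abs_sum_le_sum_abs _ _
      _ ≤ ∑ l ∈ S, 10 * (d : ℝ)^3 * ℓ * |cc l| := by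
          refine Finset.sum_le_sum fun l hl => ?_
          rw [abs_mul]
          refine mul_le_mul_of_nonneg_right ?_ (abs_nonneg _)
          have hil : i ≠ l := by
            rintro rfl
            rw [← hS] at hl
            exact absurd (Finset.mem_filter.mp hl).2 (not_le.mpr hi)
          have h2 := hQ i l
          rw [if_neg hil, sub_zero] at h2
          refine h2.trans ?_
          have h3 : d * (κ * K i) * Z ≤ d * lam d * Z :=
            mul_le_mul_of_nonneg_right (mul_le_mul_of_nonneg_left hi.le hd0.le) hZ0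
          have h4 : d * lam d * Z ≤ 4 * (d:ℝ)^3 * ℓ := by
            have := mul_le_mul_of_nonneg_left hZl hd0.le
            calc d * lam d * Z = d * (Z * lam d) := by ring
              _ ≤ d * (4 * (d:ℝ)^2 * ℓ) := this
              _ = _ := by ring
          have h5 : 2 * ℓ ≤ 2 * (d:ℝ)^3 * ℓ := by
            have := mul_le_mul_of_nonneg_right hd3 hℓ0.le
            linarith
          linarith
      _ = 10 * (d : ℝ)^3 * ℓ * ∑ l ∈ S, |cc l| := by rw [Finset.mul_sum]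
      _ ≤ 10 * (d : ℝ)^3 * ℓ * ζ := mul_le_mul_of_nonneg_left hcS (by positivity)

/-- Rounding the fractional signing `x`: a splitting of `G` in two halves. -/
theorem split {ι : Type*} [DecidableEq ι] {d : ℕ} (hd : 1 ≤ d) {v b : ι → Fin d → ℝ}
    {G : Finset ι} (hv : ∀ e ∈ G, ∑ i, v e i ^ 2 ≤ 1) (hb : ∀ e ∈ G, ∑ l, b e l ^ 2 ≤ 1)
    (x : ι → ℝ) (hx : ∀ e ∈ G, |x e| ≤ 1) (S : Finset (Fin d)) (u : Fin d → ℝ)
    (hu : ∑ i ∈ S, u i ^ 2 ≤ UU d) :
    ∃ G' ⊆ G,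
      (∀ i, |∑ e ∈ G', v e i - (∑ e ∈ G, v e i + ∑ e ∈ G, x e * v e i) / 2| ≤ ell d / 2) ∧
      (∀ i, |∑ e ∈ G', |v e i| - (∑ e ∈ G, |v e i| + ∑ e ∈ G, x e * (|v e i|)) / 2| ≤ ell d / 2) ∧
      (∀ i, |∑ e ∈ G \ G', |v e i| - (∑ e ∈ G, |v e i| - ∑ e ∈ G, x e * (|v e i|)) / 2| ≤
        ell d / 2) ∧
      (∀ i l, |∑ e ∈ G', v e i * b e l -
        (∑ e ∈ G, v e i * b e l + ∑ e ∈ G, x e * (v e i * b e l)) / 2| ≤ ell d / 2) ∧
      (∀ i l, |∑ e ∈ G \ G', v e i * b e l -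
        (∑ e ∈ G, v e i * b e l - ∑ e ∈ G, x e * (v e i * b e l)) / 2| ≤ ell d / 2) ∧
      |(G'.card : ℝ) - (G.card + ∑ e ∈ G, x e) / 2| ≤ ell d / 2 ∧
      |((G \ G').card : ℝ) - (G.card - ∑ e ∈ G, x e) / 2| ≤ ell d / 2 ∧
      ∑ i ∈ S, (u i + (∑ e ∈ G', v e i - (∑ e ∈ G, v e i + ∑ e ∈ G, x e * v e i) / 2)) ^ 2 ≤
        ∑ i ∈ S, u i ^ 2 + 3 * S.card := by
  classical
  obtain ⟨ε, hε, hround, hquad⟩ := P262.rounding_quad
    (κ := Fin d ⊕ (Fin d × Fin d) ⊕ Fin d ⊕ Unit) G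
    (fun e => Sum.elim (fun i => v e i) (Sum.elim (fun p => v e p.1 * b e p.2)
      (Sum.elim (fun i => |v e i|) (fun _ => 1))))
    (by
      intro e he
      simp only [Fintype.sum_sum_type, Sum.elim_inl, Sum.elim_inr, Fintype.sum_prod_type,
        Finset.univ_unique, Finset.sum_singleton, sq_abs, one_pow]
      have h1 : ∑ i, ∑ l, (v e i * b e l)^2 = (∑ i, v e i ^2) * ∑ l, b e l ^2 := by
        rw [Finset.sum_mul_sum]
        exact Finset.sum_congr rfl fun i _ => Finset.sum_congr rfl fun l _ => by ring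
      rw [h1]
      have h2 := hv e he
      have h3 := hb e he
      have h4 : 0 ≤ ∑ i, v e i ^2 := Finset.sum_nonneg fun i _ => sq_nonneg _
      have h5 : 0 ≤ ∑ l, b e l ^2 := Finset.sum_nonneg fun i _ => sq_nonneg _
      nlinarith)
    x hx (S.map ⟨Sum.inl, Sum.inl_injective⟩) (Sum.elim u (fun _ => 0)) (UU d)
    (by
      rw [Finset.sum_map]
      exact hu)
  have hcard : (3 : ℝ) * Real.sqrt (Real.log (2 *
      Fintype.card (Fin d ⊕ (Fin d × Fin d) ⊕ Fin d ⊕ Unit) * (UU d + 4))) ≤ ell d := by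
    refine le_trans (le_of_eq ?_) (ell_round hd)
    congr 4
    simp only [Fintype.card_sum, Fintype.card_fin, Fintype.card_prod, Fintype.card_unit]
    push_cast
    ring
  replace hround := fun k => (hround k).trans hcard
  have gen1 : ∀ f : ι → ℝ, |∑ e ∈ G, (ε e - x e) * f e| ≤ ell d →
      |∑ e ∈ G with ε e = 1, f e - (∑ e ∈ G, f e + ∑ e ∈ G, x e * f e) / 2| ≤ ell d / 2 := by
    intro f hf
    rw [(P262.sum_half G ε x f hε).1]
    have h := abs_le.mp hf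
    rw [abs_le]
    constructor <;> linarith [h.1, h.2]
  have gen2 : ∀ f : ι → ℝ, |∑ e ∈ G, (ε e - x e) * f e| ≤ ell d →
      |∑ e ∈ G \ (G.filter (fun e => ε e = 1)), f e -
        (∑ e ∈ G, f e - ∑ e ∈ G, x e * f e) / 2| ≤ ell d / 2 := by
    intro f hf
    rw [(P262.sum_half G ε x f hε).2]
    have h := abs_le.mp hf
    rw [abs_le]
    constructor <;> linarith [h.1, h.2]
  have hr1 : |∑ e ∈ G, (ε e - x e) * (fun _ => (1:ℝ)) e| ≤ ell d :=
    hround (Sum.inr (Sum.inr (Sum.inr ())))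
  refine ⟨G.filter (fun e => ε e = 1), Finset.filter_subset _ _,
    fun i => gen1 (fun e => v e i) (hround (Sum.inl i)),
    fun i => gen1 (fun e => |v e i|) (hround (Sum.inr (Sum.inr (Sum.inl i)))),
    fun i => gen2 (fun e => |v e i|) (hround (Sum.inr (Sum.inr (Sum.inl i)))),
    fun i l => gen1 (fun e => v e i * b e l) (hround (Sum.inr (Sum.inl (i, l)))),
    fun i l => gen2 (fun e => v e i * b e l) (hround (Sum.inr (Sum.inl (i, l)))), ?_, ?_, ?_⟩
  · have h := gen1 (fun _ => 1) hr1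
    simpa only [Finset.sum_const, nsmul_eq_mul, mul_one] using h
  · have h := gen2 (fun _ => 1) hr1
    simpa only [Finset.sum_const, nsmul_eq_mul, mul_one] using h
  · rw [Finset.sum_map, Finset.sum_map, Finset.card_map] at hquad
    refine le_trans (le_of_eq ?_) hquad
    refine Finset.sum_congr rfl fun i _ => ?_
    have h := (P262.sum_half G ε x (fun e => v e i) hε).1
    show _ = (u i + (∑ e ∈ G, (ε e - x e) * v e i) / 2) ^ 2
    rw [h]
    ring

theorem contrib_fat {d : ℕ} {K : Fin d → ℝ} {κ : ℝ} {p z : Fin d → ℝ} {i : Fin d}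
    (h : lam d ≤ κ * K i) : contrib K κ p z i = 0 := by
  unfold contrib; rw [if_pos h]

theorem contrib_mid {d : ℕ} {K : Fin d → ℝ} {κ : ℝ} {p z : Fin d → ℝ} {i : Fin d}
    (h1 : κ * K i < lam d) (h2 : 1 / (d : ℝ) ≤ κ * K i) : contrib K κ p z i = p i ^ 2 := by
  unfold contrib; rw [if_neg (not_le.mpr h1), if_pos h2]

theorem contrib_done {d : ℕ} {K : Fin d → ℝ} {κ : ℝ} {p z : Fin d → ℝ} {i : Fin d}
    (h1 : κ * K i < lam d) (h2 : κ * K i < 1 / (d : ℝ)) : contrib K κ p z i = z i ^ 2 / 2 := by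
  unfold contrib; rw [if_neg (not_le.mpr h1), if_neg (not_le.mpr h2)]

theorem contrib_nonneg {d : ℕ} (K : Fin d → ℝ) (κ : ℝ) (p z : Fin d → ℝ) (i : Fin d) :
    0 ≤ contrib K κ p z i := by
  unfold contrib
  split_ifs <;> positivity

theorem inv_d_lt_lam {d : ℕ} (hd : 1 ≤ d) : 1 / (d : ℝ) < lam d / 2 := by
  have hd1 : (1:ℝ) ≤ d := by exact_mod_cast hd
  have h1 : 1 / (d:ℝ) ≤ 1 := by rw [div_le_one (by linarith)]; exact hd1
  have h2 : 16000 ≤ lam d := lam_ge hd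
  linarith

/-- The potential of an old endpoint at the next scale. -/
theorem pot_endpoint {d : ℕ} (hd : 1 ≤ d) {K : Fin d → ℝ} (hK : ∀ i, 0 ≤ K i) {κ : ℝ}
    (κpos : 0 < κ) {p z z' : Fin d → ℝ} (hfat : ∀ i, lam d ≤ κ * K i → |p i| ≤ ell d / 2)
    (hz : ∀ i, κ * K i < 1 / (d : ℝ) → z' i = z i)
    (hz' : ∀ i, 1 / (d : ℝ) ≤ κ * K i → z' i = p i) :
    ∑ i, contrib K (κ/2) p z' i ≤ ∑ i, contrib K κ p z i + ∑ i, (bet K (κ/2) i - bet K κ i) := by
  rw [← Finset.sum_add_distrib]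
  refine Finset.sum_le_sum fun i _ => ?_
  have hκK : 0 ≤ κ * K i := mul_nonneg κpos.le (hK i)
  have hκK2 : κ / 2 * K i = κ * K i / 2 := by ring
  have hmono := bet_mono hd hK κpos i
  have hnn := contrib_nonneg K κ p z i
  have hdl := inv_d_lt_lam hd
  by_cases h1 : lam d ≤ κ / 2 * K i
  · rw [contrib_fat h1]; linarith
  · push Not at h1
    by_cases h2 : lam d ≤ κ * K i
    · obtain ⟨h3, h4⟩ := bet_enter hd hK κpos i h2 h1
      have h5 : 1 / (d : ℝ) ≤ κ / 2 * K i := by rw [hκK2]; linarith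
      rw [contrib_mid h1 h5]
      have h6 := hfat i h2
      have h7 : p i ^ 2 ≤ ell d ^ 2 / 4 := by
        have h8 := pow_le_pow_left₀ (abs_nonneg _) h6 2
        rw [sq_abs] at h8
        linarith
      linarith
    · push Not at h2
      by_cases h3 : κ * K i < 1 / (d : ℝ)
      · have h4 : κ / 2 * K i < 1 / (d : ℝ) := by rw [hκK2]; linarith
        rw [contrib_done h1 h4, contrib_done h2 h3, hz i h3]
        linarith
      · push Not at h3
        rw [contrib_mid h2 h3]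
        by_cases h4 : κ / 2 * K i < 1 / (d : ℝ)
        · rw [contrib_done h1 h4, hz' i h3]
          nlinarith [sq_nonneg (p i)]
        · push Not at h4
          rw [contrib_mid h1 h4]
          linarith

/-- The potential of the new midpoint `m` at the next scale; `p` is the old endpoint whose value is
used as centre for the newly done coordinates. -/
theorem pot_new {d : ℕ} (hd : 1 ≤ d) {K : Fin d → ℝ} (hK : ∀ i, 0 ≤ K i) {κ : ℝ}
    (κpos : 0 < κ) {a c m p z z' u : Fin d → ℝ}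
    (hz : ∀ i, κ * K i < 1 / (d : ℝ) → z' i = z i)
    (hz' : ∀ i, 1 / (d : ℝ) ≤ κ * K i → z' i = p i)
    (hpm : ∀ i, 1 / (d : ℝ) ≤ κ * K i → κ / 2 * K i < 1 / (d : ℝ) → |p i - m i| ≤ tau d)
    (hu0 : ∀ i, lam d ≤ κ * K i → u i = 0)
    (hu : ∀ i, κ * K i < lam d → 1 / (d : ℝ) ≤ κ * K i →
      u i ^ 2 ≤ (a i ^ 2 + c i ^ 2) / 2 + 2 * 10^5 * (d : ℝ)^7 * ell d * zeta K κ)
    (hm : ∑ i with (κ / 2 * K i < lam d ∧ 1 / (d : ℝ) ≤ κ * K i), m i ^ 2 ≤
      ∑ i with (κ / 2 * K i < lam d ∧ 1 / (d : ℝ) ≤ κ * K i), u i ^ 2 +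
        3 * (Finset.univ.filter (fun i => κ / 2 * K i < lam d ∧ 1 / (d : ℝ) ≤ κ * K i)).card)
    (hpotA : ∑ i, contrib K κ a z i ≤ BB K κ) (hpotC : ∑ i, contrib K κ c z i ≤ BB K κ) :
    ∑ i, contrib K (κ/2) m z' i ≤ BB K (κ/2) := by
  classical
  obtain ⟨hZ0, hζ0, hZh, hZs, hZc, hζc, hζ1, hZl⟩ := param_facts hd hK κpos
  have hℓ : 20 ≤ ell d := ell_ge hd
  have hd1 : (1:ℝ) ≤ d := by exact_mod_cast hd
  have hdl := inv_d_lt_lam hd
  -- termwise bound of the new contributions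
  have h1 : ∑ i, contrib K (κ/2) m z' i ≤
      ∑ i, ((if κ / 2 * K i < lam d ∧ 1 / (d : ℝ) ≤ κ * K i then m i ^ 2 - 3 else 0) +
        (if κ * K i < 1 / (d : ℝ) then z i ^ 2 / 2 else 0) + (bet K (κ/2) i - bet K κ i)) := by
    refine Finset.sum_le_sum fun i _ => ?_
    have hκK : 0 ≤ κ * K i := mul_nonneg κpos.le (hK i)
    have hκK2 : κ / 2 * K i = κ * K i / 2 := by ring
    have hmono := bet_mono hd hK κpos i
    by_cases h1 : lam d ≤ κ / 2 * K i
    · rw [contrib_fat h1, if_neg (fun h => absurd h.1 (not_lt.mpr h1)),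
        if_neg (by rw [hκK2] at h1; intro h; linarith)]
      linarith
    · push Not at h1
      by_cases h2 : lam d ≤ κ * K i
      · obtain ⟨h3, h4⟩ := bet_enter hd hK κpos i h2 h1
        have h5 : 1 / (d : ℝ) ≤ κ / 2 * K i := by rw [hκK2]; linarith
        rw [contrib_mid h1 h5, if_pos ⟨h1, by rw [hκK2] at h5; linarith⟩,
          if_neg (by rw [hκK2] at h5; intro h; linarith)]
        nlinarith [sq_nonneg (ell d)]
      · push Not at h2
        by_cases h3 : κ * K i < 1 / (d : ℝ)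
        · have h4 : κ / 2 * K i < 1 / (d : ℝ) := by rw [hκK2]; linarith
          rw [contrib_done h1 h4, if_neg (fun h => absurd h.2 (not_le.mpr h3)), if_pos h3, hz i h3]
          linarith
        · push Not at h3
          rw [if_pos ⟨h1, h3⟩, if_neg (not_lt.mpr h3)]
          by_cases h4 : κ / 2 * K i < 1 / (d : ℝ)
          · rw [contrib_done h1 h4, hz' i h3]
            have h5 := bet_done hd hK κpos i h2 h3 h4
            have h6 := pow_le_pow_left₀ (abs_nonneg _) (hpm i h3 h4) 2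
            rw [sq_abs] at h6
            nlinarith [sq_nonneg (p i - 2 * m i)]
          · push Not at h4
            rw [contrib_mid h1 h4]
            have h5 := bet_mid hd hK κpos i h2 h3
            linarith
  -- the quadratic part
  have h2 : ∑ i, (if κ / 2 * K i < lam d ∧ 1 / (d : ℝ) ≤ κ * K i then m i ^ 2 - 3 else 0) ≤
      ∑ i, (if κ / 2 * K i < lam d ∧ 1 / (d : ℝ) ≤ κ * K i then u i ^ 2 else 0) := by
    rw [← Finset.sum_filter, ← Finset.sum_filter, Finset.sum_sub_distrib, Finset.sum_const,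
      nsmul_eq_mul]
    linarith
  have h3 : ∑ i, (if κ / 2 * K i < lam d ∧ 1 / (d : ℝ) ≤ κ * K i then u i ^ 2 else 0) +
      ∑ i, (if κ * K i < 1 / (d : ℝ) then z i ^ 2 / 2 else 0) ≤
      ∑ i, ((contrib K κ a z i + contrib K κ c z i) / 2 +
        2 * 10^5 * (d : ℝ)^7 * ell d * zeta K κ) := by
    rw [← Finset.sum_add_distrib]
    refine Finset.sum_le_sum fun i _ => ?_
    have hκK : 0 ≤ κ * K i := mul_nonneg κpos.le (hK i)
    have hκK2 : κ / 2 * K i = κ * K i / 2 := by ring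
    have hnn : 0 ≤ 2 * 10^5 * (d : ℝ)^7 * ell d * zeta K κ := by positivity
    by_cases h2 : lam d ≤ κ * K i
    · have h4 : ¬ (κ * K i < 1 / (d : ℝ)) := by intro h; linarith [lam_ge hd]
      rw [contrib_fat h2, contrib_fat h2, hu0 i h2, if_neg h4]
      split_ifs <;> linarith
    · push Not at h2
      by_cases h3 : κ * K i < 1 / (d : ℝ)
      · rw [contrib_done h2 h3, contrib_done h2 h3, if_neg (fun h => absurd h.2 (not_le.mpr h3)),
          if_pos h3]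
        linarith
      · push Not at h3
        rw [contrib_mid h2 h3, contrib_mid h2 h3, if_pos ⟨by rw [hκK2]; linarith, h3⟩,
          if_neg (not_lt.mpr h3)]
        have := hu i h2 h3
        linarith
  have h4 : ∑ i : Fin d, ((contrib K κ a z i + contrib K κ c z i) / 2 +
        2 * 10^5 * (d : ℝ)^7 * ell d * zeta K κ) =
      (∑ i, contrib K κ a z i + ∑ i, contrib K κ c z i) / 2 +
        2 * 10^5 * (d : ℝ)^8 * ell d * zeta K κ := by
    rw [Finset.sum_add_distrib, Finset.sum_const, Finset.card_univ, Fintype.card_fin, nsmul_eq_mul,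
      ← Finset.sum_div, Finset.sum_add_distrib]
    ring
  rw [Finset.sum_add_distrib, Finset.sum_add_distrib, Finset.sum_sub_distrib] at h1
  have h5 : 2 * 10^5 * (d : ℝ)^8 * ell d * (Zf K κ + zeta K κ) ≤
      2 * 10^5 * (d : ℝ)^8 * ell d * Zf K (κ/2) :=
    mul_le_mul_of_nonneg_left hZh (by positivity)
  unfold BB at hpotA hpotC ⊢
  linarith

/-- The bound on the square of the unrounded midpoint in a middle coordinate. -/
theorem sq_mid_le {d : ℕ} (hd : 1 ≤ d) {K : Fin d → ℝ} (hK : ∀ i, 0 ≤ K i) {κ : ℝ}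
    (κpos : 0 < κ) {a c y : ℝ} (ha : a ^ 2 ≤ BB K κ) (hc : c ^ 2 ≤ BB K κ)
    (hy : |y| ≤ 10 * (d : ℝ)^3 * ell d * zeta K κ) :
    ((a + c) / 2 + y / 2) ^ 2 ≤ (a ^ 2 + c ^ 2) / 2 + 2 * 10^5 * (d : ℝ)^7 * ell d * zeta K κ := by
  obtain ⟨hZ0, hζ0, hZh, hZs, hZc, hζc, hζ1, hZl⟩ := param_facts hd hK κpos
  have hℓ : 20 ≤ ell d := ell_ge hd
  have hd1 : (1:ℝ) ≤ d := by exact_mod_cast hd
  have hBU := BB_le_UU hd hK κpos
  have hd3 : (1:ℝ) ≤ (d:ℝ)^3 := one_le_pow₀ hd1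
  have hd4 : (1:ℝ) ≤ (d:ℝ)^4 := one_le_pow₀ hd1
  have hd5 : (1:ℝ) ≤ (d:ℝ)^5 := one_le_pow₀ hd1
  have hU : UU d = (10^4 * (d:ℝ)^4)^2 := by unfold UU; ring
  have hB : ∀ t : ℝ, t ^ 2 ≤ BB K κ → |t| ≤ 10^4 * (d:ℝ)^4 := by
    intro t ht
    refine abs_le_of_sq_le_sq ?_ (by positivity)
    rw [← hU]
    nlinarith [sq_nonneg t]
  have ha' := hB a ha
  have hc' := hB c hc
  set Y := 10 * (d : ℝ)^3 * ell d * zeta K κ with hY
  have hY0 : 0 ≤ Y := by positivity
  have hY1 : Y ≤ 4 := by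
    refine le_trans ?_ hζc
    have h1 : 10 * (d : ℝ)^3 ≤ 10^5 * (d:ℝ)^8 := by
      have h2 : (d:ℝ)^3 * 10 ≤ (d:ℝ)^3 * (10^5 * (d:ℝ)^5) :=
        mul_le_mul_of_nonneg_left (by linarith) (by positivity)
      calc 10 * (d : ℝ)^3 = (d:ℝ)^3 * 10 := by ring
        _ ≤ (d:ℝ)^3 * (10^5 * (d:ℝ)^5) := h2
        _ = _ := by ring
    calc Y = 10 * (d : ℝ)^3 * (ell d * zeta K κ) := by rw [hY]; ring
      _ ≤ 10^5 * (d:ℝ)^8 * (ell d * zeta K κ) := mul_le_mul_of_nonneg_right h1 (by positivity)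
      _ = _ := by ring
  have h1 : |(a + c) * y| ≤ (2 * (10^4 * (d:ℝ)^4)) * Y := by
    rw [abs_mul]
    refine mul_le_mul ?_ hy (abs_nonneg _) (by positivity)
    exact (abs_add_le _ _).trans (by linarith)
  have h2 : y ^ 2 ≤ 4 * Y := by
    rw [← sq_abs]
    nlinarith [abs_nonneg y]
  have h3 : (2 * (10^4 * (d:ℝ)^4)) * Y = 2 * 10^5 * (d:ℝ)^7 * ell d * zeta K κ := by
    rw [hY]; ring
  have h4 : 4 * Y ≤ (2 * (10^4 * (d:ℝ)^4)) * Y := mul_le_mul_of_nonneg_right (by linarith) hY0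
  have h5 := le_of_abs_le h1
  nlinarith [sq_nonneg (a - c)]

theorem step {ι : Type*} [DecidableEq ι] {d : ℕ} (hd : 1 ≤ d) {v b : ι → Fin d → ℝ}
    {K : Fin d → ℝ} (hK : ∀ i, 0 ≤ K i) {G : Finset ι} {a c z : Fin d → ℝ} {κ : ℝ}
    (hv : ∀ e ∈ G, ∑ i, v e i ^ 2 ≤ 1) (hb : ∀ e ∈ G, ∑ l, b e l ^ 2 ≤ 1)
    (h : Inv v b K G a c z κ) (hG : 2 * ell d < G.card) :
    ∃ G' ⊆ G, ∃ m z' z'' : Fin d → ℝ, Inv v b K G' a m z' (κ/2) ∧
      Inv v b K (G \ G') m c z'' (κ/2) ∧ G'.card < G.card ∧ (G \ G').card < G.card := by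
  classical
  have hd1 : (1:ℝ) ≤ d := by exact_mod_cast hd
  have hd0 : (0:ℝ) < d := by linarith
  obtain ⟨κpos, hend, hTV, hQ, hfat, hpotA, hpotC, hdone⟩ := h
  obtain ⟨hZ0, hζ0, hZh, hZs, hZc, hζc, hζ1, hZl⟩ := param_facts hd hK κpos
  have hℓ : 20 ≤ ell d := ell_ge hd
  have hlam0 : 16000 ≤ lam d := lam_ge hd
  have hdl := inv_d_lt_lam hd
  have hκK : ∀ i, 0 ≤ κ * K i := fun i => mul_nonneg κpos.le (hK i)
  have hκK2 : ∀ i, κ / 2 * K i = κ * K i / 2 := fun i => by ring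
  obtain ⟨x, hx, hx1, hx2⟩ := steer hd hK (w := fun i => -(a i + c i)) κpos hb hQ (by
    intro i hi
    have h1 := hfat i hi
    rw [abs_neg]
    calc |a i + c i| ≤ |a i| + |c i| := abs_add_le _ _
      _ ≤ ell d := by linarith [h1.1, h1.2])
  -- the unrounded midpoint
  set u : Fin d → ℝ := fun i => (a i + c i) / 2 + (∑ e ∈ G, x e * v e i) / 2 with hu
  have hu0 : ∀ i, lam d ≤ κ * K i → u i = 0 := by
    intro i hi
    simp only [hu]
    rw [hx1 i hi]
    ring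
  have hbnd : ∀ (p : Fin d → ℝ), ∑ i, contrib K κ p z i ≤ BB K κ → ∀ i, κ * K i < lam d →
      1 / (d : ℝ) ≤ κ * K i → p i ^ 2 ≤ BB K κ := by
    intro p hp i h1 h2
    rw [← contrib_mid (K := K) (κ := κ) (p := p) (z := z) h1 h2]
    exact (Finset.single_le_sum (f := fun i => contrib K κ p z i)
      (fun j _ => contrib_nonneg K κ p z j) (Finset.mem_univ i)).trans hp
  have humid : ∀ i, κ * K i < lam d → 1 / (d : ℝ) ≤ κ * K i →
      u i ^ 2 ≤ (a i ^ 2 + c i ^ 2) / 2 + 2 * 10^5 * (d : ℝ)^7 * ell d * zeta K κ := by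
    intro i h1 h2
    exact sq_mid_le hd hK κpos (hbnd a hpotA i h1 h2) (hbnd c hpotC i h1 h2) (hx2 i h1)
  set S : Finset (Fin d) :=
    Finset.univ.filter (fun i => κ / 2 * K i < lam d ∧ 1 / (d : ℝ) ≤ κ * K i) with hS
  have huU : ∑ i ∈ S, u i ^ 2 ≤ UU d := by
    have h1 : ∑ i ∈ S, u i ^ 2 ≤ ∑ i : Fin d, ((contrib K κ a z i + contrib K κ c z i) / 2 +
        2 * 10^5 * (d : ℝ)^7 * ell d * zeta K κ) := by
      have hnn : 0 ≤ 2 * 10^5 * (d : ℝ)^7 * ell d * zeta K κ := by positivity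
      have h2 : ∑ i ∈ S, u i ^ 2 ≤ ∑ i ∈ S, ((contrib K κ a z i + contrib K κ c z i) / 2 +
        2 * 10^5 * (d : ℝ)^7 * ell d * zeta K κ) := by
        refine Finset.sum_le_sum fun i hi => ?_
        have hi' := (Finset.mem_filter.mp hi).2
        by_cases h2 : lam d ≤ κ * K i
        · rw [hu0 i h2]
          have h3 := contrib_nonneg K κ a z i
          have h4 := contrib_nonneg K κ c z i
          rw [zero_pow two_ne_zero]
          linarith
        · push Not at h2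
          rw [contrib_mid h2 hi'.2, contrib_mid h2 hi'.2]
          exact humid i h2 hi'.2
      refine h2.trans (Finset.sum_le_univ_sum_of_nonneg fun i => ?_)
      have h3 := contrib_nonneg K κ a z i
      have h4 := contrib_nonneg K κ c z i
      linarith
    rw [Finset.sum_add_distrib, Finset.sum_const, Finset.card_univ, Fintype.card_fin, nsmul_eq_mul,
      ← Finset.sum_div, Finset.sum_add_distrib] at h1
    have h2 : (d:ℝ) * (2 * 10^5 * (d : ℝ)^7 * ell d * zeta K κ) =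
      2 * (zeta K κ * (10^5 * (d:ℝ)^8 * ell d)) := by ring
    rw [h2] at h1
    have h3 := BB_le_UU hd hK κpos
    have h4 : (1:ℝ) ≤ (d:ℝ)^8 := one_le_pow₀ hd1
    have h5 : 10^8 ≤ UU d := by unfold UU; linarith
    linarith
  obtain ⟨G', hsub, hv1, hT1, hT2, hQ1, hQ2, hc1, hc2, hquad⟩ := split hd hv hb x
    (fun e he => (hx e he).trans (by linarith)) S u huU
  have hD : ∀ i, 0 ≤ d * (κ * K i) := fun i => mul_nonneg hd0.le (hκK i)
  have hX : ∀ i, |∑ e ∈ G, x e * (|v e i|)| ≤ zeta K κ * ∑ e ∈ G, |v e i| := fun i =>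
    P262.abs_sum_mul_le G hζ0 hx (fun e _ => (abs_abs _).le)
  have hXQ : ∀ i l, |∑ e ∈ G, x e * (v e i * b e l)| ≤ zeta K κ * ∑ e ∈ G, |v e i| := fun i l =>
    P262.abs_sum_mul_le G hζ0 hx (fun e he => by
      rw [abs_mul]
      exact mul_le_of_le_one_right (abs_nonneg _) (P262.abs_le_one_of_sum_sq (hb e he) l))
  have TV1 : ∀ i, ∑ e ∈ G', |v e i| ≤ d * (κ / 2 * K i) * (1 + 2 * Zf K (κ/2)) + 2 * ell d := by
    intro i
    have h := P262.prop_TV (hD i) hζ0 hZ0 hZs hZh (by linarith) (hTV i) (hX i) (hT1 i)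
    rw [hκK2]
    linarith
  have TV2 : ∀ i, ∑ e ∈ G \ G', |v e i| ≤
      d * (κ / 2 * K i) * (1 + 2 * Zf K (κ/2)) + 2 * ell d := by
    intro i
    have h := P262.prop_TV (X := -∑ e ∈ G, x e * (|v e i|)) (hD i) hζ0 hZ0 hZs hZh (by linarith)
      (hTV i) (by rw [abs_neg]; exact hX i) (by rw [← sub_eq_add_neg]; exact hT2 i)
    rw [hκK2]
    linarith
  have Q1 : ∀ i l, |∑ e ∈ G', v e i * b e l - (if i = l then κ / 2 * K i else 0)| ≤
      2 * d * (κ / 2 * K i) * Zf K (κ/2) + 2 * ell d := by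
    intro i l
    have h := P262.prop_Q (hD i) hζ0 hZ0 hZs hZh (by linarith) (hTV i)
      (δ := if i = l then κ * K i else 0) (by
        have := hQ i l
        linarith) (hXQ i l) (hQ1 i l)
    have h0 : (if i = l then κ / 2 * K i else 0) = (if i = l then κ * K i else 0) / 2 := by
      split_ifs <;> ring
    rw [h0, hκK2]
    linarith
  have Q2 : ∀ i l, |∑ e ∈ G \ G', v e i * b e l - (if i = l then κ / 2 * K i else 0)| ≤
      2 * d * (κ / 2 * K i) * Zf K (κ/2) + 2 * ell d := by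
    intro i l
    have h := P262.prop_Q (X := -∑ e ∈ G, x e * (v e i * b e l)) (hD i) hζ0 hZ0 hZs hZh
      (by linarith) (hTV i) (δ := if i = l then κ * K i else 0) (by
        have := hQ i l
        linarith) (by rw [abs_neg]; exact hXQ i l) (by rw [← sub_eq_add_neg]; exact hQ2 i l)
    have h0 : (if i = l then κ / 2 * K i else 0) = (if i = l then κ * K i else 0) / 2 := by
      split_ifs <;> ring
    rw [h0, hκK2]
    linarith
  -- the midpoint
  have hmeq : ∀ i, u i + (∑ e ∈ G', v e i - (∑ e ∈ G, v e i + ∑ e ∈ G, x e * v e i) / 2) =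
      a i + ∑ e ∈ G', v e i := by
    intro i
    simp only [hu]
    rw [hend i]
    ring
  simp_rw [hmeq] at hquad
  have hmfat : ∀ i, lam d ≤ κ * K i → |a i + ∑ e ∈ G', v e i| ≤ ell d / 2 := by
    intro i hi
    have h1 := hx1 i hi
    have h2 := abs_le.mp (hv1 i)
    have h3 := hend i
    rw [h1] at h2
    rw [abs_le]
    constructor <;> linarith [h2.1, h2.2]
  have fat2 : ∀ i, lam d ≤ κ / 2 * K i → |a i| ≤ ell d / 2 ∧ |a i + ∑ e ∈ G', v e i| ≤ ell d / 2 ∧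
      |c i| ≤ ell d / 2 := by
    intro i hi
    rw [hκK2] at hi
    have hi' : lam d ≤ κ * K i := by linarith
    exact ⟨(hfat i hi').1, hmfat i hi', (hfat i hi').2⟩
  -- total variation of the newly done coordinates
  have hτ : tau d = 2 * ell d + 2 := rfl
  have TVτ : ∀ i, κ / 2 * K i < 1 / (d : ℝ) → ∑ e ∈ G', |v e i| ≤ tau d ∧
      ∑ e ∈ G \ G', |v e i| ≤ tau d := by
    intro i hi
    have h7 : d * (κ / 2 * K i) * (1 + 2 * Zf K (κ/2)) ≤ 2 := by
      have h8 : d * (κ / 2 * K i) ≤ 1 := by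
        rw [lt_div_iff₀ hd0] at hi; linarith
      have h9 : 0 ≤ d * (κ / 2 * K i) := by
        rw [hκK2]; have := hκK i; positivity
      have h10 : 1 + 2 * Zf K (κ/2) ≤ 2 := by linarith
      calc d * (κ / 2 * K i) * (1 + 2 * Zf K (κ/2)) ≤ 1 * 2 :=
            mul_le_mul h8 h10 (by linarith) (by norm_num)
        _ = 2 := by norm_num
    have h8 := TV1 i
    have h9 := TV2 i
    rw [hτ]
    exact ⟨by linarith, by linarith⟩
  -- the centres
  set z' : Fin d → ℝ := fun i => if κ * K i < 1 / (d : ℝ) then z i else a i with hz'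
  set z'' : Fin d → ℝ := fun i => if κ * K i < 1 / (d : ℝ) then z i else c i with hz''
  have hz'1 : ∀ i, κ * K i < 1 / (d : ℝ) → z' i = z i := fun i hi => by
    simp only [hz']; rw [if_pos hi]
  have hz'2 : ∀ i, 1 / (d : ℝ) ≤ κ * K i → z' i = a i := fun i hi => by
    simp only [hz']; rw [if_neg (not_lt.mpr hi)]
  have hz''1 : ∀ i, κ * K i < 1 / (d : ℝ) → z'' i = z i := fun i hi => by
    simp only [hz'']; rw [if_pos hi]
  have hz''2 : ∀ i, 1 / (d : ℝ) ≤ κ * K i → z'' i = c i := fun i hi => by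
    simp only [hz'']; rw [if_neg (not_lt.mpr hi)]
  have habs : ∀ i, |∑ e ∈ G', v e i| ≤ ∑ e ∈ G', |v e i| := fun i =>
    Finset.abs_sum_le_sum_abs _ _
  have habs2 : ∀ i, |∑ e ∈ G \ G', v e i| ≤ ∑ e ∈ G \ G', |v e i| := fun i =>
    Finset.abs_sum_le_sum_abs _ _
  have hcm : ∀ i, c i - (a i + ∑ e ∈ G', v e i) = ∑ e ∈ G \ G', v e i := by
    intro i
    rw [hend i, ← Finset.sum_sdiff (f := fun e => v e i) hsub]
    ring
  have hdone1 : ∀ i, κ / 2 * K i < 1 / (d : ℝ) → |a i - z' i| + ∑ e ∈ G', |v e i| ≤ 2 * tau d := by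
    intro i hi
    have hnn : 0 ≤ ∑ e ∈ G \ G', |v e i| := Finset.sum_nonneg fun _ _ => abs_nonneg _
    have hsplit := Finset.sum_sdiff (f := fun e => |v e i|) hsub
    by_cases hf : κ * K i < 1 / (d : ℝ)
    · rw [hz'1 i hf]
      have := hdone i hf
      linarith
    · push Not at hf
      rw [hz'2 i hf, sub_self, abs_zero]
      have := (TVτ i hi).1
      linarith
  have hdone2 : ∀ i, κ / 2 * K i < 1 / (d : ℝ) →
      |a i + ∑ e ∈ G', v e i - z'' i| + ∑ e ∈ G \ G', |v e i| ≤ 2 * tau d := by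
    intro i hi
    have hsplit := Finset.sum_sdiff (f := fun e => |v e i|) hsub
    by_cases hf : κ * K i < 1 / (d : ℝ)
    · rw [hz''1 i hf]
      have h1 := hdone i hf
      have h2 : |a i + ∑ e ∈ G', v e i - z i| ≤ |a i - z i| + ∑ e ∈ G', |v e i| := by
        have h3 : a i + ∑ e ∈ G', v e i - z i = (a i - z i) + ∑ e ∈ G', v e i := by ring
        rw [h3]
        exact (abs_add_le _ _).trans (by linarith [habs i])
      linarith
    · push Not at hf
      rw [hz''2 i hf]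
      have h2 : |a i + ∑ e ∈ G', v e i - c i| ≤ ∑ e ∈ G \ G', |v e i| := by
        rw [abs_sub_comm, hcm i]
        exact habs2 i
      have := (TVτ i hi).2
      linarith
  -- potentials
  have hΔ : ∑ i, contrib K κ a z i + ∑ i, (bet K (κ/2) i - bet K κ i) ≤ BB K (κ/2) ∧
      ∑ i, contrib K κ c z i + ∑ i, (bet K (κ/2) i - bet K κ i) ≤ BB K (κ/2) := by
    rw [Finset.sum_sub_distrib]
    have h5 : 2 * 10^5 * (d : ℝ)^8 * ell d * Zf K κ ≤
        2 * 10^5 * (d : ℝ)^8 * ell d * Zf K (κ/2) :=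
      mul_le_mul_of_nonneg_left (by linarith) (by positivity)
    unfold BB at hpotA hpotC ⊢
    constructor <;> linarith
  have pA1 : ∑ i, contrib K (κ/2) a z' i ≤ BB K (κ/2) :=
    (pot_endpoint hd hK κpos (fun i hi => (hfat i hi).1) hz'1 hz'2).trans hΔ.1
  have pC2 : ∑ i, contrib K (κ/2) c z'' i ≤ BB K (κ/2) :=
    (pot_endpoint hd hK κpos (fun i hi => (hfat i hi).2) hz''1 hz''2).trans hΔ.2
  have pM1 : ∑ i, contrib K (κ/2) (fun i => a i + ∑ e ∈ G', v e i) z' i ≤ BB K (κ/2) := by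
    refine pot_new hd hK κpos hz'1 hz'2 ?_ hu0 humid hquad hpotA hpotC
    intro i _ hi
    have h1 : a i - (a i + ∑ e ∈ G', v e i) = -∑ e ∈ G', v e i := by ring
    rw [h1, abs_neg]
    exact (habs i).trans (TVτ i hi).1
  have pM2 : ∑ i, contrib K (κ/2) (fun i => a i + ∑ e ∈ G', v e i) z'' i ≤ BB K (κ/2) := by
    refine pot_new hd hK κpos hz''1 hz''2 ?_ hu0 humid hquad hpotA hpotC
    intro i _ hi
    rw [hcm i]
    exact (habs2 i).trans (TVτ i hi).2
  have hXc : |∑ e ∈ G, x e| ≤ G.card * (1/400) := by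
    calc |∑ e ∈ G, x e| ≤ ∑ e ∈ G, |x e| := Finset.abs_sum_le_sum_abs _ _
      _ ≤ ∑ e ∈ G, (1/400 : ℝ) := Finset.sum_le_sum fun e he => (hx e he).trans hζ1
      _ = _ := by rw [Finset.sum_const, nsmul_eq_mul]
  have hXc' := abs_le.mp hXc
  have hlt1 : (G'.card : ℝ) < G.card := by
    have h2 := abs_le.mp hc1
    linarith [h2.2, hXc'.2]
  have hlt2 : ((G \ G').card : ℝ) < G.card := by
    have h2 := abs_le.mp hc2
    linarith [hXc'.1, h2.2]
  refine ⟨G', hsub, fun i => a i + ∑ e ∈ G', v e i, z', z'', ?_, ?_, by exact_mod_cast hlt1,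
    by exact_mod_cast hlt2⟩
  · exact ⟨by positivity, fun i => rfl, TV1, Q1, fun i hi => ⟨(fat2 i hi).1, (fat2 i hi).2.1⟩,
      pA1, pM1, hdone1⟩
  · refine ⟨by positivity, fun i => ?_, TV2, Q2, fun i hi => ⟨(fat2 i hi).2.1, (fat2 i hi).2.2⟩,
      pM2, pC2, hdone2⟩
    have := hcm i
    linarith

end P262Q
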